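import Crest.Agent.N250.B1.Defs

/-!
# Row 250, block B1 (helper6): statements of the end solver
-/

set_option autoImplicit false
open Set Complex Filter Topology

noncomputable section

namespace Crest.Agent.N250.B1

/-- the symbol is small: `ℓ m ≤ c₀ |m| / R` -/
def Ell.Sm (ℓ : Ell) (c0 R : ℝ) : Prop := ∀ m : ℤ, ℓ.l m ≤ c0 * |(m : ℝ)| / R

/-- (S1-S4) the linear problem at a real base point: existence and the a-priori bound -/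
def LinS : Prop :=
  ∀ g g', Ex g g' → ∃ R1 K1 c0 C : ℝ, 1 ≤ R1 ∧ 1 ≤ K1 ∧ 0 < c0 ∧ 0 < C ∧
    ∀ R K, R1 ≤ R → K1 ≤ K → ∀ ℓ : Ell, ℓ.Sm c0 R → ∀ (X : ℝ) (a : ℂ), 2 * R + 4 ≤ X → 2 * √K ≤ X →
      Adm K X a →
      (∀ (G : Wi (om ℓ)) (D : Dat ℓ), ∃ J, Lin R X a J G ∧ BC D J) ∧
      ∀ (J : Jt ℓ) (G : Wi (om ℓ)) (D : Dat ℓ) (M : ℝ), Lin R X a J G → BC D J →
        WB R X (fun _ => 1) (fun x => mu a x * W g g' a x) G M → dn R g g' X a D ≤ M →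
        InB R K g g' X a (C * M) J

/-- the conclusion of the end solver for one configuration -/
structure IsEnd (R K g g' ε ε1 C : ℝ) (ℓ : Ell) (U : Par ℓ → Jt ℓ) : Prop where
  hol : DifferentiableOn ℂ U (Dom R K g g' ε)
  sol : ∀ z ∈ Dom R K g g' ε, Sol R z (U z)
  bd : ∀ z ∈ Dom R K g g' ε, InB R K g g' z.1.re z.2.1
    (C * (‖z.2.1‖ * z.1.re ^ 2 / K + dn R g g' z.1.re z.2.1 z.2.2)) (U z)
  uniq : ∀ z ∈ Dom R K g g' ε, ∀ J, Sol R z J → InB R K g g' z.1.re z.2.1 ε1 J → J = U z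

/-- (S5) the end solver; `C (3 / K + ε) ≤ ε1 / 4` -/
def EndS : Prop :=
  ∀ g g', Ex g g' → ∀ e0 > 0, ∃ R1 K1 c0 ε ε1 C : ℝ, 1 ≤ R1 ∧ 1 ≤ K1 ∧ 0 < c0 ∧ 0 < ε ∧ 0 < C ∧
    ε1 ≤ e0 ∧ C * (3 / K1 + ε) ≤ ε1 / 4 ∧
    ∀ R K, R1 ≤ R → K1 ≤ K → ∀ ℓ : Ell, ℓ.Sm c0 R → ∃ U, IsEnd R K g g' ε ε1 C ℓ U

/-- the jet of `v` is regular: the Lagrangian is holomorphic near it -/
def RegJ {ℓ : Ell} (R : ℝ) (X a : ℂ) (J : Jt ℓ) : Prop :=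
  ∀ s θ, vj R X a J s θ 0 ≠ 0 ∧
    Po.QQ (vj R X a J s θ 0) (vj R X a J s θ 1) (vj R X a J s θ 3) ∈ slitPlane



end Crest.Agent.N250.B1

end
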