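import Crest.Agent.N250.B1.Stm

/-!
# Row 250, B1 S6 (helper3): conjugation symmetry and reality of the end solver
-/

set_option autoImplicit false
open Set Complex
open scoped ComplexConjugate

noncomputable section

namespace Crest.Agent.N250.B1

namespace Cj

section Wiener

variable {A : Type} [NormedCommRing A] [StarRing A] [NormedStarGroup A] {ω : WiW A}

theorem summable_cj (u : Wi ω) : Summable fun m => ‖star (Wi.raw u (-m))‖ := by
  simp only [norm_star]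
  exact (Equiv.neg ℤ).summable_iff.2 (Wi.summable_raw u)

/-- conjugation of the function with the coefficients `u` -/
def _root_.Crest.Agent.N250.Wi.cj (u : Wi ω) : Wi ω :=
  (⟨fun m => star (Wi.raw u (-m)), memℓp_gen (by simpa using summable_cj u)⟩ : lp (fun _ : ℤ => A) 1)

open Wi (cj)

theorem raw_cj (u : Wi ω) (m : ℤ) : Wi.raw (cj u) m = star (Wi.raw u (-m)) := rfl

@[simp] theorem norm_cj (u : Wi ω) : ‖cj u‖ = ‖u‖ := by
  simp only [Wi.norm_eq_raw, raw_cj, norm_star]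
  exact (Equiv.neg ℤ).tsum_eq fun m => ‖Wi.raw u m‖

@[simp] theorem cj_cj (u : Wi ω) : cj (cj u) = u := Wi.ext_raw fun m => by simp [raw_cj]

theorem cj_add (u v : Wi ω) : cj (u + v) = cj u + cj v :=
  Wi.ext_raw fun m => by simp [raw_cj, Wi.raw_add]

theorem cj_neg (u : Wi ω) : cj (-u) = -cj u := Wi.ext_raw fun m => by simp [raw_cj, Wi.raw_neg]

theorem cj_sub (u v : Wi ω) : cj (u - v) = cj u - cj v := by
  rw [sub_eq_add_neg, cj_add, cj_neg, sub_eq_add_neg]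

variable (ω) in
/-- real even weights -/
def Ev : Prop := ∀ m, star (ω.wi (-m)) = ω.wi m

theorem co_cj (h : Ev ω) (u : Wi ω) (m : ℤ) : Wi.co (cj u) m = star (Wi.co u (-m)) := by
  rw [Wi.co, Wi.co, star_mul', h, raw_cj]

theorem cj_single (h : Ev ω) (k : ℤ) (a : A) : cj (Wi.single ω k a) = Wi.single ω (-k) (star a) :=
  Wi.ext fun m => by
    rw [co_cj h, Wi.co_single, Wi.co_single]
    by_cases e : m = -k
    · simp [e]
    · rw [if_neg e, if_neg (by omega), star_zero]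

theorem syn_cj [NormedAlgebra ℂ A] [CompleteSpace A] [StarModule ℂ A] (h : Ev ω) (u : Wi ω) (θ : ℝ) :
    Wi.syn (cj u) θ = star (Wi.syn u θ) := by
  refine (Wi.hasSum_syn (cj u) θ).unique ?_
  have := ((Equiv.neg ℤ).hasSum_iff.2 (Wi.hasSum_syn u θ)).star
  refine this.congr_fun fun m => ?_
  simp [co_cj h, star_smul, Wi.ex, ← exp_conj]

end Wiener

open Wi (cj)

variable {ℓ : Ell}

theorem ev_om (ℓ : Ell) : Ev (om ℓ) := fun m => by
  ext s; simp [om, eW, ℓ.neg, -ofReal_exp]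

theorem ev_omP (k : ℕ) : Ev (omP k) := fun m => by simp [omP, scW, -ofReal_pow, -ofReal_add]

theorem ev_omF (ℓ : Ell) : Ev (omF ℓ) := fun m => by
  simp [omF, scW, ℓ.neg, -ofReal_mul, -ofReal_exp, -ofReal_add]

theorem co_cj_apply (u : Wi (om ℓ)) (m : ℤ) (s : II) :
    Wi.co (cj u) m s = conj (Wi.co u (-m) s) := by rw [co_cj (ev_om ℓ)]; rfl

theorem val_cj (u : Wi (om ℓ)) (s : II) (θ : ℝ) : val (cj u) s θ = conj (val u s θ) := by
  rw [val, syn_cj (ev_om ℓ)]; rfl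

/-- conjugate jet -/
def _root_.Crest.Agent.N250.B1.cJ (J : Jt ℓ) : Jt ℓ := fun i => cj (J i)

/-- conjugate data -/
def _root_.Crest.Agent.N250.B1.cD (D : Dat ℓ) : Dat ℓ := (cj D.1, cj D.2.1, conj D.2.2.2, conj D.2.2.1)

/-- conjugate parameters -/
def _root_.Crest.Agent.N250.B1.cz (z : Par ℓ) : Par ℓ := (conj z.1, conj z.2.1, cD z.2.2)

@[simp] theorem cJ_cJ (J : Jt ℓ) : cJ (cJ J) = J := funext fun _ => cj_cj _

@[simp] theorem cD_cD (D : Dat ℓ) : cD (cD D) = D := by simp [cD]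

@[simp] theorem cz_cz (z : Par ℓ) : cz (cz z) = z := by simp [cz]

theorem gam_cj (R : ℝ) (X : ℂ) (s : II) : gam R (conj X) s = conj (gam R X s) := by
  simp [gam, map_ofNat]

theorem dgam_cj (R : ℝ) (X : ℂ) : dgam R (conj X) = star (dgam R X) := by
  ext s; simp [dgam]

theorem et_cj (a x : ℂ) : et (conj a) (conj x) = conj (et a x) := by simp [et, map_ofNat]

theorem et_cj' (a : ℂ) (x : ℝ) : et (conj a) x = conj (et a x) := by rw [← et_cj, conj_ofReal]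

theorem W_cj (g g' : ℝ) (a : ℂ) : W g g' (conj a) = W g g' a := by
  funext x; rw [W, W, et_cj', norm_conj]


theorem der_star {y y' : CI} (h : Der y y') : Der (star y) (star y') :=
  der_of_at fun _ ht => (h.at ht).star

theorem isJet_cj {c : CI} {J : Jt ℓ} (h : IsJet c J) : IsJet (star c) (cJ J) where
  d0 m := by simpa only [cJ, co_cj (ev_om ℓ), star_mul'] using der_star (h.d0 (-m))
  d1 m := by simpa only [cJ, co_cj (ev_om ℓ), star_mul'] using der_star (h.d1 (-m))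
  t0 m := by simp [cJ, co_cj (ev_om ℓ), h.t0, star_smul]
  t1 m := by simp [cJ, co_cj (ev_om ℓ), h.t1, star_smul]
  t2 m := by simp [cJ, co_cj (ev_om ℓ), h.t2, star_smul]

theorem bc_cj {D : Dat ℓ} {J : Jt ℓ} (h : BC D J) : BC (cD D) (cJ J) where
  inner m hm := by
    rw [cJ, co_cj_apply, h.inner _ (by rwa [abs_neg])]; exact (co_cj (ev_omP 2) _ _).symm
  slope m := by rw [cJ, co_cj_apply, h.slope]; exact (co_cj (ev_omF ℓ) _ _).symm
  far0 := by rw [cJ, co_cj_apply, neg_zero, h.far0, map_zero]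
  farp := by rw [cJ, co_cj_apply, h.farm]; rfl
  farm := by rw [cJ, co_cj_apply, neg_neg, h.farp]; rfl

theorem vj_cj (R : ℝ) (X a : ℂ) (J : Jt ℓ) (s : II) (θ : ℝ) (i : Fin 6) :
    vj R (conj X) (conj a) (cJ J) s θ i = conj (vj R X a J s θ i) := by
  fin_cases i <;> simp [vj, cJ, val_cj, gam_cj, et_cj]

theorem QQ_cj (v p q : ℂ) : Po.QQ (conj v) (conj p) (conj q) = conj (Po.QQ v p q) := by
  simp [Po.QQ, map_ofNat]

theorem EL_cj (x v p q r m t : ℂ) : Po.EL (conj x) (conj v) (conj p) (conj q) (conj r) (conj m)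
    (conj t) = conj (Po.EL x v p q r m t) := by simp [Po.EL, QQ_cj, map_ofNat]

variable {R K g g' ε ε1 C X M M' : ℝ} {z : Par ℓ} {J : Jt ℓ}

theorem sol_cj (h : Sol R z J) : Sol R (cz z) (cJ J) where
  jet := dgam_cj R z.1 ▸ isJet_cj h.jet
  bc := bc_cj h.bc
  eq s θ := by simp only [cz, vj_cj, gam_cj, EL_cj, h.eq, map_zero]

theorem wb_cj {f0 f : ℝ → ℝ} {u : Wi (om ℓ)} (h : WB R X f0 f u M) : WB R X f0 f (cj u) M := by
  obtain ⟨β, h1, h2, h3, h4⟩ := h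
  refine ⟨fun m => β (-m), (Equiv.neg ℤ).summable_iff.2 h1, ((Equiv.neg ℤ).tsum_eq β).trans_le h2,
    fun s => ?_, fun m hm s => ?_⟩
  · simpa only [co_cj_apply, norm_conj, neg_zero] using h3 s
  · simpa only [co_cj_apply, norm_conj, ℓ.neg] using h4 (-m) (neg_ne_zero.2 hm) s

theorem wb_mono {f0 f : ℝ → ℝ} {u : Wi (om ℓ)} (h : WB R X f0 f u M) (hM : M ≤ M') :
    WB R X f0 f u M' :=
  let ⟨β, h1, h2, h3⟩ := h
  ⟨β, h1, h2.trans hM, h3⟩

theorem inB_mono {a : ℂ} (h : InB R K g g' X a M J) (hM : M ≤ M') : InB R K g g' X a M' J :=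
  ⟨wb_mono h.b0 hM, wb_mono h.b1 hM, wb_mono h.b2 hM, wb_mono h.b3 hM, wb_mono h.b4 hM,
    wb_mono h.b5 hM⟩

theorem inB_cj {a : ℂ} (h : InB R K g g' X a M J) : InB R K g g' X (conj a) M (cJ J) := by
  constructor <;> simp only [W_cj, et_cj', norm_conj]
  exacts [wb_cj h.b0, wb_cj h.b1, wb_cj h.b2, wb_cj h.b3, wb_cj h.b4, wb_cj h.b5]

theorem dn_cj (a : ℂ) (D : Dat ℓ) : dn R g g' X (conj a) (cD D) = dn R g g' X a D := by
  have e : cj D.2.1 - Wi.single _ 0 (Wi.co (cj D.2.1) 0) =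
      cj (D.2.1 - Wi.single _ 0 (Wi.co D.2.1 0)) := by
    rw [cj_sub, cj_single (ev_omF ℓ), co_cj (ev_omF ℓ), neg_zero]
  simp only [dn, cD, e]
  rw [norm_cj, norm_cj, co_cj (ev_omF ℓ), neg_zero, norm_star, norm_conj, norm_conj, W_cj, et_cj',
    conj_re, add_right_comm (X * _)]

theorem adm_cj {a : ℂ} (h : Adm K X a) : Adm K X (conj a) := by
  rw [Adm, ← norm_conj] at h
  simpa [Adm, map_ofNat] using h

theorem dom_cj (h : z ∈ Dom R K g g' ε) : cz z ∈ Dom R K g g' ε := by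
  obtain ⟨h1, h2, h3, h4, h5⟩ := h
  refine ⟨h1, h2, ?_, adm_cj h4, (dn_cj _ _).trans_lt h5⟩
  simpa [cz] using h3



/-- the a-priori bound is inside the ball of uniqueness -/
theorem bd_le (hK : 0 < K) (hC : 0 ≤ C) (h1 : C * (3 / K + ε) ≤ ε1) (hz : z ∈ Dom R K g g' ε) :
    C * (‖z.2.1‖ * z.1.re ^ 2 / K + dn R g g' z.1.re z.2.1 z.2.2) ≤ ε1 := by
  obtain ⟨-, -, -, h4, h5⟩ := hz
  have h6 := norm_sub_norm_le (z.2.1 * z.1.re ^ 2 / 2) (1 / 8)
  have h7 : 0 ≤ 2 * K / z.1.re ^ 2 := by positivity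
  simp only [norm_div, norm_mul, norm_pow, norm_real, Real.norm_eq_abs, sq_abs, Complex.norm_ofNat,
    norm_one] at h6
  rw [Adm] at h4
  refine le_trans ?_ h1
  gcongr
  linarith

variable {U : Par ℓ → Jt ℓ}

theorem inB_of (h : IsEnd R K g g' ε ε1 C ℓ U) (hK : 0 < K) (hC : 0 ≤ C)
    (h1 : C * (3 / K + ε) ≤ ε1) (hz : z ∈ Dom R K g g' ε) :
    InB R K g g' z.1.re z.2.1 ε1 (U z) := inB_mono (h.bd z hz) (bd_le hK hC h1 hz)

/-- **conjugation symmetry** of the family -/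
theorem _root_.Crest.Agent.N250.B1.IsEnd.conj (h : IsEnd R K g g' ε ε1 C ℓ U) (hK : 0 < K) (hC : 0 ≤ C)
    (h1 : C * (3 / K + ε) ≤ ε1) (hz : z ∈ Dom R K g g' ε) : U (cz z) = cJ (U z) :=
  (h.uniq _ (dom_cj hz) _ (sol_cj (h.sol z hz)) (inB_cj (inB_of h hK hC h1 hz))).symm

theorem val_real {u : Wi (om ℓ)} (h : cj u = u) (s : II) (θ : ℝ) : (val u s θ).im = 0 :=
  conj_eq_iff_im.1 (by rw [← val_cj, h])

/-- **reality**: real parameters and data give a real solution -/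
theorem _root_.Crest.Agent.N250.B1.IsEnd.real (h : IsEnd R K g g' ε ε1 C ℓ U) (hK : 0 < K) (hC : 0 ≤ C)
    (h1 : C * (3 / K + ε) ≤ ε1) (hz : z ∈ Dom R K g g' ε) (hr : cz z = z) :
    cJ (U z) = U z ∧ ∀ s θ i, (val (U z i) s θ).im = 0 ∧ (vj R z.1 z.2.1 (U z) s θ i).im = 0 := by
  have e : cJ (U z) = U z := by rw [← h.conj hK hC h1 hz, hr]
  refine ⟨e, fun s θ i => ⟨val_real (congrFun e i) s θ, conj_eq_iff_im.1 ?_⟩⟩
  rw [← vj_cj, e, show conj z.1 = z.1 from congrArg (·.1) hr,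
    show conj z.2.1 = z.2.1 from congrArg (·.2.1) hr]

theorem Lag_cj {x v p q : ℂ} (h : Po.QQ v p q ∈ slitPlane) :
    Lag (conj x) (conj v) (conj p) (conj q) = conj (Lag x v p q) := by
  rw [Lag, Lag, QQ_cj, conj_cpow _ _ (slitPlane_arg_ne_pi h)]
  simp [← exp_conj, map_ofNat]



end Cj

end Crest.Agent.N250.B1

end
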