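import Crest.Agent.N250.B1.Sm2
import Crest.Agent.N250.B1.Reg
import Crest.Agent.N250.B1.Conj

/-!
# Row 250, B1 S6 (helper95): smoothness of the end solutions, jets on the strip
-/

set_option autoImplicit false
open Set Filter Topology Complex
open scoped ContDiff

noncomputable section

namespace Crest.Agent.N250.B1

open Sm

variable {ℓ : Ell} {R K g g' ε e : ℝ} {n : ℕ}

theorem sig_mono : Monotone sig := fun u v h => by
  have : max (1 - v) 0 ≤ max (1 - u) 0 := max_le_max (by linarith) le_rfl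
  have := pow_le_pow_left₀ (le_max_right _ _) this 3
  unfold sig; linarith

theorem sig_pos {u : ℝ} (hu : 0 < u) : 0 < sig u := by
  have h1 : max (1 - u) 0 < 1 := max_lt (by linarith) zero_lt_one
  have := pow_lt_one₀ (le_max_right (1 - u) 0) h1 three_ne_zero
  unfold sig; linarith

/-- the symbol `l` gives `n` derivatives where `ς ≥ σ` -/
def Gn (l : ℤ → ℝ) (σ : ℝ) (n : ℕ) (B : ℝ) : Prop :=
  (∀ m, 0 ≤ l m) ∧ ∀ m : ℤ, (1 + |(m : ℝ)|) ^ n * Real.exp (-(σ * l m)) ≤ B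


theorem exists_gn {l : ℤ → ℝ} {c σ : ℝ} (hc : 0 < c) (hl : ∀ m : ℤ, c * |(m : ℝ)| ≤ l m)
    (hσ : 0 < σ) (n : ℕ) : ∃ B, Gn l σ n B := by
  have hk : 0 < σ * c := mul_pos hσ hc
  refine ⟨n.factorial * Real.exp (σ * c) / (σ * c) ^ n,
    fun m => le_trans (by positivity) (hl m), fun m => ?_⟩
  have h1 := Real.pow_div_factorial_le_exp (σ * c * (1 + |(m : ℝ)|)) (by positivity) n
  rw [div_le_iff₀ (by positivity), mul_pow] at h1
  have h2 : Real.exp (σ * c * (1 + |(m : ℝ)|)) * Real.exp (-(σ * l m)) ≤ Real.exp (σ * c) := by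
    rw [← Real.exp_add]
    have := mul_le_mul_of_nonneg_left (hl m) hσ.le
    exact Real.exp_le_exp.2 (by linarith)
  rw [le_div_iff₀ (by positivity)]
  calc _ = (σ * c) ^ n * (1 + |(m : ℝ)|) ^ n * Real.exp (-(σ * l m)) := by ring
    _ ≤ Real.exp (σ * c * (1 + |(m : ℝ)|)) * n.factorial * Real.exp (-(σ * l m)) := by gcongr
    _ = n.factorial * (Real.exp (σ * c * (1 + |(m : ℝ)|)) * Real.exp (-(σ * l m))) := by ring
    _ ≤ _ := by gcongr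

theorem Gn.le {l : ℤ → ℝ} {σ B σ' : ℝ} (h : Gn l σ n B) (hs : σ ≤ σ') (m : ℤ) :
    (1 + |(m : ℝ)|) ^ n * Real.exp (-(σ' * l m)) ≤ B := by
  refine le_trans ?_ (h.2 m)
  have := mul_le_mul_of_nonneg_right hs (h.1 m)
  gcongr

theorem Gn.gain {σ B : ℝ} (h : Gn ℓ.l σ n B) {s : II} (hs : σ ≤ sig (2 * s)) :
    Gain (om ℓ) n B s := fun m => by
  have e : ‖(om ℓ).wi m s‖ = Real.exp (-(sig (2 * s) * ℓ.l m)) := by
    change ‖((Real.exp (sig (2 * s) * -ℓ.l m) : ℝ) : ℂ)‖ = _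
    rw [norm_real, Real.norm_eq_abs, abs_of_pos (Real.exp_pos _), mul_neg]
  rw [e]; exact h.le hs m

/-- `ℓ¹` bound on the strip for the symbol `l` -/
def SB (l : ℤ → ℝ) (u : Wi (om ℓ)) (M : ℝ) : Prop :=
  ∃ β : ℤ → ℝ, Summable β ∧ ∑' m, β m ≤ M ∧
    ∀ m, ∀ s : II, (s : ℝ) ≤ 1 / 2 → Real.exp (sig (2 * s) * l m) * ‖Wi.co u m s‖ ≤ β m

theorem SB.sy_le {l : ℤ → ℝ} {u : Wi (om ℓ)} {M σ B : ℝ} (h : SB l u M) (hG : Gn l σ n B)
    {τ : ℝ → II} {y : ℝ × ℝ} (h1 : (τ y.1 : ℝ) ≤ 1 / 2) (h2 : σ ≤ sig (2 * τ y.1)) {i : ℕ}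
    (hi : i ≤ n) : ‖Sy i (md τ u) y‖ ≤ B * M := by
  obtain ⟨β, hs, hM, hb⟩ := h
  have hB : 0 ≤ B := le_trans (by positivity) (hG.2 0)
  refine (norm_Sy_le hi (hs.hasSum.mul_left B) fun m => ?_).trans (mul_le_mul_of_nonneg_left hM hB)
  have e : (1 + |(m : ℝ)|) ^ n * ‖md τ u m y.1‖ =
      (1 + |(m : ℝ)|) ^ n * Real.exp (-(sig (2 * τ y.1) * l m)) *
        (Real.exp (sig (2 * τ y.1) * l m) * ‖Wi.co u m (τ y.1)‖) := by
    rw [mul_assoc, ← mul_assoc (Real.exp _), ← Real.exp_add]; simp [md]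
  rw [e]
  exact mul_le_mul (hG.le h2 m) (hb m _ h1) (by positivity) hB

theorem WB.sb {X M F : ℝ} {f0 f : ℝ → ℝ} {u : Wi (om ℓ)} (h : WB R X f0 f u M)
    (hf : ∀ x ∈ Icc R (R + 1), 0 < f0 x ∧ f0 x ≤ F ∧ 0 < f x ∧ f x ≤ F) : SB ℓ.l u (F * M) := by
  obtain ⟨β, hs, hM, h0, h1⟩ := h
  have hF : 0 ≤ F := by have := hf R ⟨le_rfl, by linarith⟩; linarith [this.1, this.2.1]
  refine ⟨fun m => F * β m, hs.mul_left F, by rw [tsum_mul_left]; gcongr, fun m s hs => ?_⟩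
  have hx : xr R X s ∈ Icc R (R + 1) := by
    rw [xr_strip R X hs]; exact ⟨by linarith [s.2.1], by linarith⟩
  obtain ⟨p0, q0, p1, q1⟩ := hf _ hx
  by_cases hm : m = 0
  · subst hm
    have := h0 s
    have hb : 0 ≤ β 0 := nonneg_of_mul_nonneg_left ((norm_nonneg _).trans this) p0
    simp only [ℓ.zero, mul_zero, Real.exp_zero, one_mul]
    nlinarith
  · have := h1 m hm s
    have hb : 0 ≤ β m := nonneg_of_mul_nonneg_left (le_trans (by positivity) this) p1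
    simp only
    nlinarith

/-- a solution in the small ball -/
structure Sl (R K g g' ε e : ℝ) (z : Par ℓ) (J : Jt ℓ) : Prop where
  dom : z ∈ Dom R K g g' ε
  sol : Sol R z J
  inb : InB R K g g' z.1.re z.2.1 e J

/-- the standing smallness assumptions -/
structure Sz (R K g g' e : ℝ) : Prop where
  ex : Ex g g'
  hR : 2 ≤ R
  hK : 32 ≤ K
  he : e ≤ 1 / 36

theorem Cj.inB_of' {ε1 C : ℝ} {U : Par ℓ → Jt ℓ} (h : IsEnd R K g g' ε ε1 C ℓ U) (hK : 0 < K)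
    (hC : 0 ≤ C) (hs : C * (3 / K + ε) ≤ e) {z : Par ℓ} (hz : z ∈ Dom R K g g' ε) :
    InB R K g g' z.1.re z.2.1 e (U z) := Cj.inB_mono (h.bd z hz) (Cj.bd_le hK hC hs hz)

theorem IsEnd.sl {ε1 C : ℝ} {U : Par ℓ → Jt ℓ} (h : IsEnd R K g g' ε ε1 C ℓ U) (hK : 0 < K)
    (hC : 0 ≤ C) (hs : C * (3 / K + ε) ≤ e) {z : Par ℓ} (hz : z ∈ Dom R K g g' ε) :
    Sl R K g g' ε e z (U z) :=
  ⟨hz, h.sol z hz, Cj.inB_of' h hK hC hs hz⟩

namespace Sl

variable {z : Par ℓ} {J : Jt ℓ} (h : Sl R K g g' ε e z J) (c : Sz R K g g' e)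
include h c

theorem pt (s : II) : Rg.Pt K z.1.re z.2.1 (xr R z.1.re s) :=
  Rg.pt_of_dom c.hR (by linarith [c.hK]) h.dom s

theorem regJ : RegJ R z.1 z.2.1 J := Rg.regJ c.ex c.hR c.hK c.he h.dom (Rg.IsJet.co3 h.sol.jet) h.inb

theorem lower (s : II) (θ : ℝ) :
    7 / 8 * (et z.2.1 (xr R z.1.re s)).re ≤ ‖vj R z.1 z.2.1 J s θ 0‖ ∧
      3 * (et z.2.1 (xr R z.1.re s)).re ^ 2 ≤
        ‖4 * vj R z.1 z.2.1 J s θ 0 ^ 2 + vj R z.1 z.2.1 J s θ 3 ^ 2‖ := by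
  have h1 := (Rg.reg_q c.ex c.hR c.hK c.he h.dom (Rg.IsJet.co3 h.sol.jet) h.inb s θ).1.trans
    (re_le_norm _)
  have h2 := (Rg.jet_le c.ex c.hR (by linarith [c.hK]) h.dom (Rg.IsJet.co3 h.sol.jet) h.inb s θ).2.2
  have hr := (h.pt c s).re_pos
  refine ⟨h1, ?_⟩
  generalize (et z.2.1 (xr R z.1.re s)).re = r at *
  generalize vj R z.1 z.2.1 J s θ 0 = v at *
  generalize vj R z.1 z.2.1 J s θ 3 = t at *
  have h3 : ‖t‖ ≤ r / 16 := by nlinarith [c.he]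
  have h4 := norm_sub_norm_le (4 * v ^ 2) (-t ^ 2)
  rw [sub_neg_eq_add, norm_neg, norm_mul, norm_pow, norm_pow] at h4
  have h5 : ‖(4 : ℂ)‖ = 4 := by simp
  have h6 := pow_le_pow_left₀ (by positivity) h1 2
  have h7 := pow_le_pow_left₀ (norm_nonneg _) h3 2
  rw [h5] at h4
  nlinarith

theorem ne (τ : ℝ → II) (y : ℝ × ℝ) : vk R z.1 z.2.1 J τ 0 y ≠ 0 ∧ vN R z.1 z.2.1 J τ y ≠ 0 ∧
    Po.QQ (vk R z.1 z.2.1 J τ 0 y) (vk R z.1 z.2.1 J τ 1 y) (vk R z.1 z.2.1 J τ 3 y) ≠ 0 := by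
  have h1 := h.regJ c (τ y.1) y.2
  have hr := (h.pt c (τ y.1)).re_pos
  exact ⟨h1.1, norm_pos_iff.1 (lt_of_lt_of_le (by positivity) (h.lower c (τ y.1) y.2).2),
    slitPlane_ne_zero h1.2⟩

theorem pt' {x : ℝ} (hx : x ∈ Icc R (R + 1)) : Rg.Pt K z.1.re z.2.1 x := by
  have := h.pt c (tS R x)
  rwa [xr_tS _ hx] at this

theorem re_strip {x : ℝ} (hx : x ∈ Icc R (R + 1)) : 3 / 4 ≤ (et z.2.1 x).re := by
  have p := h.pt' c hx
  refine le_trans ?_ p.rho_le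
  have h1 := p.t_mem.1
  have h2 := p.k_mem
  have h3 : (x ^ 2 - 2) / z.1.re ^ 2 ≤ 1 / 4 := by
    have := h.dom.1
    have := p.X_pos
    rw [div_le_iff₀ (by positivity)]
    nlinarith [hx.2, p.x_pos]
  unfold rho
  nlinarith

theorem lower_strip {y : ℝ × ℝ} (hy : y.1 ∈ Icc R (R + 1)) :
    1 / 2 ≤ ‖vk R z.1 z.2.1 J (tS R) 0 y‖ ∧ 1 ≤ ‖vN R z.1 z.2.1 J (tS R) y‖ := by
  have h1 := h.lower c (tS R y.1) y.2
  rw [xr_tS _ hy] at h1
  have h2 := h.re_strip c hy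
  exact ⟨by unfold vk; linarith [h1.1], by unfold vN vk; nlinarith [h1.2]⟩

theorem a_le : ‖z.2.1‖ ≤ 1 := by
  have p := h.pt c i0
  have h1 := p.a_le
  have h2 : 4 ≤ z.1.re ^ 2 := by nlinarith [p.x2, p.xX]
  nlinarith [norm_nonneg z.2.1]

theorem sb (k : Fin 6) : SB ℓ.l (J k) (6 * (R + 1) * e) := by
  obtain ⟨g1, g2, g3⟩ := Rg.Ex.bounds c.ex
  have key : ∀ x ∈ Icc R (R + 1), 2 ≤ x ∧ 0 < W g g' z.2.1 x ∧ W g g' z.2.1 x ≤ 6 ∧
      0 < ‖et z.2.1 x‖ ∧ W g g' z.2.1 x / ‖et z.2.1 x‖ ≤ 6 := fun x hx => by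
    have p := h.pt' c hx
    have h1 := p.W_le_sq g1 g2 g3
    have h2 := p.norm_le
    have h3 := p.norm_pos
    refine ⟨p.x2, p.W_pos _ _, by nlinarith, h3, ?_⟩
    rw [div_le_iff₀ h3]; nlinarith
  have hR := c.hR
  have one : (0 : ℝ) < 1 ∧ (1 : ℝ) ≤ 6 * (R + 1) := ⟨one_pos, by linarith⟩
  fin_cases k
  · refine h.inb.b0.sb fun x hx => ?_
    obtain ⟨k1, k2, k3, -⟩ := key x hx
    exact ⟨(h.pt' c hx).rho_pos, (h.pt' c hx).rho_le_one.trans one.2, k2, by linarith⟩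
  · refine h.inb.b1.sb fun x hx => ?_
    obtain ⟨k1, k2, k3, k4, -⟩ := key x hx
    have h1 : x⁻¹ ≤ 1 := inv_le_one_of_one_le₀ (by linarith)
    have := (h.pt' c hx).W_div_le g1 g2 g3
    exact ⟨by positivity, by linarith, by positivity, by linarith⟩
  · refine h.inb.b2.sb fun x hx => ?_
    obtain ⟨k1, k2, k3, k4, k5⟩ := key x hx
    exact ⟨one.1, one.2, by positivity, by linarith⟩
  · refine h.inb.b3.sb fun x hx => ?_
    obtain ⟨k1, k2, k3, -⟩ := key x hx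
    exact ⟨one.1, one.2, k2, by linarith⟩
  · refine h.inb.b4.sb fun x hx => ?_
    obtain ⟨k1, k2, k3, -⟩ := key x hx
    exact ⟨one.1, one.2, by positivity, by nlinarith [hx.2]⟩
  · refine h.inb.b5.sb fun x hx => ?_
    obtain ⟨k1, k2, k3, -⟩ := key x hx
    exact ⟨one.1, one.2, k2, by linarith⟩

end Sl

theorem tS_le {x : ℝ} (hx : x ∈ Icc R (R + 1)) : (tS R x : ℝ) ≤ 1 / 2 := by
  rw [tS_coe hx]; linarith [hx.2]

theorem sig_tS {d x : ℝ} (hd : 0 ≤ d) (hx : x ∈ Icc (R + d) (R + 1)) : sig d ≤ sig (2 * tS R x) := by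
  rw [tS_coe ⟨by linarith [hx.1], hx.2⟩]; exact sig_mono (by linarith [hx.1])

section strip

variable {d B : ℝ} {S : Set ℝ}

theorem sub_strip (hd : 0 ≤ d) (hS : S ⊆ Icc (R + d) (R + 1)) : S ⊆ Icc R (R + 1) :=
  hS.trans (Icc_subset_Icc_left (by linarith))

/-- **holomorphic families: the jets on the strip are holomorphic and bounded** -/
theorem strip_hb {E : Type*} [NormedAddCommGroup E] [NormedSpace ℂ E] {V : Set E} {z : E → Par ℓ}
    {J : E → Jt ℓ} (c : Sz R K g g' e) (h : ∀ p ∈ V, Sl R K g g' ε e (z p) (J p))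
    (ha : DifferentiableOn ℂ (fun p => (z p).2.1) V) (hJ : DifferentiableOn ℂ J V) (hd : 0 ≤ d)
    (hG : Gn ℓ.l (sig d) n B) (hc : Convex ℝ S) (hS : S ⊆ Icc (R + d) (R + 1)) :
    ((hb (S ×ˢ univ) V).up (n + 2)).S fun p => vk R (z p).1 (z p).2.1 (J p) (tS R) 0 := by
  have hS' := sub_strip hd hS
  have hr : ∀ X : ℂ, Rd R X (tS R) S := fun X => (rd_strip R X).mono hc hS'
  have hg : ∀ x ∈ S, Gain (om ℓ) n B (tS R x) := fun x hx => hG.gain (sig_tS hd (hS hx))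
  have hx : (hb (S ×ˢ univ) V).S fun _ y => (y.1 : ℂ) := hb_fst (M := R + 1) fun y hy => by
    have := hS' hy.1
    rw [abs_of_nonneg (by linarith [this.1, c.hR])]; exact this.2
  have ha' : (hb (S ×ˢ univ) V).S fun p _ => (z p).2.1 := hb_par ha fun p hp => (h p hp).a_le c
  have hj : ∀ k, ∀ i ≤ n, (hb (S ×ˢ univ) V).S fun p => Sy i (md (tS R) (J p k)) := fun k i hi => by
    refine ⟨fun p _ => (md_Md (hr 0).cont hg _).cSy hi, fun y hy => ?_, _, fun p hp y hy =>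
      ((h p hp).sb c k).sy_le hG (tS_le (hS' hy.1)) (sig_tS hd (hS hy.1)) hi⟩
    obtain ⟨L, -, hL⟩ := exists_Sy_clm (hg _ hy.1) hi
    simp only [← hL]
    exact L.differentiable.comp_differentiableOn (differentiableOn_pi.1 hJ k)
  have v0 : (hb (S ×ˢ univ) V).S fun p => vk R (z p).1 (z p).2.1 (J p) (tS R) 0 :=
    (hb _ V).congr ((hb _ V).add (et_mem _ hx ha') (hj 0 0 (by omega)))
      fun p _ y hy => vk0 (hr _) hy.1
  have v3 : (hb (S ×ˢ univ) V).S fun p => vk R (z p).1 (z p).2.1 (J p) (tS R) 3 :=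
    (hb _ V).congr (hj 3 0 (by omega)) fun p _ y _ => val_eq _ _ _
  have vn : (hb (S ×ˢ univ) V).S fun p => vN R (z p).1 (z p).2.1 (J p) (tS R) :=
    (hb _ V).add ((hb _ V).cmul 4 ((hb _ V).pow v0 2)) ((hb _ V).pow v3 2)
  exact up_vk _ (fun p _ => hr _) (fun p hp => (h p hp).sol) (fun p _ k => md_Md (hr 0).cont hg _)
    hj hx ha' (fun p hp y _ => (h p hp).ne c _ y)
    (hb_inv v0 one_half_pos fun p hp y hy => ((h p hp).lower_strip c (hS' hy.1)).1)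
    (hb_inv vn one_pos fun p hp y hy => ((h p hp).lower_strip c (hS' hy.1)).2)


end strip

/-! ### the open strip, plain derivatives -/

section out

variable {d c0 : ℝ}

/-- the open strip `R + d < x < R + 1` -/
def oS (R d : ℝ) : Set (ℝ × ℝ) := Ioo (R + d) (R + 1) ×ˢ univ

theorem isOpen_oS (R d : ℝ) : IsOpen (oS R d) := isOpen_Ioo.prod isOpen_univ

/-- the function `v` on the strip -/
def vS (R : ℝ) (z : Par ℓ) (J : Jt ℓ) : ℝ × ℝ → ℂ := vk R z.1 z.2.1 J (tS R) 0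

theorem vS_eq (z : Par ℓ) (J : Jt ℓ) {y : ℝ × ℝ} (hy : y.1 ∈ Icc R (R + 1)) :
    vS R z J y = et z.2.1 y.1 + val (J 0) (tS R y.1) y.2 := by
  rw [vS, vk0 (rd_strip R z.1) hy, val_eq]

theorem vS_per (z : Par ℓ) (J : Jt ℓ) (x θ : ℝ) : vS R z J (x, θ + 2 * Real.pi) = vS R z J (x, θ) :=
  vk_per 0 x θ

/-- `C²` up to the boundary, for every symbol -/
theorem vS_c2 {z : Par ℓ} {J : Jt ℓ} (h : IsJet (dgam R z.1) J) :
    ContDiffOn ℝ 2 (vS R z J) (Icc R (R + 1) ×ˢ univ) :=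
  h.c2 (rd_strip R z.1) (uniqueDiffOn_Icc (by linarith))

/-- holomorphic families, every order -/
theorem strip_out {E : Type*} [NormedAddCommGroup E] [NormedSpace ℂ E] {V : Set E} {z : E → Par ℓ}
    {J : E → Jt ℓ} (c : Sz R K g g' e) (h : ∀ p ∈ V, Sl R K g g' ε e (z p) (J p))
    (ha : DifferentiableOn ℂ (fun p => (z p).2.1) V) (hJ : DifferentiableOn ℂ J V) (hc : 0 < c0)
    (hl : ∀ m : ℤ, c0 * |(m : ℝ)| ≤ ℓ.l m) (hd : 0 < d) :
    (∀ p ∈ V, ContDiffOn ℝ ∞ (vS R (z p) (J p)) (oS R d)) ∧ ∀ j : ℕ,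
      (∃ M, ∀ p ∈ V, ∀ y ∈ oS R d, ‖iteratedFDeriv ℝ j (vS R (z p) (J p)) y‖ ≤ M) ∧
      ∀ y ∈ oS R d, ∀ m, DifferentiableOn ℂ (fun p => iteratedFDeriv ℝ j (vS R (z p) (J p)) y m) V := by
  have key := fun n : ℕ => hb_out (isOpen_oS R d).uniqueDiffOn
    (strip_hb c h ha hJ hd.le (exists_gn hc hl (sig_pos hd) n).choose_spec (convex_Ioo _ _)
      Ioo_subset_Icc_self)
  refine ⟨fun p hp => contDiffOn_infty.2 fun n => ((key n).1 p hp).of_le (by norm_cast; omega),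
    fun j => ?_⟩
  obtain ⟨⟨M, hM⟩, h2⟩ := (key j).2 j (by omega)
  refine ⟨⟨M, fun p hp y hy => ?_⟩, fun y hy m => (h2 y hy m).congr fun p _ => ?_⟩
  · rw [← iteratedFDerivWithin_of_isOpen j (isOpen_oS R d) hy]; exact hM p hp y hy
  · rw [← iteratedFDerivWithin_of_isOpen j (isOpen_oS R d) hy]; rfl


/-- **the family of the end solver on the strip** -/
theorem IsEnd.strip {ε1 C : ℝ} {U : Par ℓ → Jt ℓ} (h : IsEnd R K g g' ε ε1 C ℓ U)
    (c : Sz R K g g' e) (hC : 0 ≤ C) (hs : C * (3 / K + ε) ≤ e) (hc : 0 < c0)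
    (hl : ∀ m : ℤ, c0 * |(m : ℝ)| ≤ ℓ.l m) (hd : 0 < d) :
    (∀ z ∈ Dom R K g g' ε, ContDiffOn ℝ ∞ (vS R z (U z)) (oS R d)) ∧ ∀ j : ℕ,
      (∃ M, ∀ z ∈ Dom R K g g' ε, ∀ y ∈ oS R d, ‖iteratedFDeriv ℝ j (vS R z (U z)) y‖ ≤ M) ∧
      ∀ y ∈ oS R d, ∀ m,
        DifferentiableOn ℂ (fun z => iteratedFDeriv ℝ j (vS R z (U z)) y m) (Dom R K g g' ε) :=
  strip_out (z := id) c (fun _ hz => h.sl (by linarith [c.hK]) hC hs hz)
    (differentiable_snd.fst.differentiableOn) h.hol hc hl hd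

end out

/-! ### a real cut: the function on `[R, X] × ℝ` -/

section real

variable {X : ℝ} {a : ℂ} {J : Jt ℓ} {D : Dat ℓ}

/-- the parameter of the point `x` for the real cut `X` -/
def tX (R X x : ℝ) : II := projIcc 0 1 zero_le_one (sx R X x)

theorem tX_xr (h : R + 2 ≤ X) (s : II) : tX R X (xr R X s) = s := by
  rw [tX, sx_xr h, projIcc_val]

theorem tX_coe (h : R + 2 ≤ X) {x : ℝ} (hx : x ∈ Icc R X) : (tX R X x : ℝ) = sx R X x := by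
  rw [tX, projIcc_of_mem _ (sx_mem h hx)]

theorem xr_tX (h : R + 2 ≤ X) {x : ℝ} (hx : x ∈ Icc R X) : xr R X (tX R X x) = x := by
  rw [tX_coe h hx, xr_sx h]

theorem tX_strip (h : R + 2 ≤ X) {x : ℝ} (hx : x ≤ R + 1) : tX R X x = tS R x := by
  rw [tX, sx_strip h hx, tS]

theorem rd_real (h : R + 2 ≤ X) : Rd R X (tX R X) (Icc R X) :=
  ⟨convex_Icc _ _, (continuous_projIcc.comp (continuous_sx h)).continuousOn,
    fun _ hx => fx_gam h hx, fun _ _ d x hx => Der.dv h d x hx⟩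

/-- the function `v` on `[R, X] × ℝ` -/
def vX (R X : ℝ) (a : ℂ) (J : Jt ℓ) : ℝ × ℝ → ℂ := vk R X a J (tX R X) 0

theorem vX_strip (h : R + 2 ≤ X) {y : ℝ × ℝ} (hy : y.1 ≤ R + 1) :
    vX R X a J y = vS R ((X : ℂ), a, D) J y := by
  simp only [vX, vS, vk, tX_strip h hy]

theorem vX_c2 (h : R + 2 ≤ X) (hJ : IsJet (dgam R X) J) :
    ContDiffOn ℝ 2 (vX R X a J) (Icc R X ×ˢ univ) :=
  hJ.c2 (rd_real h) (uniqueDiffOn_Icc (by linarith))

/-- smooth for `R + d ≤ x ≤ X` -/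
theorem vX_smooth' (c : Sz R K g g' e) (h : Sl R K g g' ε e ((X : ℂ), a, D) J) {c0 d : ℝ}
    (hc : 0 < c0) (hl : ∀ m : ℤ, c0 * |(m : ℝ)| ≤ ℓ.l m) (hd : 0 < d) (hX : R + d < X) :
    ContDiffOn ℝ ∞ (vX R X a J) (Icc (R + d) X ×ˢ univ) := by
  have h2 : R + 2 ≤ X := by have := h.dom.1; simp only [ofReal_re] at this; linarith [c.hR]
  have hs : Icc (R + d) X ⊆ Icc R X := Icc_subset_Icc_left (by linarith)
  have hr := (rd_real h2).mono (convex_Icc _ _) hs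
  refine contDiffOn_infty.2 fun n => ?_
  obtain ⟨B, hB⟩ := exists_gn hc hl (sig_pos hd) n
  have hg : ∀ x ∈ Icc (R + d) X, Gain (om ℓ) n B (tX R X x) := fun x hx => hB.gain (by
    rw [← sig_xr h2, xr_tX h2 (hs hx)]; exact sig_mono (by linarith [hx.1]))
  have hm : ∀ k, Sm.Md (Icc (R + d) X) n (md (tX R X) (J k)) := fun k => md_Md hr.cont hg _
  have v0 : (cc (univ : Set Unit) (Icc (R + d) X ×ˢ univ)).S fun _ => vk R X a J (tX R X) 0 :=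
    fun _ _ => hr.cont_vk 0
  have vn : (cc (univ : Set Unit) (Icc (R + d) X ×ˢ univ)).S fun _ => vN R X a J (tX R X) :=
    fun _ _ => (continuousOn_const.mul ((hr.cont_vk 0).pow 2)).add ((hr.cont_vk 3).pow 2)
  have k := up_vk (cc (univ : Set Unit) _) (z := fun _ => ((X : ℂ), a, D)) (J := fun _ => J)
    (fun _ _ => hr) (fun _ _ => h.sol) (fun _ _ => hm) (fun k i hi _ _ => (hm k).cSy hi) cc_fst
    (cc_par _) (fun _ _ y _ => h.ne c _ y) (cc_inv v0 fun _ _ y _ => (h.ne c _ y).1)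
    (cc_inv vn fun _ _ y _ => (h.ne c _ y).2.1)
  exact (Sm.Cl.up_contDiffOn ((uniqueDiffOn_Icc hX).prod uniqueDiffOn_univ) k () trivial).of_le
    (by norm_cast; omega)

/-- **smooth for `R < x ≤ X`** -/
theorem vX_smooth (c : Sz R K g g' e) (h : Sl R K g g' ε e ((X : ℂ), a, D) J) {c0 : ℝ}
    (hc : 0 < c0) (hl : ∀ m : ℤ, c0 * |(m : ℝ)| ≤ ℓ.l m) :
    ContDiffOn ℝ ∞ (vX R X a J) (Ioc R X ×ˢ univ) := fun y hy => by
  have h1 := hy.1.1
  have h2 := hy.1.2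
  have := vX_smooth' c h hc hl (d := (y.1 - R) / 2) (by linarith) (by linarith) y
    ⟨⟨by linarith, h2⟩, trivial⟩
  refine this.mono_of_mem_nhdsWithin ?_
  have ho : {w : ℝ × ℝ | R + (y.1 - R) / 2 < w.1} ∈ 𝓝 y :=
    (isOpen_lt continuous_const continuous_fst).mem_nhds (by simp only [mem_setOf]; linarith)
  filter_upwards [mem_nhdsWithin_of_mem_nhds ho, self_mem_nhdsWithin] with w h1 h2
  exact ⟨⟨le_of_lt h1, h2.1.2⟩, trivial⟩

end real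

end Crest.Agent.N250.B1

end
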