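import Crest.Agent.N250.B1.Sm3

/-!
# Row 250, B1 S6 (helper95): the equation for the function `v` at interior points, real solutions
-/

set_option autoImplicit false
open Set Filter Topology Complex
open scoped ContDiff

noncomputable section

namespace Crest.Agent.N250.B1

open Sm Po

variable {ℓ : Ell} {R : ℝ} {X a : ℂ} {τ : ℝ → II} {S : Set ℝ} {J : Jt ℓ} {y : ℝ × ℝ}

theorem nhds_strip (hy : S ∈ 𝓝 y.1) : S ×ˢ (univ : Set ℝ) ∈ 𝓝 y := prod_mem_nhds hy univ_mem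

theorem ev_int (hy : S ∈ 𝓝 y.1) : ∀ᶠ w : ℝ × ℝ in 𝓝 y, S ∈ 𝓝 w.1 :=
  continuous_fst.continuousAt.eventually (eventually_mem_nhds_iff.2 hy)

namespace IsJet

variable (h : IsJet (dgam R X) J) (hr : Rd R X τ S) (hy : S ∈ 𝓝 y.1)
include h hr hy

theorem fa0 : HasFDerivAt (vk R X a J τ 0) (D2 (vk R X a J τ 1 y) (vk R X a J τ 3 y)) y :=
  (h.fd0 hr ⟨mem_of_mem_nhds hy, trivial⟩).hasFDerivAt (nhds_strip hy)

theorem fa1 : HasFDerivAt (vk R X a J τ 1) (D2 (vk R X a J τ 2 y) (vk R X a J τ 4 y)) y :=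
  (h.fd1 hr ⟨mem_of_mem_nhds hy, trivial⟩).hasFDerivAt (nhds_strip hy)

theorem fa3 : HasFDerivAt (vk R X a J τ 3) (D2 (vk R X a J τ 4 y) (vk R X a J τ 5 y)) y :=
  (h.fd3 hr ⟨mem_of_mem_nhds hy, trivial⟩).hasFDerivAt (nhds_strip hy)

variable {G : Type} [NormedAddCommGroup G] [NormedSpace ℝ G] (L : ℂ →L[ℝ] G)

theorem d1_0 : Po.d1 (fun w => L (vk R X a J τ 0 w)) y = L (vk R X a J τ 1 y) := by
  have k : HasFDerivAt (fun w => L (vk R X a J τ 0 w)) _ y := L.hasFDerivAt.comp y (h.fa0 hr hy)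
  rw [Po.d1, k.fderiv]; simp

theorem d2_0 : Po.d2 (fun w => L (vk R X a J τ 0 w)) y = L (vk R X a J τ 3 y) := by
  have k : HasFDerivAt (fun w => L (vk R X a J τ 0 w)) _ y := L.hasFDerivAt.comp y (h.fa0 hr hy)
  rw [Po.d2, k.fderiv]; simp

theorem fd_d1 : fderiv ℝ (Po.d1 fun w => L (vk R X a J τ 0 w)) y =
    L.comp (D2 (vk R X a J τ 2 y) (vk R X a J τ 4 y)) :=
  ((L.hasFDerivAt.comp y (h.fa1 hr hy)).congr_of_eventuallyEq
    ((ev_int hy).mono fun _ hw => h.d1_0 hr hw L)).fderiv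

theorem fd_d2 : fderiv ℝ (Po.d2 fun w => L (vk R X a J τ 0 w)) y =
    L.comp (D2 (vk R X a J τ 4 y) (vk R X a J τ 5 y)) :=
  ((L.hasFDerivAt.comp y (h.fa3 hr hy)).congr_of_eventuallyEq
    ((ev_int hy).mono fun _ hw => h.d2_0 hr hw L)).fderiv

theorem d11 : Po.d1 (Po.d1 fun w => L (vk R X a J τ 0 w)) y = L (vk R X a J τ 2 y) := by
  rw [Po.d1, h.fd_d1 hr hy]; simp


theorem d12 : Po.d1 (Po.d2 fun w => L (vk R X a J τ 0 w)) y = L (vk R X a J τ 4 y) := by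
  rw [Po.d1, h.fd_d2 hr hy]; simp

theorem d22 : Po.d2 (Po.d2 fun w => L (vk R X a J τ 0 w)) y = L (vk R X a J τ 5 y) := by
  rw [Po.d2, h.fd_d2 hr hy]; simp

end IsJet

variable {z : Par ℓ}

/-- the equation in the jets `vk` -/
theorem Sol.eq_vk (h : Sol R z J) (hr : Rd R z.1 τ S) (hy : y.1 ∈ S) :
    EL (y.1 : ℂ) (vk R z.1 z.2.1 J τ 0 y) (vk R z.1 z.2.1 J τ 1 y) (vk R z.1 z.2.1 J τ 3 y)
      (vk R z.1 z.2.1 J τ 2 y) (vk R z.1 z.2.1 J τ 4 y) (vk R z.1 z.2.1 J τ 5 y) = 0 := by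
  have e := h.eq (τ y.1) y.2
  rwa [hr.gam _ hy] at e

/-- the equation for the complex function `v = vk 0` -/
theorem Sol.eq_d (h : Sol R z J) (hr : Rd R z.1 τ S) (hy : S ∈ 𝓝 y.1) {v : ℝ × ℝ → ℂ}
    (hv : v = vk R z.1 z.2.1 J τ 0) :
    EL (y.1 : ℂ) (v y) (d1 v y) (d2 v y) (d1 (d1 v) y) (d1 (d2 v) y) (d2 (d2 v) y) = 0 := by
  have e : v = fun w => ContinuousLinearMap.id ℝ ℂ (vk R z.1 z.2.1 J τ 0 w) := hv
  rw [e, h.jet.d1_0 hr hy, h.jet.d2_0 hr hy, h.jet.d11 hr hy, h.jet.d12 hr hy, h.jet.d22 hr hy]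
  exact h.eq_vk hr (mem_of_mem_nhds hy)

theorem EL_cast (x v p t r m s : ℝ) :
    ((EL x v p t r m s : ℝ) : ℂ) = EL (x : ℂ) (v : ℂ) p t r m s := by
  unfold EL QQ; push_cast; rfl

/-- a real solution solves the real equation -/
theorem Sol.elv (h : Sol R z J) (hr : Rd R z.1 τ S) (hy : S ∈ 𝓝 y.1)
    (hre : ∀ s θ i, (vj R z.1 z.2.1 J s θ i).im = 0) :
    ELv (fun w => (vk R z.1 z.2.1 J τ 0 w).re) y = 0 := by
  have e : (fun w => (vk R z.1 z.2.1 J τ 0 w).re) = fun w => reCLM (vk R z.1 z.2.1 J τ 0 w) := rfl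
  have k : ∀ i, ((reCLM (vk R z.1 z.2.1 J τ i y) : ℝ) : ℂ) = vk R z.1 z.2.1 J τ i y := fun i =>
    Complex.ext rfl (hre _ _ i).symm
  rw [e, ELv, h.jet.d1_0 hr hy, h.jet.d2_0 hr hy, h.jet.d11 hr hy, h.jet.d12 hr hy,
    h.jet.d22 hr hy, ← ofReal_eq_zero, EL_cast]
  beta_reduce
  simp only [k]
  exact h.eq_vk hr (mem_of_mem_nhds hy)

variable {K g g' ε e : ℝ}

theorem Sl.re_pos (h : Sl R K g g' ε e z J) (c : Sz R K g g' e) (τ : ℝ → II) (y : ℝ × ℝ) :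
    0 < (vk R z.1 z.2.1 J τ 0 y).re := by
  have h1 := (Rg.reg_q c.ex c.hR c.hK c.he h.dom (Rg.IsJet.co3 h.sol.jet) h.inb (τ y.1) y.2).1
  have h2 := (h.pt c (τ y.1)).re_pos
  unfold vk; linarith

/-- **a real solution with a real cut**: `v` is a positive periodic function, `C²` on `[R, X] × ℝ`,
smooth on `(R, X] × ℝ`, and solves the shrinker equation -/
theorem Sl.real {X : ℝ} {D : Dat ℓ} (h : Sl R K g g' ε e ((X : ℂ), a, D) J) (c : Sz R K g g' e)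
    {c0 : ℝ} (hc : 0 < c0) (hl : ∀ m : ℤ, c0 * |(m : ℝ)| ≤ ℓ.l m)
    (hre : ∀ s θ i, (vj R X a J s θ i).im = 0) {v : ℝ × ℝ → ℝ}
    (hv : v = fun y => (vX R X a J y).re) :
    (∀ y, (v y : ℂ) = vX R X a J y) ∧ (∀ y, 0 < v y) ∧
      (∀ x θ, v (x, θ + 2 * Real.pi) = v (x, θ)) ∧ ContDiffOn ℝ 2 v (Icc R X ×ˢ univ) ∧
      ContDiffOn ℝ ∞ v (Ioc R X ×ˢ univ) ∧ ∀ y : ℝ × ℝ, y.1 ∈ Ioo R X → ELv v y = 0 := by
  have h2 : R + 2 ≤ X := by have := h.dom.1; simp only [ofReal_re] at this; linarith [c.hR]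
  subst hv
  exact ⟨fun y => Complex.ext rfl (hre _ _ 0).symm, fun y => h.re_pos c _ y,
    fun x θ => congrArg re (vk_per 0 x θ), reCLM.contDiff.comp_contDiffOn (vX_c2 h2 h.sol.jet),
    reCLM.contDiff.comp_contDiffOn (vX_smooth c h hc hl),
    fun y hy => h.sol.elv (rd_real h2) (Icc_mem_nhds hy.1 hy.2) hre⟩

end Crest.Agent.N250.B1

end
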