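import Crest.Agent.N250.B1.Gam

-- ▼ part N250/B1/Res
section

/-!
# Row 250, block B1 (helper53): restriction of an end from the cut `X'` to a smaller cut `X`
-/

set_option autoImplicit false
open Set Complex Filter Topology

noncomputable section

namespace Crest.Agent.N250.B1

/-- two real cuts -/
structure Cut2 (R X X' : ℝ) : Prop where
  lo : R + 2 ≤ X
  le : X ≤ X'

variable {ℓ : Ell} {R X X' : ℝ}

theorem Res.eW_apply (t : ℝ) (s : II) : eW t s = ((Real.exp (sig (2 * s) * t) : ℝ) : ℂ) := rfl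

theorem Res.om_w (ℓ : Ell) (m : ℤ) : (om ℓ).w m = eW (ℓ.l m) := rfl

theorem Res.hasSum_val (u : Wi (om ℓ)) (s : II) (θ : ℝ) :
    HasSum (fun m => Wi.ex m θ * Wi.co u m s) (val u s θ) :=
  (ContinuousMap.evalCLM ℂ s).hasSum (Wi.hasSum_syn u θ)

namespace Cut2

theorem lo' (h : Cut2 R X X') : R + 2 ≤ X' := h.lo.trans h.le

theorem mem (h : Cut2 R X X') (s : II) : xr R X s ∈ Icc R X' :=
  ⟨(xr_mem' h.lo s).1, (xr_mem' h.lo s).2.trans h.le⟩

/-- the change of parameter -/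
def phi (h : Cut2 R X X') : C(II, II) :=
  ⟨fun s => ⟨sx R X' (xr R X s), sx_mem h.lo' (h.mem s)⟩,
    ((continuous_sx h.lo').comp ((continuous_xr R X).comp continuous_subtype_val)).subtype_mk _⟩

theorem xr_phi (h : Cut2 R X X') (s : II) : xr R X' (h.phi s) = xr R X s := xr_sx h.lo' _

theorem gam_phi (h : Cut2 R X X') (s : II) : gam R X' (h.phi s) = gam R X s := by
  rw [gam_real, gam_real, h.xr_phi]

theorem sig_phi (h : Cut2 R X X') (s : II) : sig (2 * (h.phi s : ℝ)) = sig (2 * s) := by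
  rw [← sig_xr h.lo', h.xr_phi, sig_xr h.lo]

theorem phi_strip (h : Cut2 R X X') {s : II} (hs : (s : ℝ) ≤ 1 / 2) : h.phi s = s :=
  Subtype.ext ((strictMono_xr h.lo').injective (by
    rw [h.xr_phi, xr_strip R X hs, xr_strip R X' hs]))

theorem phi_i0 (h : Cut2 R X X') : h.phi i0 = i0 := h.phi_strip (by simp [i0])


theorem comp_apply (h : Cut2 R X X') (y : CI) (s : II) :
    y (h.phi s) = fx R X' y (xr R X s) := by
  rw [← h.xr_phi, fx_xr h.lo']


theorem der (h : Cut2 R X X') {y y1 : CI} (hy : Der y (dgam R X' * y1)) :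
    Der (y.comp h.phi) (dgam R X * y1.comp h.phi) :=
  der_of_dv h.lo ((hy.dv h.lo').mono le_rfl h.le) (h.comp_apply y) (h.comp_apply y1)

theorem norm_comp_le (h : Cut2 R X X') (y : CI) : ‖y.comp h.phi‖ ≤ ‖y‖ :=
  (ContinuousMap.norm_le _ (norm_nonneg y)).2 fun _ => y.norm_coe_le_norm _

theorem w_comp (h : Cut2 R X X') (m : ℤ) (y : CI) :
    (om ℓ).w m * y.comp h.phi = ((om ℓ).w m * y).comp h.phi := by
  ext s
  simp only [Res.om_w, ContinuousMap.mul_apply, ContinuousMap.comp_apply, Res.eW_apply, h.sig_phi]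

/-- restriction of a function on the strip -/
def resW (h : Cut2 R X X') (u : Wi (om ℓ)) : Wi (om ℓ) :=
  Wi.mk _ (fun m => (Wi.co u m).comp h.phi)
    ((Wi.summable_w u).of_nonneg_of_le (fun _ => norm_nonneg _) fun m => by
      rw [h.w_comp]; exact h.norm_comp_le _)

theorem co_resW (h : Cut2 R X X') (u : Wi (om ℓ)) (m : ℤ) :
    Wi.co (h.resW u) m = (Wi.co u m).comp h.phi := Wi.co_mk _ _ _

theorem co_resW_apply (h : Cut2 R X X') (u : Wi (om ℓ)) (m : ℤ) (s : II) :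
    Wi.co (h.resW u) m s = Wi.co u m (h.phi s) := by rw [h.co_resW]; rfl

theorem norm_resW (h : Cut2 R X X') (u : Wi (om ℓ)) : ‖h.resW u‖ ≤ ‖u‖ :=
  Wi.norm_le_of (Wi.hasSum_norm u) fun m => by
    rw [h.co_resW, h.w_comp]; exact h.norm_comp_le _

theorem val_resW (h : Cut2 R X X') (u : Wi (om ℓ)) (s : II) (θ : ℝ) :
    val (h.resW u) s θ = val u (h.phi s) θ :=
  (Res.hasSum_val _ s θ).unique (by simpa only [h.co_resW_apply] using Res.hasSum_val u (h.phi s) θ)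

theorem resW_add (h : Cut2 R X X') (u v : Wi (om ℓ)) : h.resW (u + v) = h.resW u + h.resW v :=
  Wi.ext fun m => by simp only [h.co_resW, Wi.co_add]; rfl

theorem resW_smul (h : Cut2 R X X') (c : ℂ) (u : Wi (om ℓ)) : h.resW (c • u) = c • h.resW u :=
  Wi.ext fun m => by simp only [h.co_resW, Wi.co_smul]; rfl

/-- the restriction as an operator -/
def resL (h : Cut2 R X X') (ℓ : Ell) : Wi (om ℓ) →L[ℂ] Wi (om ℓ) :=
  LinearMap.mkContinuous ⟨⟨h.resW, h.resW_add⟩, h.resW_smul⟩ 1 fun u => by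
    simpa using h.norm_resW u



theorem wb (h : Cut2 R X X') {f0 f : ℝ → ℝ} {u : Wi (om ℓ)} {M : ℝ} (hu : WB R X' f0 f u M) :
    WB R X f0 f (h.resW u) M := by
  obtain ⟨β, h1, h2, h3, h4⟩ := hu
  refine ⟨β, h1, h2, fun s => ?_, fun m hm s => ?_⟩
  · rw [h.co_resW_apply, ← h.xr_phi]; exact h3 _
  · rw [h.co_resW_apply, ← h.xr_phi, ← h.sig_phi]; exact h4 m hm _

theorem isJet (h : Cut2 R X X') {J : Jt ℓ} (hJ : IsJet (dgam R X') J) :
    IsJet (dgam R X) fun i => h.resW (J i) where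
  d0 m := by rw [h.co_resW, h.co_resW]; exact h.der (hJ.d0 m)
  d1 m := by rw [h.co_resW, h.co_resW]; exact h.der (hJ.d1 m)
  t0 m := by rw [h.co_resW, h.co_resW, hJ.t0]; rfl
  t1 m := by rw [h.co_resW, h.co_resW, hJ.t1]; rfl
  t2 m := by rw [h.co_resW, h.co_resW, hJ.t2]; rfl

end Cut2

/-! ### the change of `a` -/

/-- `(x² - 2) / 2` -/
def quad (R : ℝ) (X : ℂ) : CI := (1 / 2 : ℂ) • (gam R X * gam R X - cst 2)

theorem quad_apply (R : ℝ) (X : ℂ) (s : II) : quad R X s = (gam R X s ^ 2 - 2) / 2 := by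
  simp only [quad, ContinuousMap.smul_apply, ContinuousMap.sub_apply, ContinuousMap.mul_apply,
    cst_apply, smul_eq_mul]
  ring

theorem der_quad (R : ℝ) (X : ℂ) : Der (quad R X) (dgam R X * gam R X) :=
  ((((der_gam R X).mul (der_gam R X)).sub (der_cst 2)).smul _).congr (by
    ext s
    simp only [ContinuousMap.smul_apply, ContinuousMap.sub_apply, ContinuousMap.mul_apply,
      ContinuousMap.add_apply, ContinuousMap.zero_apply, smul_eq_mul]
    ring)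

/-- the jet of `(x² - 2) / 2` -/
def qj (ℓ : Ell) (R : ℝ) (X : ℂ) : Jt ℓ :=
  ![Wi.single _ 0 (quad R X), Wi.single _ 0 (gam R X), Wi.single _ 0 1, 0, 0, 0]

theorem Res.der_zero : Der 0 0 := by simpa using der_cst 0

theorem Res.der_one : Der 1 0 := by
  have e : cst 1 = 1 := by ext s; simp
  exact e ▸ der_cst 1

theorem isJet_qj (ℓ : Ell) (R : ℝ) (X : ℂ) : IsJet (dgam R X) (qj ℓ R X) where
  d0 m := by
    change Der (Wi.co (Wi.single _ 0 _) m) (_ * Wi.co (Wi.single _ 0 _) m)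
    simp only [Wi.co_single]
    split_ifs
    · exact der_quad R X
    · exact Res.der_zero.congr (mul_zero _).symm
  d1 m := by
    change Der (Wi.co (Wi.single _ 0 _) m) (_ * Wi.co (Wi.single _ 0 _) m)
    simp only [Wi.co_single]
    split_ifs
    · exact (der_gam R X).congr (mul_one _).symm
    · exact Res.der_zero.congr (mul_zero _).symm
  t0 m := by
    change Wi.co 0 m = _ • Wi.co (Wi.single _ 0 _) m
    ext s
    by_cases hm : m = 0 <;> simp [Wi.co_single, hm]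
  t1 m := by
    change Wi.co 0 m = _ • Wi.co (Wi.single _ 0 _) m
    ext s
    by_cases hm : m = 0 <;> simp [Wi.co_single, hm]
  t2 m := by
    change Wi.co 0 m = _ • Wi.co (Wi.single _ 0 _) m
    ext s
    by_cases hm : m = 0 <;> simp [Wi.co_single, hm]

theorem Res.isJet_add_smul {c : CI} {J J' : Jt ℓ} (h : IsJet c J) (k : IsJet c J') (d : ℂ) :
    IsJet c (J + d • J') where
  d0 m := by
    simp only [Pi.add_apply, Pi.smul_apply, Wi.co_add, Wi.co_smul]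
    exact ((h.d0 m).add ((k.d0 m).smul d)).congr (by rw [mul_add, mul_smul_comm])
  d1 m := by
    simp only [Pi.add_apply, Pi.smul_apply, Wi.co_add, Wi.co_smul]
    exact ((h.d1 m).add ((k.d1 m).smul d)).congr (by rw [mul_add, mul_smul_comm])
  t0 m := by
    ext s
    simp only [Pi.add_apply, Pi.smul_apply, Wi.co_add, Wi.co_smul, h.t0, k.t0,
      ContinuousMap.add_apply, ContinuousMap.smul_apply, smul_eq_mul]
    ring
  t1 m := by
    ext s
    simp only [Pi.add_apply, Pi.smul_apply, Wi.co_add, Wi.co_smul, h.t1, k.t1,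
      ContinuousMap.add_apply, ContinuousMap.smul_apply, smul_eq_mul]
    ring
  t2 m := by
    ext s
    simp only [Pi.add_apply, Pi.smul_apply, Wi.co_add, Wi.co_smul, h.t2, k.t2,
      ContinuousMap.add_apply, ContinuousMap.smul_apply, smul_eq_mul]
    ring

theorem Res.val_add_single (u : Wi (om ℓ)) (d : ℂ) (y : CI) (s : II) (θ : ℝ) :
    val (u + d • Wi.single _ 0 y) s θ = val u s θ + d * y s := by
  simp [val, Wi.syn_add, Wi.syn_smul, Wi.syn_single]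

/-- moving `d (x² - 2) / 2` from `η` to `w` does not change `v` -/
theorem vj_shift (R : ℝ) (X a d : ℂ) (J : Jt ℓ) (s : II) (θ : ℝ) :
    vj R X (a - d) (J + d • qj ℓ R X) s θ = vj R X a J s θ := by
  have e0 : (J + d • qj ℓ R X) 0 = J 0 + d • Wi.single _ 0 (quad R X) := rfl
  have e1 : (J + d • qj ℓ R X) 1 = J 1 + d • Wi.single _ 0 (gam R X) := rfl
  have e2 : (J + d • qj ℓ R X) 2 = J 2 + d • Wi.single _ 0 1 := rfl
  have e3 : (J + d • qj ℓ R X) 3 = J 3 := by change J 3 + d • 0 = _; simp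
  have e4 : (J + d • qj ℓ R X) 4 = J 4 := by change J 4 + d • 0 = _; simp
  have e5 : (J + d • qj ℓ R X) 5 = J 5 := by change J 5 + d • 0 = _; simp
  simp only [vj, e0, e1, e2, e3, e4, e5, Res.val_add_single, quad_apply, et, ContinuousMap.one_apply]
  congr 1
  · ring
  congr 1
  · ring
  congr 1
  ring

theorem Res.co_shift_ne (J : Jt ℓ) (R : ℝ) (X d : ℂ) (i : Fin 6) {m : ℤ} (hm : m ≠ 0) :
    Wi.co ((J + d • qj ℓ R X) i) m = Wi.co (J i) m := by
  have : Wi.co (qj ℓ R X i) m = 0 := by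
    fin_cases i <;> simp [qj, Wi.co_single_ne hm]
  simp [this]

theorem Res.co_shift_0 (J : Jt ℓ) (R : ℝ) (X d : ℂ) (s : II) :
    Wi.co ((J + d • qj ℓ R X) 0) 0 s = Wi.co (J 0) 0 s + d * ((gam R X s ^ 2 - 2) / 2) := by
  simp [qj, quad_apply]

theorem Res.co_shift_1 (J : Jt ℓ) (R : ℝ) (X d : ℂ) (s : II) :
    Wi.co ((J + d • qj ℓ R X) 1) 0 s = Wi.co (J 1) 0 s + d * gam R X s := by
  simp [qj]

theorem Res.co_shift_2 (J : Jt ℓ) (R : ℝ) (X d : ℂ) (s : II) :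
    Wi.co ((J + d • qj ℓ R X) 2) 0 s = Wi.co (J 2) 0 s + d := by
  simp [qj]

theorem Res.shift_3 (J : Jt ℓ) (R : ℝ) (X d : ℂ) : (J + d • qj ℓ R X) 3 = J 3 := by
  change J 3 + d • 0 = _; simp

theorem Res.shift_4 (J : Jt ℓ) (R : ℝ) (X d : ℂ) : (J + d • qj ℓ R X) 4 = J 4 := by
  change J 4 + d • 0 = _; simp

theorem Res.shift_5 (J : Jt ℓ) (R : ℝ) (X d : ℂ) : (J + d • qj ℓ R X) 5 = J 5 := by
  change J 5 + d • 0 = _; simp

/-! ### far slopes -/

theorem Res.sig_two : sig (2 * (i1 : II)) = 1 := by norm_num [sig, i1]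

theorem Res.exp_mul_co_i1 (u : Wi (om ℓ)) (m : ℤ) :
    Real.exp (ℓ.l m) * ‖Wi.co u m i1‖ ≤ ‖(om ℓ).w m * Wi.co u m‖ := by
  refine le_of_eq_of_le ?_ (ContinuousMap.norm_coe_le_norm _ i1)
  rw [ContinuousMap.mul_apply, Res.om_w, Res.eW_apply, Res.sig_two, one_mul, norm_mul, norm_real,
    Real.norm_of_nonneg (Real.exp_pos _).le]

theorem Res.omF_w (ℓ : Ell) (m : ℤ) :
    (omF ℓ).w m = (((1 + |(m : ℝ)|) * Real.exp (ℓ.l m) : ℝ) : ℂ) := rfl

theorem Res.norm_farc (u v : Wi (om ℓ)) (m : ℤ) :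
    ‖(omF ℓ).w m * ((Wi.co u m i1 - I * m.sign * Wi.co v m i1) / ((1 + |(m : ℝ)| : ℝ) : ℂ))‖ ≤
      ‖(om ℓ).w m * Wi.co u m‖ + ‖(om ℓ).w m * Wi.co v m‖ := by
  have hp : (0 : ℝ) < 1 + |(m : ℝ)| := by positivity
  have hs : ‖(m.sign : ℂ)‖ ≤ 1 := by
    rcases lt_trichotomy m 0 with h | h | h
    · simp [Int.sign_eq_neg_one_of_neg h]
    · simp [h]
    · simp [Int.sign_eq_one_of_pos h]
  have h1 : ‖Wi.co u m i1 - I * m.sign * Wi.co v m i1‖ ≤ ‖Wi.co u m i1‖ + ‖Wi.co v m i1‖ := by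
    refine (norm_sub_le _ _).trans (add_le_add le_rfl ?_)
    rw [norm_mul, norm_mul, norm_I, one_mul]
    exact mul_le_of_le_one_left (norm_nonneg _) hs
  rw [Res.omF_w, norm_mul, norm_div, norm_real, norm_real, Real.norm_of_nonneg hp.le,
    Real.norm_of_nonneg (by positivity)]
  calc _ = Real.exp (ℓ.l m) * ‖Wi.co u m i1 - I * m.sign * Wi.co v m i1‖ := by field_simp
    _ ≤ Real.exp (ℓ.l m) * (‖Wi.co u m i1‖ + ‖Wi.co v m i1‖) := by gcongr
    _ ≤ _ := by rw [mul_add]; exact add_le_add (Res.exp_mul_co_i1 u m) (Res.exp_mul_co_i1 v m)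

/-- the far slopes of a jet -/
def farH (J : Jt ℓ) : Wi (omF ℓ) :=
  Wi.mk _ (fun m => (Wi.co (J 1) m i1 - I * m.sign * Wi.co (J 4) m i1) / ((1 + |(m : ℝ)| : ℝ) : ℂ))
    (((Wi.summable_w (J 1)).add (Wi.summable_w (J 4))).of_nonneg_of_le (fun _ => norm_nonneg _)
      (Res.norm_farc (J 1) (J 4)))


theorem co_farH {c : CI} {J : Jt ℓ} (h : IsJet c J) (m : ℤ) :
    Wi.co (farH J) m = Wi.co (J 1) m i1 := by
  have hp : (((1 + |(m : ℝ)| : ℝ)) : ℂ) ≠ 0 := ofReal_ne_zero.2 (by positivity)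
  have e : ((|(m : ℝ)| : ℝ) : ℂ) = m.sign * m := by
    rw [← Int.cast_abs, ofReal_intCast, ← Int.sign_mul_self_eq_abs, Int.cast_mul]
  rw [farH, Wi.co_mk, h.t1, div_eq_iff hp, ofReal_add, e, ContinuousMap.smul_apply, smul_eq_mul]
  push_cast
  linear_combination (-(m.sign : ℂ) * m * Wi.co (J 1) m i1) * I_mul_I

/-- the data read off from a jet -/
def datOf (b : Wi (omP 2)) (J : Jt ℓ) : Dat ℓ :=
  (b, farH J, Wi.co (J 0) 1 i1, Wi.co (J 0) (-1) i1)

theorem bc_datOf {c : CI} {J : Jt ℓ} (h : IsJet c J) {b : Wi (omP 2)}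
    (hb : ∀ m : ℤ, 2 ≤ |m| → Wi.co (J 0) m i0 = Wi.co b m) (h0 : Wi.co (J 0) 0 i1 = 0) :
    BC (datOf b J) J :=
  ⟨hb, fun m => (co_farH h m).symm, h0, rfl, rfl⟩

namespace Cut2

/-- `a - τ` -/
def dt (h : Cut2 R X X') (J : Jt ℓ) : ℂ := -2 * Wi.co (J 0) 0 (h.phi i1) / ((X : ℂ) ^ 2 - 2)

/-- the parameter at the cut `X` -/
def tau (h : Cut2 R X X') (a : ℂ) (J : Jt ℓ) : ℂ := a - h.dt J

/-- the restricted jet -/
def resJ (h : Cut2 R X X') (J : Jt ℓ) : Jt ℓ := (fun i => h.resW (J i)) + h.dt J • qj ℓ R X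

theorem vj_resW (h : Cut2 R X X') (a : ℂ) (J : Jt ℓ) (s : II) (θ : ℝ) :
    vj R X a (fun i => h.resW (J i)) s θ = vj R X' a J (h.phi s) θ := by
  simp only [vj, h.val_resW, h.gam_phi]

theorem vj_resJ (h : Cut2 R X X') (a : ℂ) (J : Jt ℓ) (s : II) (θ : ℝ) :
    vj R X (h.tau a J) (h.resJ J) s θ = vj R X' a J (h.phi s) θ :=
  (vj_shift R X a _ _ s θ).trans (h.vj_resW a J s θ)


theorem isJet_resJ (h : Cut2 R X X') {J : Jt ℓ} (hJ : IsJet (dgam R X') J) :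
    IsJet (dgam R X) (h.resJ J) :=
  Res.isJet_add_smul (h.isJet hJ) (isJet_qj ℓ R X) _

theorem co_resJ_ne (h : Cut2 R X X') (J : Jt ℓ) (i : Fin 6) {m : ℤ} (hm : m ≠ 0) (s : II) :
    Wi.co (h.resJ J i) m s = Wi.co (J i) m (h.phi s) := by
  rw [resJ, Res.co_shift_ne _ _ _ _ _ hm, h.co_resW_apply]

theorem co_resJ_0 (h : Cut2 R X X') (J : Jt ℓ) (s : II) :
    Wi.co (h.resJ J 0) 0 s =
      Wi.co (J 0) 0 (h.phi s) + h.dt J * ((((xr R X s : ℝ) : ℂ) ^ 2 - 2) / 2) := by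
  rw [resJ, Res.co_shift_0, h.co_resW_apply, gam_real]

theorem co_resJ_1 (h : Cut2 R X X') (J : Jt ℓ) (s : II) :
    Wi.co (h.resJ J 1) 0 s = Wi.co (J 1) 0 (h.phi s) + h.dt J * (xr R X s : ℝ) := by
  rw [resJ, Res.co_shift_1, h.co_resW_apply, gam_real]

theorem co_resJ_2 (h : Cut2 R X X') (J : Jt ℓ) (s : II) :
    Wi.co (h.resJ J 2) 0 s = Wi.co (J 2) 0 (h.phi s) + h.dt J := by
  rw [resJ, Res.co_shift_2, h.co_resW_apply]

theorem resJ_3 (h : Cut2 R X X') (J : Jt ℓ) : h.resJ J 3 = h.resW (J 3) := Res.shift_3 _ _ _ _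

theorem resJ_4 (h : Cut2 R X X') (J : Jt ℓ) : h.resJ J 4 = h.resW (J 4) := Res.shift_4 _ _ _ _

theorem resJ_5 (h : Cut2 R X X') (J : Jt ℓ) : h.resJ J 5 = h.resW (J 5) := Res.shift_5 _ _ _ _

theorem sq_sub_two_pos (h : Cut2 R X X') (hR : 0 ≤ R) : 0 < X ^ 2 - 2 := by
  have := h.lo; nlinarith

theorem resJ_far0 (h : Cut2 R X X') (hR : 0 ≤ R) (J : Jt ℓ) : Wi.co (h.resJ J 0) 0 i1 = 0 := by
  have hp : (X : ℂ) ^ 2 - 2 ≠ 0 := by exact_mod_cast (h.sq_sub_two_pos hR).ne'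
  rw [h.co_resJ_0, xr_i1, dt]
  field_simp
  ring

/-- the restriction of a solution is a solution -/
theorem sol (h : Cut2 R X X') (hR : 0 ≤ R) {a : ℂ} {D : Dat ℓ} {J : Jt ℓ}
    (hJ : Sol R ((X' : ℂ), a, D) J) :
    Sol R ((X : ℂ), h.tau a J, datOf D.1 (h.resJ J)) (h.resJ J) where
  jet := h.isJet_resJ hJ.jet
  bc := bc_datOf (h.isJet_resJ hJ.jet) (fun m hm => by
    rw [h.co_resJ_ne J 0 (by rintro rfl; simp at hm), h.phi_i0]; exact hJ.bc.inner m hm)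
    (h.resJ_far0 hR J)
  eq s θ := by
    have := hJ.eq (h.phi s) θ
    simp only [h.gam_phi] at this
    simpa only [h.vj_resJ] using this

theorem far_slope_ne (h : Cut2 R X X') {J : Jt ℓ} (hJ : IsJet (dgam R X') J) {m : ℤ} (hm : m ≠ 0) :
    Wi.co (farH (h.resJ J)) m = Wi.co (J 1) m (h.phi i1) := by
  rw [co_farH (h.isJet_resJ hJ), h.co_resJ_ne J 1 hm]

theorem far_slope_0 (h : Cut2 R X X') {J : Jt ℓ} (hJ : IsJet (dgam R X') J) :
    Wi.co (farH (h.resJ J)) 0 = Wi.co (J 1) 0 (h.phi i1) + h.dt J * X := by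
  rw [co_farH (h.isJet_resJ hJ), h.co_resJ_1, xr_i1]

end Cut2

end Crest.Agent.N250.B1

end
end

-- ▼ part N250/B1/Res2

/-!
# Row 250, block B1 (helper39): the restriction stays in a ball (regime `|a| X² ≤ 1/2`)
-/

set_option autoImplicit false
open Set Complex Filter Topology

noncomputable section

namespace Crest.Agent.N250.B1

variable {ℓ : Ell} {R X X' : ℝ}

/-- normal form of a weighted bound: nonnegative majorants -/
theorem WB.nf {f0 f : ℝ → ℝ} {u : Wi (om ℓ)} {M : ℝ} (hu : WB R X f0 f u M) (s0 : II)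
    (h0 : 0 < f0 (xr R X s0)) (h1 : 0 < f (xr R X s0)) :
    ∃ β : ℤ → ℝ, (∀ m, 0 ≤ β m) ∧ (∀ m, β m ≤ M) ∧ Summable β ∧ ∑' m, β m ≤ M ∧
      (∀ s : II, ‖Wi.co u 0 s‖ ≤ β 0 * f0 (xr R X s)) ∧ ∀ m, m ≠ 0 → ∀ s : II,
        Real.exp (sig (2 * s) * ℓ.l m) * ‖Wi.co u m s‖ ≤ β m * f (xr R X s) := by
  obtain ⟨β, b1, b2, b3, b4⟩ := hu
  have hp : ∀ m, 0 ≤ β m := fun m => by
    by_cases hm : m = 0
    · subst hm; exact nonneg_of_mul_nonneg_left ((norm_nonneg _).trans (b3 s0)) h0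
    · exact nonneg_of_mul_nonneg_left (le_trans (by positivity) (b4 m hm s0)) h1
  exact ⟨β, hp, fun m => (b1.le_tsum m fun j _ => hp j).trans b2, b1, b2, b3, b4⟩

/-- the mode `0` -/
theorem WB.zero_le {f0 f : ℝ → ℝ} {u : Wi (om ℓ)} {M : ℝ} (hu : WB R X f0 f u M)
    (h0 : ∀ s : II, 0 < f0 (xr R X s)) (h1 : ∀ s : II, 0 < f (xr R X s)) (s : II) :
    ‖Wi.co u 0 s‖ ≤ M * f0 (xr R X s) := by
  obtain ⟨β, -, b1, -, -, b3, -⟩ := hu.nf s (h0 s) (h1 s)
  exact (b3 s).trans (mul_le_mul_of_nonneg_right (b1 0) (h0 s).le)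


/-- change of the weights and of the mode `0` -/
theorem WB.change {f0 f g0 g : ℝ → ℝ} {u v : Wi (om ℓ)} {M B C : ℝ} (hu : WB R X f0 f u M)
    (h0 : ∀ s : II, 0 < f0 (xr R X s)) (h1 : ∀ s : II, 0 < f (xr R X s)) (hC : 0 ≤ C)
    (k0 : ∀ s : II, 0 ≤ g0 (xr R X s)) (hf : ∀ s : II, f (xr R X s) ≤ C * g (xr R X s))
    (hv : ∀ m, m ≠ 0 → ∀ s, Wi.co v m s = Wi.co u m s)
    (hv0 : ∀ s : II, ‖Wi.co v 0 s‖ ≤ B * g0 (xr R X s)) : WB R X g0 g v (C * M + B) := by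
  obtain ⟨β, bp, -, b1, b2, -, b4⟩ := hu.nf i0 (h0 i0) (h1 i0)
  have hs : HasSum (fun m : ℤ => if m = 0 then B else 0) B := hasSum_ite_eq 0 B
  refine ⟨fun m => C * β m + if m = 0 then B else 0, (b1.mul_left C).add hs.summable, ?_,
    fun s => ?_, fun m hm s => ?_⟩
  · rw [(b1.mul_left C).tsum_add hs.summable, hs.tsum_eq, tsum_mul_left]
    gcongr
  · refine (hv0 s).trans (mul_le_mul_of_nonneg_right ?_ (k0 s))
    simp only [if_true]
    linarith [mul_nonneg hC (bp 0)]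
  · simp only [if_neg hm, add_zero]
    rw [hv m hm]
    calc _ ≤ β m * f (xr R X s) := b4 m hm s
      _ ≤ β m * (C * g (xr R X s)) := mul_le_mul_of_nonneg_left (hf s) (bp m)
      _ = _ := by ring

theorem WB.mono_M {f0 f : ℝ → ℝ} {u : Wi (om ℓ)} {M M' : ℝ} (hu : WB R X f0 f u M) (h : M ≤ M') :
    WB R X f0 f u M' := by
  obtain ⟨β, b1, b2, b3⟩ := hu
  exact ⟨β, b1, b2.trans h, b3⟩

theorem R2.rho_le_one {K X x : ℝ} (hK : 2 * K ≤ X ^ 2) (hX : 0 < X) (hx : 2 ≤ x ^ 2) :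
    rho K X x ≤ 1 := by
  have h1 : 0 ≤ (x ^ 2 - 2) / X ^ 2 := div_nonneg (by linarith) (by positivity)
  have h2 : 2 * K / X ^ 2 ≤ 1 := (div_le_one (by positivity)).2 hK
  unfold rho
  nlinarith

theorem R2.le_rho {K X x : ℝ} (hK : 0 ≤ K) (hX : 0 < X) (hx : 2 ≤ x ^ 2) :
    1 - (x ^ 2 - 2) / X ^ 2 ≤ rho K X x := by
  have h1 : 0 ≤ (x ^ 2 - 2) / X ^ 2 := div_nonneg (by linarith) (by positivity)
  have h2 : 0 ≤ 2 * K / X ^ 2 := by positivity
  unfold rho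
  nlinarith [mul_nonneg h1 h2]

theorem R2.rho_pos' {K X x : ℝ} (hK : 0 ≤ K) (hx : 2 ≤ x) (hxX : x ≤ X) : 0 < rho K X x := by
  have hX : 0 < X := by linarith
  refine lt_of_lt_of_le ?_ (R2.le_rho hK hX (by nlinarith))
  rw [sub_pos, div_lt_one (by positivity)]
  nlinarith

theorem R2.sub_le_rho {K X x : ℝ} (hK : 0 ≤ K) (hx : 2 ≤ x) (hxX : x ≤ X) :
    (X - x) / X ≤ rho K X x := by
  have hX : 0 < X := by linarith
  refine le_trans ?_ (R2.le_rho hK hX (by nlinarith))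
  have : (x ^ 2 - 2) / X ^ 2 ≤ x / X := by
    rw [div_le_div_iff₀ (by positivity) hX]
    nlinarith [mul_le_mul_of_nonneg_left hxX (by positivity : 0 ≤ x * X)]
  rw [sub_div, div_self hX.ne']
  linarith

theorem R2.norm_et_sub (a : ℂ) {x : ℝ} (hx : 2 ≤ x ^ 2) :
    ‖et a x - 1‖ = ‖a‖ * ((x ^ 2 - 2) / 2) := by
  have : et a x - 1 = a * (((x ^ 2 - 2) / 2 : ℝ) : ℂ) := by rw [et]; push_cast; ring
  rw [this, norm_mul, norm_real, Real.norm_of_nonneg (by linarith)]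

theorem R2.norm_bd_of_sub {z : ℂ} {r : ℝ} (h : ‖z - 1‖ ≤ r) : 1 - r ≤ ‖z‖ ∧ ‖z‖ ≤ 1 + r := by
  have h1 := norm_sub_norm_le z 1
  have h2 := norm_sub_norm_le 1 z
  rw [norm_sub_rev] at h2
  rw [norm_one] at h1 h2
  constructor <;> linarith

theorem R2.W_pos' (g g' : ℝ) {a : ℂ} {x : ℝ} (hx : 0 < x) (h : 0 < ‖et a x‖) : 0 < W g g' a x :=
  mul_pos (Real.rpow_pos_of_pos hx _) (Real.rpow_pos_of_pos h _)

theorem R2.W_le_four (g : ℝ) {g' : ℝ} {a b : ℂ} {x : ℝ} (hx : 0 < x) (h0 : 0 ≤ g') (h2 : g' ≤ 2)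
    (h : ‖et a x‖ ≤ 2 * ‖et b x‖) : W g g' a x ≤ 4 * W g g' b x := by
  have h1 : ‖et a x‖ ^ g' ≤ 4 * ‖et b x‖ ^ g' := by
    refine (Real.rpow_le_rpow (norm_nonneg _) h h0).trans ?_
    rw [Real.mul_rpow (by norm_num) (norm_nonneg _)]
    refine mul_le_mul_of_nonneg_right ?_ (by positivity)
    calc (2 : ℝ) ^ g' ≤ 2 ^ (2 : ℝ) := Real.rpow_le_rpow_of_exponent_le (by norm_num) h2
      _ = 4 := by norm_num
  have := mul_le_mul_of_nonneg_left h1 (Real.rpow_pos_of_pos hx (-g)).le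
  unfold W
  linarith

/-- the regime in which the restriction is controlled -/
structure Easy (K g' X M : ℝ) (a : ℂ) : Prop where
  K0 : 0 ≤ K
  KX : 2 * K ≤ X ^ 2
  g0 : 0 ≤ g'
  g2 : g' ≤ 2
  a : ‖a‖ * X ^ 2 ≤ 1 / 2
  M : M ≤ 1 / 8

namespace Cut2
variable (h : Cut2 R X X') (hR : 2 ≤ R) {K g g' M : ℝ} {a : ℂ} {J : Jt ℓ}
include h hR

theorem two_le (s : II) : 2 ≤ xr R X s := hR.trans (xr_mem' h.lo s).1

theorem et_a (ha : ‖a‖ * X ^ 2 ≤ 1 / 2) (s : II) : ‖et a (xr R X s) - 1‖ ≤ 1 / 4 := by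
  have h1 := h.two_le hR s
  have h2 := (xr_mem' h.lo s).2
  rw [R2.norm_et_sub a (by nlinarith)]
  have : xr R X s ^ 2 ≤ X ^ 2 := by gcongr
  nlinarith [norm_nonneg a]

/-- the six bounds of `InB` for the cut `X'`, seen on `[R, X]` -/
theorem zero_bd (hK : 0 ≤ K) (ha : ‖a‖ * X ^ 2 ≤ 1 / 2) (hb : InB R K g g' X' a M J) (s : II) :
    ‖Wi.co (J 0) 0 (h.phi s)‖ ≤ M * rho K X' (xr R X s) ∧
      ‖Wi.co (J 1) 0 (h.phi s)‖ ≤ M * (xr R X s)⁻¹ ∧ ‖Wi.co (J 2) 0 (h.phi s)‖ ≤ M := by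
  have hx : ∀ s : II, 0 < xr R X s := fun s => two_pos.trans_le (h.two_le hR s)
  have he : ∀ s : II, 0 < ‖et a (xr R X s)‖ := fun s => by
    linarith [(R2.norm_bd_of_sub (h.et_a hR ha s)).1]
  have hW : ∀ s : II, 0 < W g g' a (xr R X s) := fun s => R2.W_pos' g g' (hx s) (he s)
  refine ⟨?_, ?_, ?_⟩
  · rw [← h.co_resW_apply]
    exact (h.wb hb.b0).zero_le
      (fun s => R2.rho_pos' hK (h.two_le hR s) (h.mem s).2) hW s
  · rw [← h.co_resW_apply]
    exact (h.wb hb.b1).zero_le (fun s => inv_pos.2 (hx s))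
      (fun s => div_pos (hW s) (mul_pos (hx s) (he s))) s
  · rw [← h.co_resW_apply, ← mul_one M]
    exact (h.wb hb.b2).zero_le (fun _ => one_pos) (fun s => div_pos (hW s) (he s)) s

/-- the change of the parameter `a` -/
theorem norm_dt (hK : 0 ≤ K) (ha : ‖a‖ * X ^ 2 ≤ 1 / 2) (hb : InB R K g g' X' a M J) :
    ‖h.dt J‖ * ((X ^ 2 - 2) / 2) ≤ M * rho K X' X := by
  have h1 := (h.zero_bd hR hK ha hb i1).1
  have hp := h.sq_sub_two_pos (by linarith)
  have hp' : (X : ℂ) ^ 2 - 2 ≠ 0 := by exact_mod_cast hp.ne'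
  have e : Wi.co (J 0) 0 (h.phi i1) = -(h.dt J * (((X ^ 2 - 2) / 2 : ℝ) : ℂ)) := by
    rw [dt]; push_cast; field_simp
  rwa [e, xr_i1, norm_neg, norm_mul, norm_real, Real.norm_of_nonneg (by linarith)] at h1

/-- **the restriction stays in a ball** -/
theorem inB (hE : Easy K g' X M a) (hJ : IsJet (dgam R X') J) (hb : InB R K g g' X' a M J) :
    InB R K g g' X (h.tau a J) (18 * M) (h.resJ J) := by
  have hX : 0 < X := by linarith [hR, h.lo]
  have hX4 : 4 ≤ X := by linarith [hR, h.lo]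
  have hK := hE.K0
  have hx2 := h.two_le hR
  have hx : ∀ s : II, 0 < xr R X s := fun s => two_pos.trans_le (hx2 s)
  have hxX : ∀ s : II, xr R X s ≤ X := fun s => (xr_mem' h.lo s).2
  have hz := h.zero_bd hR hK hE.a hb
  have hM : 0 ≤ M := (norm_nonneg _).trans (hz i0).2.2
  have hr1 : ∀ s : II, rho K X' (xr R X s) ≤ 1 := fun s =>
    R2.rho_le_one (hE.KX.trans (by have := h.le; gcongr)) (by linarith [h.le]) (by nlinarith [hx2 s])
  set τ := h.tau a J with hτ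
  have hd : h.dt J = a - τ := by rw [hτ, tau]; ring
  have ht : ‖a - τ‖ * ((X ^ 2 - 2) / 2) ≤ M := by
    have := h.norm_dt hR hK hE.a hb
    have h2 := hr1 i1
    rw [xr_i1] at h2
    rw [← hd]
    nlinarith
  have ht' : ∀ s : II, ‖a - τ‖ * ((xr R X s ^ 2 - 2) / 2) ≤ M := fun s => by
    have : xr R X s ^ 2 ≤ X ^ 2 := by have := hxX s; have := (hx s).le; gcongr
    nlinarith [norm_nonneg (a - τ)]
  have ea := fun s => R2.norm_bd_of_sub (h.et_a hR hE.a s)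
  have eτ : ∀ s : II, 1 - 3 / 8 ≤ ‖et τ (xr R X s)‖ ∧ ‖et τ (xr R X s)‖ ≤ 1 + 3 / 8 := fun s => by
    refine R2.norm_bd_of_sub ?_
    have e : et τ (xr R X s) - 1 = (et a (xr R X s) - 1) - (et (a - τ) (xr R X s) - 1) := by
      simp only [et]; ring
    have h1 := h.et_a hR hE.a s
    have h2 := R2.norm_et_sub (a - τ) (x := xr R X s) (by nlinarith [hx2 s])
    rw [e]
    linarith [norm_sub_le (et a (xr R X s) - 1) (et (a - τ) (xr R X s) - 1), ht' s, hE.M]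
  have he : ∀ s : II, 0 < ‖et a (xr R X s)‖ := fun s => by linarith [(ea s).1]
  have heτ : ∀ s : II, 0 < ‖et τ (xr R X s)‖ := fun s => by linarith [(eτ s).1]
  have hW : ∀ s : II, 0 < W g g' a (xr R X s) := fun s => R2.W_pos' g g' (hx s) (he s)
  have hWτ : ∀ s : II, 0 < W g g' τ (xr R X s) := fun s => R2.W_pos' g g' (hx s) (heτ s)
  have hWW : ∀ s : II, W g g' a (xr R X s) ≤ 4 * W g g' τ (xr R X s) := fun s =>
    R2.W_le_four g (hx s) hE.g0 hE.g2 (by linarith [(ea s).2, (eτ s).1])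
  have hW8 : ∀ s : II, W g g' a (xr R X s) ≤ 8 * W g g' τ (xr R X s) := fun s => by
    linarith [hWW s, hWτ s]
  have hWe : ∀ s : II, W g g' a (xr R X s) / ‖et a (xr R X s)‖ ≤
      8 * (W g g' τ (xr R X s) / ‖et τ (xr R X s)‖) := fun s => by
    rw [← mul_div_assoc, div_le_div_iff₀ (he s) (heτ s)]
    have h1 := mul_le_mul (hWW s) (eτ s).2 (heτ s).le (by linarith [hWτ s])
    have h2 := mul_le_mul_of_nonneg_left (ea s).1 (hWτ s).le
    nlinarith [hWτ s]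
  have hne : ∀ (i : Fin 6) (m : ℤ), m ≠ 0 → ∀ s, Wi.co (h.resJ J i) m s = Wi.co (h.resW (J i)) m s :=
    fun i m hm s => by rw [h.co_resJ_ne J i hm, h.co_resW_apply]
  have z1 : ∀ s : II, ‖Wi.co (h.resJ J 1) 0 s‖ ≤ 5 * M * (xr R X s)⁻¹ := fun s => by
    rw [h.co_resJ_1, hd]
    refine (norm_add_le _ _).trans ?_
    rw [norm_mul, norm_real, Real.norm_of_nonneg (hx s).le]
    have h1 : ‖a - τ‖ * xr R X s ≤ 4 * M * (xr R X s)⁻¹ := by
      rw [← div_eq_mul_inv, le_div_iff₀ (hx s)]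
      have : 4 ≤ xr R X s ^ 2 := by nlinarith [hx2 s]
      nlinarith [ht' s, norm_nonneg (a - τ)]
    linarith [(hz s).2.1]
  have z0 : ∀ s : II, ‖Wi.co (h.resJ J 0) 0 s‖ ≤ 10 * M * rho K X (xr R X s) := fun s => by
    have hρ := R2.sub_le_rho hK (hx2 s) (hxX s)
    rcases le_total (xr R X s) (X / 2) with h1 | h1
    · rw [h.co_resJ_0, hd, ← mul_div_assoc]
      have h2 := R2.norm_et_sub (a - τ) (x := xr R X s) (by nlinarith [hx2 s])
      have e : et (a - τ) (xr R X s) - 1 = (a - τ) * ((xr R X s : ℂ) ^ 2 - 2) / 2 := by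
        simp only [et]; ring
      rw [e] at h2
      have h3 : 1 / 2 ≤ (X - xr R X s) / X := by rw [le_div_iff₀ hX]; linarith
      have h4 := mul_le_mul_of_nonneg_left (hr1 s) hM
      have h5 := mul_le_mul_of_nonneg_left (h3.trans hρ) hM
      linarith [norm_add_le (Wi.co (J 0) 0 (h.phi s)) ((a - τ) * ((xr R X s : ℂ) ^ 2 - 2) / 2),
        (hz s).1, ht' s]
    · have hdv := (((h.isJet_resJ hJ).d0 0).dv h.lo).mono (xr_mem' h.lo s).1 le_rfl
      have hb' : ∀ y ∈ Icc (xr R X s) X, ‖fx R X (Wi.co (h.resJ J 1) 0) y‖ ≤ 10 * M / X :=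
        fun y hy => by
          obtain ⟨t, rfl⟩ := exists_xr h.lo (x := y) ⟨(xr_mem' h.lo s).1.trans hy.1, hy.2⟩
          rw [fx_xr h.lo]
          refine (z1 t).trans ?_
          rw [← div_eq_mul_inv, div_le_div_iff₀ (hx t) hX]
          nlinarith [hy.1]
      have := (convex_Icc _ _).norm_image_sub_le_of_norm_hasDerivWithin_le hdv hb'
        (right_mem_Icc.2 (hxX s)) (left_mem_Icc.2 (hxX s))
      rw [fx_xr h.lo, fx_right h.lo, h.resJ_far0 (by linarith), sub_zero, Real.norm_eq_abs, abs_sub_comm,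
        abs_of_nonneg (by linarith [hxX s])] at this
      calc _ ≤ 10 * M / X * (X - xr R X s) := this
        _ = 10 * M * ((X - xr R X s) / X) := by ring
        _ ≤ _ := by gcongr
  have z2 : ∀ s : II, ‖Wi.co (h.resJ J 2) 0 s‖ ≤ 2 * M * 1 := fun s => by
    rw [h.co_resJ_2, hd]
    have : ‖a - τ‖ ≤ M :=
      (le_mul_of_one_le_right (norm_nonneg _) (by nlinarith : 1 ≤ (X ^ 2 - 2) / 2)).trans ht
    linarith [norm_add_le (Wi.co (J 2) 0 (h.phi s)) (a - τ), (hz s).2.2]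
  have hJ' := h.isJet_resJ hJ
  have z3 : ∀ s : II, ‖Wi.co (h.resJ J 3) 0 s‖ ≤ 0 * 1 := fun s => by rw [hJ'.t0]; simp
  have z4 : ∀ s : II, ‖Wi.co (h.resJ J 4) 0 s‖ ≤ 0 * 1 := fun s => by rw [hJ'.t1]; simp
  have z5 : ∀ s : II, ‖Wi.co (h.resJ J 5) 0 s‖ ≤ 0 * 1 := fun s => by rw [hJ'.t2]; simp
  have o1 : ∀ _ : II, (0 : ℝ) < 1 := fun _ => one_pos
  have o2 : ∀ _ : II, (0 : ℝ) ≤ 1 := fun _ => zero_le_one
  refine ⟨?_, ?_, ?_, ?_, ?_, ?_⟩
  · exact ((h.wb hb.b0).change (C := 8) (fun s => R2.rho_pos' hK (hx2 s) (h.mem s).2) hW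
      (by norm_num) (fun s => (R2.rho_pos' hK (hx2 s) (hxX s)).le) hW8 (hne 0) z0).mono_M (by linarith)
  · refine ((h.wb hb.b1).change (C := 8) (fun s => inv_pos.2 (hx s))
      (fun s => div_pos (hW s) (mul_pos (hx s) (he s))) (by norm_num)
      (fun s => (inv_pos.2 (hx s)).le) (fun s => ?_) (hne 1) z1).mono_M (by linarith)
    have := div_le_div_of_nonneg_right (hWe s) (hx s).le
    rwa [div_div, mul_comm _ (xr R X s), mul_div_assoc, div_div, mul_comm _ (xr R X s)] at this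
  · exact ((h.wb hb.b2).change (C := 8) o1 (fun s => div_pos (hW s) (he s)) (by norm_num) o2
      hWe (hne 2) z2).mono_M (by linarith)
  · exact ((h.wb hb.b3).change (C := 8) o1 hW (by norm_num) o2 hW8 (hne 3) z3).mono_M
      (by linarith)
  · refine ((h.wb hb.b4).change (C := 8) o1 (fun s => mul_pos (hx s) (hW s)) (by norm_num) o2
      (fun s => ?_) (hne 4) z4).mono_M (by linarith)
    have := mul_le_mul_of_nonneg_left (hW8 s) (hx s).le
    linarith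
  · exact ((h.wb hb.b5).change (C := 8) o1 hW (by norm_num) o2 hW8 (hne 5) z5).mono_M
      (by linarith)

end Cut2

end Crest.Agent.N250.B1

end
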