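import Crest.Agent.N250.B1.DrS
import Crest.Agent.N250.B1.Res2
import Crest.Agent.N250.B1.WtBar
import Crest.Agent.N250.B1.Reg
import Crest.Agent.N250.B1.Nl

-- ▼ part N250/B1/Drift
section

/-!
# Row 250, block B1, S10 (helper53): assembly of the drift statement
-/

set_option autoImplicit false
open Set Complex Filter Topology

noncomputable section

namespace Crest.Agent.N250.B1

open Gi (Lam hat)

variable {ℓ : Ell} {R X X' : ℝ}

theorem Dr.inB_mono {K g g' M M' : ℝ} {a : ℂ} {J : Jt ℓ} (h : InB R K g g' X a M J) (hM : M ≤ M') :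
    InB R K g g' X a M' J :=
  ⟨h.b0.mono_M hM, h.b1.mono_M hM, h.b2.mono_M hM, h.b3.mono_M hM, h.b4.mono_M hM, h.b5.mono_M hM⟩

theorem Dr.W_div_le {ε x g g' : ℝ} {a : ℂ} (h : Pt ε a x) (h1 : 1 ≤ g') (h2 : g' ≤ 2) :
    W g g' a x / ‖et a x‖ ≤ 3 * x ^ (-g) := by
  have h3 : ‖et a x‖ ^ (g' - 1) ≤ 3 := by
    refine (Real.rpow_le_rpow (norm_nonneg _) h.norm_le (by linarith)).trans ?_
    refine (Real.rpow_le_rpow_of_exponent_le (by norm_num) (by linarith : g' - 1 ≤ 1)).trans_eq ?_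
    simp
  rw [W, mul_div_assoc, ← Real.rpow_sub_one h.npos.ne', mul_comm]
  exact mul_le_mul_of_nonneg_right h3 (Real.rpow_nonneg h.xpos.le _)

theorem Dr.sq_le_exp {c t l : ℝ} (hc : 0 < c) (ht : 0 ≤ t) (hl : c * t ≤ l) :
    (1 + t) ^ 2 * Real.exp (l / 2) ≤ (1 + 4 / c) ^ 2 * Real.exp l := by
  have h1 : 1 + t ≤ (1 + 4 / c) * Real.exp (l / 4) := by
    have h2 := Real.add_one_le_exp (l / 4)
    have h3 : t ≤ 4 / c * (l / 4) := by
      rw [div_mul_div_comm, le_div_iff₀ (by positivity)]; linarith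
    have h4 : 0 ≤ l := (mul_nonneg hc.le ht).trans hl
    have h5 : 0 < 4 / c := by positivity
    nlinarith [mul_le_mul_of_nonneg_left h2 (by linarith : 0 ≤ 1 + 4 / c)]
  have e : Real.exp l = Real.exp (l / 4) ^ 2 * Real.exp (l / 2) := by
    rw [sq, ← Real.exp_add, ← Real.exp_add]; congr 1; ring
  rw [e, ← mul_assoc, ← mul_pow]
  gcongr

theorem Cut2.mo_eq (h : Cut2 R X X') (J : Jt ℓ) (i : Fin 6) (m : ℤ) (s : II) :
    mo R X' J i m (xr R X s) = Wi.co (J i) m (h.phi s) := (h.comp_apply _ s).symm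

theorem Cut2.mo_X (h : Cut2 R X X') (J : Jt ℓ) (i : Fin 6) (m : ℤ) :
    mo R X' J i m X = Wi.co (J i) m (h.phi i1) := by rw [← h.mo_eq, xr_i1]

theorem Cut2.dt_eq (h : Cut2 R X X') (J : Jt ℓ) :
    h.dt J = -(mo R X' J 0 0 X / (((X : ℂ) ^ 2 - 2) / 2)) := by
  rw [h.mo_X, Cut2.dt, div_div_eq_mul_div]; ring

theorem Cut2.tauX_eq (h : Cut2 R X X') (a : ℂ) (J : Jt ℓ) : tauX R X X' a J = h.tau a J := by
  rw [Cut2.tau, h.dt_eq, tauX, sub_neg_eq_add]

theorem Dr.co_vJ (R : ℝ) (X a : ℂ) (J : Jt ℓ) (i : Fin 6) (m : ℤ) :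
    Wi.co (vJ R X a J i) m = Wi.co (J i) m + if m = 0 then
      ![1 + (a / 2) • (gam R X ^ 2 - 2), a • gam R X, a • (1 : CI), 0, 0, 0] i else 0 := by
  rw [vJ, Pi.add_apply, Wi.co_add]
  congr 1
  fin_cases i
  · exact Wi.co_cst _ m
  · exact Wi.co_cst _ m
  · exact Wi.co_cst _ m
  all_goals exact (Wi.co_zero m).trans (ite_self _).symm

theorem Dr.co_vJ_ne (R : ℝ) (X a : ℂ) (J : Jt ℓ) (i : Fin 6) {m : ℤ} (hm : m ≠ 0) :
    Wi.co (vJ R X a J i) m = Wi.co (J i) m := by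
  rw [Dr.co_vJ, if_neg hm, add_zero]

theorem Dr.co_vJ_zero (R : ℝ) (X a : ℂ) (J : Jt ℓ) (i : Fin 6) (s : II) :
    Wi.co (vJ R X a J i) 0 s =
      Wi.co (J i) 0 s + ![et a (gam R X s), a * gam R X s, a, 0, 0, 0] i := by
  have e : (2 : CI) s = 2 := rfl
  rw [Dr.co_vJ, if_pos rfl, ContinuousMap.add_apply]
  congr 1
  fin_cases i <;> simp [et, e]
  ring

/-- the jets of `v` agree mode by mode -/
theorem Cut2.co_vJ (h : Cut2 R X X') (a : ℂ) (J : Jt ℓ) (i : Fin 6) (m : ℤ) (s : II) :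
    Wi.co (vJ R X' a J i) m (h.phi s) = Wi.co (vJ R X (h.tau a J) (h.resJ J) i) m s := by
  by_cases hm : m = 0
  · subst hm
    rw [Dr.co_vJ_zero, Dr.co_vJ_zero, h.gam_phi, gam_real]
    fin_cases i
    · simp only [Fin.zero_eta, Matrix.cons_val_zero, h.co_resJ_0, et, Cut2.tau]; ring
    · simp only [Fin.mk_one, Matrix.cons_val_one, Matrix.cons_val_zero, h.co_resJ_1, Cut2.tau]; ring
    · simp only [Fin.reduceFinMk, Matrix.cons_val, h.co_resJ_2, Cut2.tau]; ring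
    · simp only [Fin.reduceFinMk, Matrix.cons_val, h.resJ_3, h.co_resW_apply]
    · simp only [Fin.reduceFinMk, Matrix.cons_val, h.resJ_4, h.co_resW_apply]
    · simp only [Fin.reduceFinMk, Matrix.cons_val, h.resJ_5, h.co_resW_apply]
  · rw [Dr.co_vJ_ne _ _ _ _ _ hm, Dr.co_vJ_ne _ _ _ _ _ hm, h.co_resJ_ne J i hm]

theorem Cut2.xc (h : Cut2 R X X') (a : ℂ) {J' J : Jt ℓ} {N : ℝ} (hw : Wc R X (h.resJ J') J N) :
    Xc R X X' (vJ R X' a J') (vJ R X (h.tau a J') J) N := fun i => by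
  obtain ⟨β, b1, b2, b3⟩ := hw i
  refine ⟨β, b1, b2, fun m x hx => ?_⟩
  obtain ⟨s, rfl⟩ := exists_xr h.lo hx
  have e : mo R X' (vJ R X' a J') i m (xr R X s) - mo R X (vJ R X (h.tau a J') J) i m (xr R X s) =
      Wi.co (h.resJ J' i - J i) m s := by
    rw [h.mo_eq, h.co_vJ, mo, fx_xr h.lo, Wi.co_sub, ContinuousMap.sub_apply]
    by_cases hm : m = 0
    · subst hm; rw [Dr.co_vJ_zero, Dr.co_vJ_zero]; ring
    · rw [Dr.co_vJ_ne _ _ _ _ _ hm, Dr.co_vJ_ne _ _ _ _ _ hm]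
  rw [e, sig_xr h.lo]
  exact b3 m s

theorem Dr.xc_mono {J' J : Jt ℓ} {N N' : ℝ} (h : Xc R X X' J' J N) (hN : N ≤ N') :
    Xc R X X' J' J N' := fun i => by
  obtain ⟨β, b1, b2, b3⟩ := h i
  exact ⟨β, b1, b2.trans hN, b3⟩

theorem Dr.ex0 : Ex (13 / 8) (7 / 4) := by unfold Ex; norm_num

theorem Dr.pow_mul_le {X p q r : ℝ} (hX : 1 ≤ X) (h : p + q ≤ r) : X ^ p * X ^ q ≤ X ^ r := by
  rw [← Real.rpow_add (by linarith)]
  exact Real.rpow_le_rpow_of_exponent_le hX h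

theorem driftS_of (hA : ApS) (hL : LogS) (hM : M1S) (hW : WkS) : DriftS := by
  intro Ch hCh
  obtain ⟨CA, hCA, hA⟩ := hA
  obtain ⟨CL, hCL, hL⟩ := hL Ch (9 * CA) hCh (by positivity)
  obtain ⟨CM, eM, hCM, heM, hM⟩ := hM _ _ Dr.ex0
  obtain ⟨RW, c0, eW, cW, CW, hc0, heW, hcW, hCW, hW⟩ := hW _ _ Dr.ex0
  obtain ⟨cg, G⟩ := Dr.ex0.gg
  obtain ⟨ε, hε0, hε1, hε2⟩ : ∃ ε : ℝ, 0 < ε ∧ ε ≤ 1 / 10 ^ 5 ∧ ε ≤ eM :=
    ⟨min (1 / 10 ^ 5) eM, lt_min (by norm_num) heM, min_le_left _ _, min_le_right _ _⟩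
  obtain ⟨c1, hc1, c1a, c1b⟩ : ∃ c1 : ℝ, 0 < c1 ∧ c1 ≤ 1 / 4 ∧ 2 * c1 ≤ cW :=
    ⟨min (1 / 4) (cW / 2), lt_min (by norm_num) (by positivity), min_le_left _ _,
      by linarith [min_le_right (1 / 4) (cW / 2)]⟩
  obtain ⟨e0, he0, e0a, e0b, e0c, e0d⟩ :
      ∃ e0 : ℝ, 0 < e0 ∧ e0 ≤ 1 / 100 ∧ e0 ≤ eM ∧ 18 * e0 ≤ eW ∧ 3 * e0 ≤ c1 := by
    refine ⟨min (min (1 / 100) eM) (min (eW / 18) (c1 / 3)), by positivity,
      (min_le_left _ _).trans (min_le_left _ _), (min_le_left _ _).trans (min_le_right _ _), ?_, ?_⟩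
    · linarith [(min_le_right (min (1 / 100) eM) _).trans (min_le_left (eW / 18) (c1 / 3))]
    · linarith [(min_le_right (min (1 / 100) eM) _).trans (min_le_right (eW / 18) (c1 / 3))]
  have h4ε : 4 ≤ 4 / ε := by rw [le_div_iff₀ hε0]; norm_num at hε1; linarith
  refine ⟨max (4 / ε) RW, 4 / ε, c0, e0, c1, CL, hc0, he0, hc1, hCL, fun ℓ R c hR hℓ hc hcℓ => ?_⟩
  have hR1 : 4 / ε ≤ R := (le_max_left _ _).trans hR
  have hR2 : RW ≤ R := (le_max_right _ _).trans hR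
  have hR4 : 4 ≤ R := h4ε.trans hR1
  refine ⟨CW * ((1 + 4 / c) ^ 2 * 3 * e0 + (CL + 2 * Ch) + 2 * CM), by positivity,
    fun K X X' a h' b J' hK hX hKX hXX hadm ha hh' hS hB => ?_⟩
  have h : Cut2 R X X' := ⟨by linarith, hXX⟩
  have hK0 : 0 ≤ K := by linarith
  have hX1 : 1 ≤ X := by linarith
  have hX0 : 0 < X := by linarith
  have hK4 : 4 * K ≤ X ^ 2 := four_le_of_sqrt hK0 hKX
  have hOk : Ok ε a R X' := hadm.ok' hε1 hε0 hR1 hK (by linarith) (hKX.trans hXX)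
  have hrho : ∀ x ∈ Icc R X', 0 < rho K X' x ∧ rho K X' x ≤ (et a x).re := fun x hx =>
    ⟨R2.rho_pos' hK0 (by linarith [hx.1]) hx.2,
      hadm.rho_le (by linarith) (by nlinarith [hx.1])⟩
  have hm' := xr_mem' h.lo'
  have hPt : ∀ s : II, Pt ε a (xr R X' s) := fun s => hOk.2 _ (hm' s)
  have hRX : R ≤ X := by linarith
  have hsub : Icc X X' ⊆ Icc R X' := Icc_subset_Icc hRX le_rfl
  -- the scalar lemma
  obtain ⟨l1, l2⟩ := hL ε X X' a (mo R X' J' 0 0) (mo R X' J' 1 0) (mo R X' J' 2 0) hXX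
    (fun x hx => hOk.2 x (hsub hx)) (ha.trans c1a) (((hS.jet.d0 0).dv h.lo').mono hRX le_rfl)
    (((hS.jet.d1 0).dv h.lo').mono hRX le_rfl) ((fx_right h.lo' _).trans hS.bc.far0)
    (by
      have e : mo R X' J' 1 0 X' = h' :=
        ((fx_right h.lo' _).trans (hS.bc.slope 0)).trans (Wi.co_single_self _ _)
      rwa [e])
    (fun x hx => by
      have k4 := (hA ℓ R K _ _ cg ε e0 X' a _ J' G h.lo' hOk hrho e0a hS hB x (hsub hx)).1
      have hp := hOk.2 x (hsub hx)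
      have k5 := Dr.W_div_le (g := 13 / 8) (g' := 7 / 4) hp (by norm_num) (by norm_num)
      have k6 : (W (13 / 8) (7 / 4) a x / ‖et a x‖) ^ 2 ≤ 9 / x ^ 3 := by
        have h1 : 1 ≤ x := by linarith [hp.x_ge]
        refine (pow_le_pow_left₀ (div_pos (hp.W_pos _ _) hp.npos).le k5 2).trans ?_
        have := Dr.pow_mul_le (p := -(13 / 8)) (q := -(13 / 8)) (r := -((3 : ℕ) : ℝ)) h1 (by norm_num)
        rw [Real.rpow_neg hp.xpos.le ((3 : ℕ) : ℝ), Real.rpow_natCast] at this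
        rw [mul_pow, sq (x ^ _), div_eq_mul_inv 9]
        linarith
      obtain ⟨s, rfl⟩ := exists_xr h.lo' (hsub hx)
      have k0 := hB.b0.zero_le (fun s => (hrho _ (hm' s)).1) (fun s => (hPt s).W_pos _ _) s
      have k1 := hB.b1.zero_le (fun s => inv_pos.2 (hPt s).xpos)
        (fun s => div_pos ((hPt s).W_pos _ _) (mul_pos (hPt s).xpos (hPt s).npos)) s
      have k2 := hB.b2.zero_le (fun _ => one_pos)
        (fun s => div_pos ((hPt s).W_pos _ _) (hPt s).npos) s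
      refine ⟨?_, ?_, ?_, k4.trans ?_⟩
      · rw [mo, fx_xr h.lo']
        have := hrho _ (hm' s)
        nlinarith [this.1, this.2]
      · rw [mo, fx_xr h.lo']
        rw [← div_eq_mul_inv, le_div_iff₀ hp.xpos] at k1
        linarith
      · rw [mo, fx_xr h.lo']; linarith
      · rw [mul_comm 9 CA, mul_div_assoc]; gcongr)
  have hR2' : 2 ≤ R := by linarith
  have ha2 : ‖a‖ * X ^ 2 ≤ 1 / 2 := by linarith
  have hdt : ‖h.dt J'‖ * X ^ 2 ≤ c1 := by
    have h1 := h.norm_dt hR2' hK0 ha2 hB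
    have h2 : rho K X' X ≤ 1 :=
      R2.rho_le_one (by nlinarith) (by linarith) (by nlinarith)
    have h3 : X ^ 2 ≤ 3 * ((X ^ 2 - 2) / 2) := by nlinarith
    nlinarith [norm_nonneg (h.dt J')]
  refine ⟨l1, ?_, fun h0 J hh0 hS' hB' => ?_⟩
  · rw [h.tauX_eq, Cut2.tau, sub_sub_cancel_left, norm_neg, le_div_iff₀ (by positivity)]
    exact hdt
  rw [h.tauX_eq] at hS' hB' ⊢
  have hτ : ‖h.tau a J'‖ * X ^ 2 ≤ cW := by
    have := mul_le_mul_of_nonneg_right (norm_sub_le a (h.dt J')) (sq_nonneg X)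
    rw [Cut2.tau]; linarith
  have hB1 := h.inB hR2' ⟨hK0, by linarith, by norm_num, by norm_num, ha2, by linarith⟩ hS.jet hB
  have hPX : ∀ s : II, Pt ε a (xr R X s) := fun s => hOk.2 _ (h.mem s)
  obtain ⟨β, bp, -, b1, b2, -, b4⟩ := (h.wb hB.b1).nf i0 (inv_pos.2 (hPX _).xpos)
    (div_pos ((hPX _).W_pos _ _) (mul_pos (hPX _).xpos (hPX _).npos))
  have hs := (b1.hasSum.mul_left ((1 + 4 / c) ^ 2 * 3 * X ^ (-21 / 8 : ℝ))).add
    (hasSum_ite_eq (0 : ℤ) ((CL + 2 * Ch) / X ^ 3))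
  have key := hW ℓ R K X _ _ _ _ _ _ hR2 hℓ hX hK0 hK4 hτ (h.sol (by linarith) hS)
    (Dr.inB_mono hB1 e0c) hS' (Dr.inB_mono hB' (by linarith)) rfl hs.summable (fun m => ?_)
  · refine Dr.xc_mono (h.xc a key) ?_
    rw [hs.tsum_eq, mul_assoc CW]
    refine mul_le_mul_of_nonneg_left ?_ hCW.le
    have m1 : ∀ m : ℤ, m ^ 2 = 1 → ‖Wi.co (h.resJ J' 0) m i1 - 0‖ ≤ CM * X ^ (-(2 * (13 / 8)) : ℝ) :=
      fun m hm => by
        have hm0 : m ≠ 0 := by rintro rfl; simp at hm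
        have := hM ℓ R K ε e0 X' a _ J' h.lo' hOk hrho hε2 e0b hS hB rfl m hm
          (Wi.co_single_ne hm0 _) X ⟨hRX, hXX⟩
        rw [sub_zero, h.co_resJ_ne _ _ hm0, ← h.mo_X]
        have := mul_nonneg hX0.le (norm_nonneg (mo R X' J' 1 m X))
        linarith
    have p1 := Dr.pow_mul_le (p := -15 / 8) (q := -21 / 8) (r := -33 / 8) hX1 (by norm_num)
    have p2 := Dr.pow_mul_le (p := -15 / 8) (q := -((3 : ℕ) : ℝ)) (r := -33 / 8) hX1 (by norm_num)
    have p3 := Dr.pow_mul_le (p := -7 / 8) (q := -(2 * (13 / 8))) (r := -33 / 8) hX1 (by norm_num)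
    rw [Real.rpow_neg hX0.le ((3 : ℕ) : ℝ), Real.rpow_natCast] at p2
    have q1 : 0 ≤ X ^ (-15 / 8 : ℝ) := by positivity
    have q2 : 0 ≤ X ^ (-21 / 8 : ℝ) := by positivity
    have q3 : 0 ≤ X ^ (-7 / 8 : ℝ) := by positivity
    calc _ ≤ X ^ (-15 / 8 : ℝ) * ((1 + 4 / c) ^ 2 * 3 * X ^ (-21 / 8 : ℝ) * e0 +
            (CL + 2 * Ch) / X ^ 3) + X ^ (-7 / 8 : ℝ) *
            (CM * X ^ (-(2 * (13 / 8)) : ℝ) + CM * X ^ (-(2 * (13 / 8)) : ℝ)) := by
          gcongr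
          · exact m1 1 (by norm_num)
          · exact m1 (-1) (by norm_num)
      _ = (1 + 4 / c) ^ 2 * 3 * e0 * (X ^ (-15 / 8 : ℝ) * X ^ (-21 / 8 : ℝ)) +
            (CL + 2 * Ch) * (X ^ (-15 / 8 : ℝ) * (X ^ 3)⁻¹) +
            2 * CM * (X ^ (-7 / 8 : ℝ) * X ^ (-(2 * (13 / 8)) : ℝ)) := by ring
      _ ≤ (1 + 4 / c) ^ 2 * 3 * e0 * X ^ (-33 / 8 : ℝ) + (CL + 2 * Ch) * X ^ (-33 / 8 : ℝ) +
            2 * CM * X ^ (-33 / 8 : ℝ) := by gcongr
      _ = _ := by ring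
  · change _ * ‖Wi.co (farH (h.resJ J') - Wi.single _ 0 h0) m‖ ≤ _
    have hC0 : 0 ≤ (1 + 4 / c) ^ 2 * 3 * X ^ (-21 / 8 : ℝ) * β m := by
      have := bp m; positivity
    rw [Wi.co_sub]
    by_cases hm : m = 0
    · subst hm
      rw [h.far_slope_0 hS.jet, Wi.co_single_self, ℓ.zero, if_pos rfl, ← h.mo_X, h.dt_eq]
      have e : mo R X' J' 1 0 X + -(mo R X' J' 0 0 X / (((X : ℂ) ^ 2 - 2) / 2)) * X =
          mo R X' J' 1 0 X - X * (mo R X' J' 0 0 X / (((X : ℂ) ^ 2 - 2) / 2)) := by ring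
      have := norm_sub_le (mo R X' J' 1 0 X - X * (mo R X' J' 0 0 X / (((X : ℂ) ^ 2 - 2) / 2))) h0
      rw [e, add_div]
      simp only [Int.cast_zero, abs_zero, add_zero, one_pow, zero_div, Real.exp_zero, one_mul]
      linarith
    · rw [h.far_slope_ne hS.jet hm, Wi.co_single_ne hm, sub_zero, if_neg hm, add_zero]
      have k1 := b4 m hm i1
      have hp := hPX i1
      rw [Res.sig_two, one_mul, h.co_resW_apply, xr_i1] at k1
      rw [xr_i1] at hp
      have k2 : W (13 / 8) (7 / 4) a X / (X * ‖et a X‖) ≤ 3 * X ^ (-21 / 8 : ℝ) := by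
        rw [mul_comm X, ← div_div, div_le_iff₀ hX0]
        refine (Dr.W_div_le hp (by norm_num) (by norm_num)).trans_eq ?_
        rw [mul_assoc, ← Real.rpow_add_one hX0.ne']
        norm_num
      calc _ ≤ (1 + 4 / c) ^ 2 * Real.exp (ℓ.l m) * ‖Wi.co (J' 1) m (h.phi i1)‖ :=
            mul_le_mul_of_nonneg_right (Dr.sq_le_exp hc (abs_nonneg _) (hcℓ m)) (norm_nonneg _)
        _ ≤ (1 + 4 / c) ^ 2 * (β m * (3 * X ^ (-21 / 8 : ℝ))) := by
            rw [mul_assoc]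
            exact mul_le_mul_of_nonneg_left
              (k1.trans (mul_le_mul_of_nonneg_left k2 (bp m))) (by positivity)
        _ = _ := by ring

end Crest.Agent.N250.B1

end
end

-- ▼ part N250/B1/Ap

/-!
# Row 250, block B1, S10 (helper33): the modes `0, ±1` of the end equation
-/

set_option autoImplicit false
open Set Complex Filter Topology Metric

noncomputable section

namespace Crest.Agent.N250.B1

namespace Ap

open Nl

/-- the nonlinearity on `ℂ⁶` -/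
def GF (n : ℂ) (z : Fin 6 → ℂ) : ℂ := G (z 0) (z 1) (z 2) (z 3) (z 4) (z 5) n

/-- symmetric centres -/
structure Ce (z : Fin 6 → ℂ) : Prop where
  y : ‖z 0‖ ≤ 1 / 8
  T : z 1 = 0
  TT : z 2 = 0
  Z : ‖z 3‖ ≤ 19 / 2
  S : z 4 = 0
  V : ‖z 5‖ ≤ 1 / 2

variable {z0 z : Fin 6 → ℂ} {n : ℂ} {r : ℝ}

lemma comp_le (hz : z ∈ ball z0 r) (i : Fin 6) : ‖z i‖ ≤ ‖z0 i‖ + r := by
  have h1 : ‖(z - z0) i‖ ≤ ‖z - z0‖ := norm_le_pi_norm _ i
  have h2 : ‖z - z0‖ < r := by rwa [mem_ball, dist_eq_norm] at hz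
  have h3 := norm_add_le (z0 i) ((z - z0) i)
  rw [Pi.sub_apply, add_sub_cancel] at h3
  rw [Pi.sub_apply] at h1
  linarith

lemma Ce.sm (h : Ce z0) (hr : r ≤ 1 / 8) (hz : z ∈ ball z0 r) (hn : ‖n‖ ≤ 1 / 400) :
    Sm (z 0) (z 1) (z 2) (z 3) (z 5) n := by
  have h0 := comp_le hz 0
  have h1 := comp_le hz 1
  have h2 := comp_le hz 2
  have h3 := comp_le hz 3
  have h5 := comp_le hz 5
  rw [h.T, norm_zero] at h1
  rw [h.TT, norm_zero] at h2
  exact ⟨by linarith [h.y], by linarith, by linarith, by linarith [h.Z], by linarith [h.V], hn⟩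

lemma Ce.le (h : Ce z0) (hr : r ≤ 1 / 8) (hz : z ∈ ball z0 r) (hn : ‖n‖ ≤ 1 / 400) :
    ‖GF n z‖ ≤ 25 * ((‖z0 0‖ + r) * r) + 200 * ‖n‖ := by
  have hr0 : 0 < r := nonempty_ball.1 ⟨z, hz⟩
  have h0 := comp_le hz 0
  have h1 := comp_le hz 1
  have h2 := comp_le hz 2
  have h4 := comp_le hz 4
  rw [h.T, norm_zero, zero_add] at h1
  rw [h.TT, norm_zero, zero_add] at h2
  rw [h.S, norm_zero, zero_add] at h4
  have k : r ≤ ‖z0 0‖ + r := by linarith [norm_nonneg (z0 0)]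
  have := (h.sm hr hz hn).G_le (S := z 4) (k := 1) (a := (‖z0 0‖ + r) * r) (ν := ‖n‖)
    (by rw [one_mul]; exact mul_le h0 h2) (by rw [one_mul]; exact mul_le (h1.trans k) h1)
    (by rw [one_mul]; exact mul_le (h1.trans k) h4) (by rw [one_mul])
  rwa [one_mul] at this

lemma Ce.le7 (h : Ce z0) (hz : z ∈ ball z0 (1 / 8)) (hn : ‖n‖ ≤ 1 / 400) : ‖GF n z‖ ≤ 7 := by
  have := h.le le_rfl hz hn
  have := h.y
  linarith

lemma Ce.diff (h : Ce z0) (hr : r ≤ 1 / 8) (hn : ‖n‖ ≤ 1 / 400) :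
    DifferentiableOn ℂ (GF n) (ball z0 r) :=
  diff_G (differentiable_apply 0).differentiableOn (differentiable_apply 1).differentiableOn
    (differentiable_apply 2).differentiableOn (differentiable_apply 3).differentiableOn
    (differentiable_apply 4).differentiableOn (differentiable_apply 5).differentiableOn
    (differentiableOn_const n) fun _ hz => h.sm hr hz hn

lemma Ce.tay (h : Ce z0) (hn : ‖n‖ ≤ 1 / 400) (hz : z ∈ ball z0 (1 / 8)) :
    ‖GF n z - GF n z0 - fderiv ℂ (GF n) z0 (z - z0)‖ ≤ 1792 * ‖z - z0‖ ^ 2 :=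
  (H.tay2 (h.diff le_rfl hn) (fun _ hz => h.le7 hz hn) hz).trans (le_of_eq (by ring))

lemma Ce.lip_n (h : Ce z0) (hn : ‖n‖ ≤ 1 / 800) (hz : z ∈ ball z0 (1 / 8)) :
    ‖GF n z - GF 0 z‖ ≤ 5600 * ‖n‖ := by
  have hd : DifferentiableOn ℂ (fun n => GF n z) (ball 0 (1 / 400)) :=
    diff_G (differentiableOn_const _) (differentiableOn_const _) (differentiableOn_const _)
      (differentiableOn_const _) (differentiableOn_const _) (differentiableOn_const _)
      differentiableOn_id fun _ hn => h.sm le_rfl hz (mem_ball_zero_iff.1 hn).le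
  have := H.lip_le hd (fun _ hn => h.le7 hz (mem_ball_zero_iff.1 hn).le)
    (mem_ball_zero_iff.2 (by linarith) : n ∈ ball (0 : ℂ) (1 / 400))
  rw [sub_zero] at this
  exact this.trans (le_of_eq (by ring))

lemma Ce.fd0 (h : Ce z0) : ‖fderiv ℂ (GF 0) z0‖ ≤ 50 * ‖z0 0‖ := by
  refine le_of_forall_pos_le_add fun δ hδ => ?_
  have hr : min (δ / 50) (1 / 8) ≤ 1 / 8 := min_le_right _ _
  have hr' : min (δ / 50) (1 / 8) ≤ δ / 50 := min_le_left _ _
  have h0 : 0 < min (δ / 50) (1 / 8) := lt_min (by positivity) (by norm_num)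
  generalize min (δ / 50) (1 / 8) = r at hr hr' h0
  have := H.fd_le h0 (h.diff hr (n := 0) (by simp)) fun _ hz => h.le hr hz (n := 0) (by simp)
  rw [norm_zero, mul_zero, add_zero] at this
  have e : 2 * (25 * ((‖z0 0‖ + r) * r)) / r = 50 * ‖z0 0‖ + 50 * r := by field_simp; ring
  linarith

lemma Ce.fd (h : Ce z0) (hn : ‖n‖ ≤ 1 / 800) :
    ‖fderiv ℂ (GF n) z0‖ ≤ 50 * ‖z0 0‖ + 89600 * ‖n‖ := by
  have hb := ball_mem_nhds z0 (by norm_num : (0 : ℝ) < 1 / 8)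
  have d1 := h.diff le_rfl (n := n) (by linarith)
  have d0 := h.diff le_rfl (n := 0) (by simp)
  have e : fderiv ℂ (GF n) z0 =
      fderiv ℂ (GF 0) z0 + fderiv ℂ (fun z => GF n z - GF 0 z) z0 := by
    rw [fderiv_fun_sub (d1.differentiableAt hb) (d0.differentiableAt hb)]; abel
  have := H.fd_le (by norm_num : (0 : ℝ) < 1 / 8) (d1.sub d0) fun _ hz => h.lip_n hn hz
  rw [e]
  refine norm_add_le_of_le h.fd0 (le_trans this (le_of_eq (by ring)))

/-! ### Fourier coefficients -/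

/-- Fourier coefficient of a vector valued function -/
def FC {E : Type*} [NormedAddCommGroup E] [NormedSpace ℂ E] (f : ℝ → E) (m : ℤ) : E :=
  (((2 * Real.pi : ℝ) : ℂ))⁻¹ • ∫ θ in (0 : ℝ)..2 * Real.pi, Wi.ex (-m) θ • f θ

section fc
variable {E F : Type*} [NormedAddCommGroup E] [NormedSpace ℂ E] [NormedAddCommGroup F]
  [NormedSpace ℂ F]

lemma two_pi_ne : ((2 * Real.pi : ℝ) : ℂ) ≠ 0 := by
  exact_mod_cast (by positivity : (2 * Real.pi) ≠ 0)

lemma ii {f : ℝ → E} (hf : Continuous f) (m : ℤ) :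
    IntervalIntegrable (fun θ => Wi.ex (-m) θ • f θ) MeasureTheory.volume 0 (2 * Real.pi) :=
  ((Wi.continuous_ex _).smul hf).intervalIntegrable _ _

lemma FC_le {f : ℝ → E} {B : ℝ} (h : ∀ θ, ‖f θ‖ ≤ B) (m : ℤ) : ‖FC f m‖ ≤ B := by
  have h1 := intervalIntegral.norm_integral_le_of_norm_le_const (a := (0 : ℝ)) (b := 2 * Real.pi)
    (C := B) (f := fun θ => Wi.ex (-m) θ • f θ) fun θ _ => by
      rw [norm_smul, Wi.norm_ex, one_mul]; exact h θ
  have hp : 0 < 2 * Real.pi := by positivity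
  rw [sub_zero, abs_of_pos hp] at h1
  rw [FC, norm_smul, norm_inv, norm_real, Real.norm_of_nonneg hp.le, inv_mul_le_iff₀ hp]
  linarith


lemma FC_sub {f g : ℝ → E} (hf : Continuous f) (hg : Continuous g) (m : ℤ) :
    FC (fun θ => f θ - g θ) m = FC f m - FC g m := by
  simp only [FC, smul_sub]
  rw [intervalIntegral.integral_sub (ii hf m) (ii hg m), smul_sub]

lemma FC_clm [CompleteSpace E] [CompleteSpace F] (L : E →L[ℂ] F) {f : ℝ → E} (hf : Continuous f)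
    (m : ℤ) : FC (fun θ => L (f θ)) m = L (FC f m) := by
  simp only [FC, map_smul]
  rw [← L.intervalIntegral_comp_comm (ii hf m)]
  simp only [map_smul]

lemma FC_const [CompleteSpace E] (c : E) (m : ℤ) :
    FC (fun _ => c) m = if m = 0 then c else 0 := by
  rw [FC, intervalIntegral.integral_smul_const, Wi.integral_ex]
  by_cases h : m = 0
  · rw [if_pos (by simp [h]), if_pos h, smul_smul, inv_mul_cancel₀ two_pi_ne, one_smul]
  · rw [if_neg (by simpa using h), if_neg h, zero_smul, smul_zero]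


end fc

variable {ℓ : Ell}

lemma cont_val (u : Wi (om ℓ)) (s : II) : Continuous (val u s) :=
  (ContinuousMap.evalCLM ℂ s).continuous.comp (Wi.continuous_syn u)

lemma FC_val (u : Wi (om ℓ)) (s : II) (m : ℤ) : FC (val u s) m = Wi.co u m s := by
  have h := FC_clm (ContinuousMap.evalCLM ℂ s) (Wi.continuous_syn u) m
  rw [show FC (Wi.syn u) m = Wi.co u m by
    rw [FC, Wi.integral_syn, smul_smul, inv_mul_cancel₀ two_pi_ne, one_smul]] at h
  exact h

/-- averaging: the modes of `GF n (z0 + d θ)` -/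
lemma modes (h : Ce z0) (hn : ‖n‖ ≤ 1 / 800) {d : ℝ → Fin 6 → ℂ} (hd : Continuous d) {t : ℝ}
    (ht : t < 1 / 8) (hle : ∀ θ, ‖d θ‖ ≤ t) (m : ℤ) :
    ‖FC (fun θ => GF n (z0 + d θ)) m - (if m = 0 then GF n z0 else 0) -
      fderiv ℂ (GF n) z0 (FC d m)‖ ≤ 1792 * t ^ 2 := by
  have hm : ∀ θ, z0 + d θ ∈ ball z0 (1 / 8) := fun θ => by
    rw [mem_ball, dist_eq_norm, add_sub_cancel_left]; exact (hle θ).trans_lt ht
  have c1 : Continuous fun θ => GF n (z0 + d θ) :=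
    (h.diff le_rfl (by linarith)).continuousOn.comp_continuous (continuous_const.add hd) hm
  have c2 : Continuous fun θ => fderiv ℂ (GF n) z0 (d θ) := (fderiv ℂ (GF n) z0).continuous.comp hd
  have c3 : Continuous fun θ => GF n (z0 + d θ) - GF n z0 := c1.sub continuous_const
  rw [← FC_const, ← FC_clm _ hd, ← FC_sub c1 continuous_const, ← FC_sub c3 c2]
  refine FC_le (fun θ => ?_) m
  have := h.tay (n := n) (by linarith) (hm θ)
  rw [add_sub_cancel_left] at this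
  refine this.trans ?_
  have := hle θ
  gcongr

/-- normalised variables -/
def nv (x η a : ℂ) (u : Fin 6 → ℂ) : Fin 6 → ℂ :=
  ![u 0 / η, u 3 / η, u 5 / η, x * (a * x + u 1), u 4 / (x * η), a + u 2]

/-- their linear part -/
def nl (x η : ℂ) (u : Fin 6 → ℂ) : Fin 6 → ℂ :=
  ![u 0 / η, u 3 / η, u 5 / η, x * u 1, u 4 / (x * η), u 2]

lemma nv_add (x η a : ℂ) (u v : Fin 6 → ℂ) : nv x η a (u + v) = nv x η a u + nl x η v := by
  ext i; fin_cases i <;> simp [nv, nl] <;> ring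

/-- `nl` as a continuous linear map -/
def nlL (x η : ℂ) : (Fin 6 → ℂ) →L[ℂ] (Fin 6 → ℂ) :=
  LinearMap.toContinuousLinearMap
    { toFun := nl x η
      map_add' := fun u v => by ext i; fin_cases i <;> simp [nl] <;> ring
      map_smul' := fun c u => by ext i; fin_cases i <;> simp [nl] <;> ring }

lemma nlL_apply (x η : ℂ) (u : Fin 6 → ℂ) : nlL x η u = nl x η u := rfl

/-- the equation in the normalised variables -/
lemma eq_G {x : ℝ} {a : ℂ} {u : Fin 6 → ℂ} (hx : (x : ℂ) ≠ 0) (hη : et a x ≠ 0)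
    (hs : Sm (nv x (et a x) a u 0) (nv x (et a x) a u 1) (nv x (et a x) a u 2)
      (nv x (et a x) a u 3) (nv x (et a x) a u 5) (1 / (x ^ 2 * et a x))) :
    u 2 - x / 2 * u 1 + u 0 + 1 / (2 * et a x) * u 5 -
        Po.EL (x : ℂ) (et a x + u 0) (a * x + u 1) (u 3) (a + u 2) (u 4) (u 5) =
      GF (1 / (x ^ 2 * et a x)) (nv x (et a x) a u) := by
  have h1 := hs.unit1.ne_zero
  have h2 := hs.unit2.ne_zero
  simp only [nv, Matrix.cons_val] at h1 h2
  have hv : et a x + u 0 ≠ 0 := fun e => h1 (by field_simp; rw [e, mul_zero])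
  rw [Qm_C hx hη hv] at h2
  have hQ := (div_ne_zero_iff.1 h2).1
  have := G_C (vxx := a + u 2) (vxt := u 4) (vtt := u 5) hx hη hv hQ rfl rfl rfl rfl
  simp only [GF, nv, Matrix.cons_val]
  rw [this, Po.EL, Po.QQ]
  have e : et a x = 1 + a * (x ^ 2 - 2) / 2 := rfl
  linear_combination (-1 : ℂ) * e

lemma GF_g0 {x : ℝ} {a : ℂ} {u : Fin 6 → ℂ} (hx : (x : ℂ) ≠ 0) (hη : et a x ≠ 0)
    (hs : Sm (nv x (et a x) a u 0) (nv x (et a x) a u 1) (nv x (et a x) a u 2)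
      (nv x (et a x) a u 3) (nv x (et a x) a u 5) (1 / (x ^ 2 * et a x)))
    (h3 : u 3 = 0) (h4 : u 4 = 0) (h5 : u 5 = 0) :
    GF (1 / (x ^ 2 * et a x)) (nv x (et a x) a u) = g0 x a (u 0) (u 1) (u 2) := by
  rw [← eq_G hx hη hs, h3, h4, h5, Po.EL, Po.QQ, g0]
  have e : et a x = 1 + a * (x ^ 2 - 2) / 2 := rfl
  simp only [zero_div, zero_mul, mul_zero, add_zero, sub_zero, ne_eq, OfNat.ofNat_ne_zero,
    not_false_eq_true, zero_pow]
  generalize 2 * (et a x + u 0) + (a * x + u 1) ^ 2 = Q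
  linear_combination (-1 : ℂ) * e

/-- the linear part of the equation -/
def eqL (x η : ℂ) : (Fin 6 → ℂ) →L[ℂ] ℂ :=
  LinearMap.toContinuousLinearMap
    { toFun := fun u => u 2 - x / 2 * u 1 + u 0 + 1 / (2 * η) * u 5
      map_add' := fun u v => by simp only [Pi.add_apply]; ring
      map_smul' := fun c u => by simp only [Pi.smul_apply, smul_eq_mul, RingHom.id_apply]; ring }

lemma eqL_apply (x η : ℂ) (u : Fin 6 → ℂ) :
    eqL x η u = u 2 - x / 2 * u 1 + u 0 + 1 / (2 * η) * u 5 := rfl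

lemma co0_le {R X M : ℝ} {f0 f : ℝ → ℝ} {u : Wi (om ℓ)} (h : WB R X f0 f u M) (s : II)
    (p0 : 0 < f0 (xr R X s)) (p1 : 0 < f (xr R X s)) : ‖Wi.co u 0 s‖ ≤ M * f0 (xr R X s) := by
  obtain ⟨β, hs, hM, hb0, hb⟩ := h
  have hβ : ∀ m, 0 ≤ β m := fun m => by
    by_cases hm : m = 0
    · rw [hm]; exact nonneg_of_mul_nonneg_left ((norm_nonneg _).trans (hb0 s)) p0
    · exact nonneg_of_mul_nonneg_left (le_trans (by positivity) (hb m hm s)) p1
  exact (hb0 s).trans (mul_le_mul_of_nonneg_right ((hs.le_tsum 0 fun m _ => hβ m).trans hM) p0.le)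

end Ap

set_option maxHeartbeats 1000000 in
open Ap Nl in
theorem apS_holds : ApS := by
  refine ⟨300000, by norm_num, ?_⟩
  intro ℓ R K g g' c ε M X a D J hG hX hok hρ hM hS hB x hx
  obtain ⟨s, rfl⟩ := exists_xr hX hx
  simp only [mo, fx_xr hX]
  have P := hok.pt hx
  obtain ⟨ρ0, ρ1⟩ := hρ _ hx
  have hW := P.W_pos g g'
  have hW' := P.W_le' hG
  have hn0 := P.npos
  have hx0 := P.xpos
  have hre := P.re_le
  have hr0 := P.repos
  have hε := P.εpos
  have hε1 := P.small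
  have e0 : ∀ θ, ‖val (J 0) s θ - Wi.co (J 0) 0 s‖ ≤ _ := fun θ => Rg.val_sub_le hB.b0 s θ ρ0 hW
  have e1 : ∀ θ, ‖val (J 1) s θ - Wi.co (J 1) 0 s‖ ≤ _ := fun θ =>
    Rg.val_sub_le hB.b1 s θ (by positivity) (by positivity)
  have e2 : ∀ θ, ‖val (J 2) s θ - Wi.co (J 2) 0 s‖ ≤ _ := fun θ =>
    Rg.val_sub_le hB.b2 s θ one_pos (by positivity)
  have e3 : ∀ θ, ‖val (J 3) s θ - Wi.co (J 3) 0 s‖ ≤ _ := fun θ =>
    Rg.val_sub_le hB.b3 s θ one_pos hW
  have e4 : ∀ θ, ‖val (J 4) s θ - Wi.co (J 4) 0 s‖ ≤ _ := fun θ =>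
    Rg.val_sub_le hB.b4 s θ one_pos (by positivity)
  have e5 : ∀ θ, ‖val (J 5) s θ - Wi.co (J 5) 0 s‖ ≤ _ := fun θ =>
    Rg.val_sub_le hB.b5 s θ one_pos hW
  have f0 := co0_le hB.b0 s ρ0 hW
  have f1 := co0_le hB.b1 s (by positivity) (by positivity)
  have f2 := co0_le hB.b2 s one_pos (by positivity)
  have hM0 : 0 ≤ M := Rg.WB.nonneg hB.b0 s ρ0 hW
  have hq := hS.eq s
  have t0 := fun m => congrArg (fun f : CI => f s) (hS.jet.t0 m)
  have t1 := fun m => congrArg (fun f : CI => f s) (hS.jet.t1 m)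
  have t2 := fun m => congrArg (fun f : CI => f s) (hS.jet.t2 m)
  simp only [vj, gam_real, Matrix.cons_val] at hq
  simp only [ContinuousMap.smul_apply, smul_eq_mul] at t0 t1 t2
  have a9 := P.a_sq_le
  have a3 := P.a_le_three
  have x1 := P.x_le
  generalize xr R X s = x at *
  have hxc : (x : ℂ) ≠ 0 := by exact_mod_cast hx0.ne'
  have nx : ‖(x : ℂ)‖ = x := by rw [norm_real, Real.norm_of_nonneg hx0.le]
  set η := et a x with hη
  set u : ℝ → Fin 6 → ℂ := fun θ i => val (J i) s θ with hu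
  set cm : ℤ → Fin 6 → ℂ := fun m i => Wi.co (J i) m s with hcm
  have cu : Continuous u := continuous_pi fun i => cont_val _ _
  have Fu : ∀ m, FC u m = cm m := fun m => funext fun i => by
    have := FC_clm (ContinuousLinearMap.proj (R := ℂ) (φ := fun _ : Fin 6 => ℂ) i) cu m
    exact this.symm.trans (FC_val _ _ _)
  have c3 : cm 0 3 = 0 := by simpa using t0 0
  have c4 : cm 0 4 = 0 := by simpa using t1 0
  have c5 : cm 0 5 = 0 := by simpa using t2 0
  set κ := η.re / ‖η‖ with hκ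
  have κ1 : κ ≤ 1 := (div_le_one hn0).2 hre
  have κ0 : 0 < κ := div_pos hr0 hn0
  have hy : ‖nv x η a (cm 0) 0‖ ≤ M * κ := by
    simp only [nv, Matrix.cons_val, norm_div]
    rw [div_le_iff₀ hn0, hκ, mul_assoc, div_mul_cancel₀ _ hn0.ne']
    exact f0.trans (mul_le_mul_of_nonneg_left ρ1 hM0)
  have hn : ‖(1 / (x ^ 2 * η) : ℂ)‖ ≤ 3 * ε * κ := by
    have := P.inv_sq_norm_le
    have h2 := P.mu_mul
    have h3 := P.norm_le
    rw [norm_div, norm_one, norm_mul, norm_pow, nx, div_le_iff₀ (by positivity), hκ]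
    have e : 3 * ε * (η.re / ‖η‖) * (x ^ 2 * ‖η‖) = 3 * (ε * x ^ 2 * η.re) := by field_simp
    rw [e]; linarith
  have hn' : ‖(1 / (x ^ 2 * η) : ℂ)‖ ≤ 1 / 800 := by nlinarith
  have hce : Ce (nv x η a (cm 0)) := by
    refine ⟨by nlinarith, by simp [nv, c3], by simp [nv, c5], ?_, by simp [nv, c4], ?_⟩
    · simp only [nv, Matrix.cons_val, norm_mul, nx]
      have h1 := norm_add_le (a * x) (cm 0 1)
      rw [norm_mul, nx] at h1
      have h2 : x * ‖cm 0 1‖ ≤ M := by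
        have := mul_le_mul_of_nonneg_left f1 hx0.le
        rwa [mul_left_comm, mul_inv_cancel₀ hx0.ne', mul_one] at this
      nlinarith
    · simp only [nv, Matrix.cons_val]
      have h1 := norm_add_le a (cm 0 2)
      rw [mul_one] at f2
      linarith
  set t := W g g' a x / ‖η‖ with ht
  have t0' : 0 < t := by positivity
  have t30 : t ≤ 1 / 30 := by rw [ht, div_le_iff₀ hn0]; linarith
  have hd : ∀ θ, ‖nl x η (u θ - cm 0)‖ ≤ t := fun θ => by
    have k : M * t ≤ t := by nlinarith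
    refine (pi_norm_le_iff_of_nonneg t0'.le).2 fun i => le_trans ?_ k
    have kk : ∀ {z : ℂ}, ‖z‖ ≤ M * W g g' a x → ‖z / η‖ ≤ M * t := fun h => by
      rw [norm_div, ht, ← mul_div_assoc]; gcongr
    fin_cases i
    · exact kk (e0 θ)
    · exact kk (e3 θ)
    · exact kk (e5 θ)
    · show ‖(x : ℂ) * (val (J 1) s θ - Wi.co (J 1) 0 s)‖ ≤ _
      rw [norm_mul, nx]
      refine (mul_le_mul_of_nonneg_left (e1 θ) hx0.le).trans (le_of_eq ?_)
      rw [ht]; field_simp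
    · show ‖(val (J 4) s θ - Wi.co (J 4) 0 s) / (x * η)‖ ≤ _
      rw [norm_div, norm_mul, nx, div_le_iff₀ (by positivity)]
      refine (e4 θ).trans (le_of_eq ?_)
      rw [ht]; field_simp
    · exact e2 θ
  have cd : Continuous fun θ => nl x η (u θ - cm 0) :=
    (nlL x η).continuous.comp (cu.sub continuous_const)
  have hz : ∀ θ, nv x η a (cm 0) + nl x η (u θ - cm 0) = nv x η a (u θ) := fun θ => by
    rw [← nv_add, add_sub_cancel]
  have hb : ∀ θ, nv x η a (u θ) ∈ ball (nv x η a (cm 0)) (1 / 8) := fun θ => by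
    rw [← hz, mem_ball, dist_eq_norm, add_sub_cancel_left]; linarith [hd θ]
  have key := fun m => modes hce hn' cd (t := t) (by linarith) hd m
  have hE : (fun θ => GF (1 / (x ^ 2 * η)) (nv x η a (cm 0) + nl x η (u θ - cm 0))) =
      fun θ => eqL x η (u θ) := funext fun θ => by
    rw [hz, ← eq_G hxc P.ne (hce.sm le_rfl (hb θ) (by linarith)), eqL_apply]
    exact sub_eq_self.2 (hq θ)
  have hF : ∀ m, FC (fun θ => nl x η (u θ - cm 0)) m =
      nl x η (cm m - if m = 0 then cm 0 else 0) := fun m => by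
    have cs : Continuous fun θ => u θ - cm 0 := cu.sub continuous_const
    rw [← FC_const, ← Fu m, ← FC_sub cu continuous_const]
    exact FC_clm (nlL x η) cs m
  simp only [hE, hF, FC_clm _ cu, Fu] at key
  simp only [eqL_apply] at key
  have tt : 0 ≤ t ^ 2 := sq_nonneg _
  refine ⟨?_, fun m hm => ?_⟩
  · have k := key 0
    rw [if_pos rfl, if_pos rfl, sub_self, ← nlL_apply, map_zero, map_zero, sub_zero, c5, mul_zero,
      add_zero, GF_g0 hxc P.ne (hce.sm le_rfl (mem_ball_self (by norm_num)) (by linarith)) c3 c4 c5]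
      at k
    exact k.trans (by linarith)
  · have hm0 : m ≠ 0 := by rintro rfl; simp at hm
    have hmc : (m : ℂ) ^ 2 = 1 := by exact_mod_cast hm
    have hm1 : ‖(m : ℂ)‖ = 1 := by
      have := congrArg norm hmc
      rw [norm_pow, norm_one] at this
      exact (pow_eq_one_iff_of_nonneg (norm_nonneg _) two_ne_zero).1 this
    have k := key m
    rw [if_neg hm0, if_neg hm0, sub_zero, sub_zero] at k
    have e : cm m 2 - x / 2 * cm m 1 - Vm a m x * cm m 0 =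
        cm m 2 - x / 2 * cm m 1 + cm m 0 + 1 / (2 * η) * cm m 5 := by
      have : cm m 5 = -(m : ℂ) ^ 2 * cm m 0 := t2 m
      rw [this, Vm, ← hη]; ring
    set N := ‖cm m 0‖ / ‖η‖ + x * ‖cm m 1‖ + ‖cm m 2‖ with hN
    have p0 : 0 ≤ ‖cm m 0‖ / ‖η‖ := by positivity
    have p1 : 0 ≤ x * ‖cm m 1‖ := by positivity
    have p2 := norm_nonneg (cm m 2)
    have hl : ‖nl x η (cm m)‖ ≤ N := by
      refine (pi_norm_le_iff_of_nonneg (by positivity)).2 fun i => ?_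
      fin_cases i
      · show ‖cm m 0 / η‖ ≤ _
        rw [norm_div]; linarith
      · show ‖cm m 3 / η‖ ≤ _
        rw [show cm m 3 = m * I * cm m 0 from t0 m, norm_div, norm_mul, norm_mul, hm1, norm_I,
          one_mul, one_mul]; linarith
      · show ‖cm m 5 / η‖ ≤ _
        rw [show cm m 5 = -(m : ℂ) ^ 2 * cm m 0 from t2 m, hmc, norm_div, norm_mul, norm_neg,
          norm_one, one_mul]; linarith
      · show ‖(x : ℂ) * cm m 1‖ ≤ _
        rw [norm_mul, nx]; linarith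
      · show ‖cm m 4 / (x * η)‖ ≤ _
        rw [show cm m 4 = m * I * cm m 1 from t1 m, norm_div, norm_mul, norm_mul, hm1, norm_I,
          one_mul, one_mul, norm_mul, nx]
        have h1 := P.one_le_norm
        have : ‖cm m 1‖ / (x * ‖η‖) ≤ x * ‖cm m 1‖ := by
          rw [div_le_iff₀ (by positivity)]
          have h2 : ε * x ^ 2 * ‖η‖ ≤ 1 * x ^ 2 * ‖η‖ := by gcongr; linarith only [hε1]
          calc ‖cm m 1‖ = ‖cm m 1‖ * 1 := (mul_one _).symm
            _ ≤ ‖cm m 1‖ * (1 * x ^ 2 * ‖η‖) := by gcongr; exact h1.trans h2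
            _ = _ := by ring
        linarith only [this, p0, p2, hN]
      · show ‖cm m 2‖ ≤ _
        linarith
    have hL := (fderiv ℂ (GF (1 / (x ^ 2 * η))) (nv x η a (cm 0))).le_of_opNorm_le_of_le
      ((hce.fd hn').trans (show _ ≤ 300000 * ((M + ε) * κ) by
        linarith only [hy, hn, mul_pos hε κ0, mul_nonneg hM0 κ0.le])) hl
    have := norm_add_le_of_le k hL
    rw [sub_add_cancel, ← e] at this
    exact this.trans (by linarith only [tt])

end Crest.Agent.N250.B1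

end
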