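import Crest.Agent.N250.H.Fix

/-!
Row 250, helper75.  Scalar linear ODE `y' = A y + f` with complex coefficients: barrier lemmas,
Volterra operators on `C([0,1], ℂ)`, holomorphic dependence on `(A, f)`.
-/

set_option autoImplicit false
set_option linter.unusedSectionVars false

open Metric Set Filter Topology Complex MeasureTheory intervalIntegral

noncomputable section

namespace Crest.Agent.N250.B1

/-- forward barrier: `‖f‖ + re A · w ≤ w'` -/
theorem bar_fwd {a b : ℝ} {y A f : ℝ → ℂ} {w w' : ℝ → ℝ} (hA : ContinuousOn A (Icc a b))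
    (hy : ContinuousOn y (Icc a b))
    (hy' : ∀ t ∈ Ico a b, HasDerivWithinAt y (A t * y t + f t) (Ici t) t)
    (hw : ContinuousOn w (Icc a b)) (hw' : ∀ t ∈ Ico a b, HasDerivWithinAt w (w' t) (Ici t) t)
    (h0 : ‖y a‖ ≤ w a) (hb : ∀ t ∈ Ico a b, ‖f t‖ + (A t).re * w t ≤ w' t) :
    ∀ t ∈ Icc a b, ‖y t‖ ≤ w t := by
  intro t ht
  have hab : a ≤ b := ht.1.trans ht.2
  set B : ℝ → ℂ := fun s => A (projIcc a b hab s) with hB
  have Bc : Continuous B :=
    hA.comp_continuous (continuous_subtype_val.comp continuous_projIcc) (fun s => (projIcc a b hab s).2)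
  have Be : ∀ s ∈ Icc a b, B s = A s := fun s hs => by simp [hB, projIcc_of_mem hab hs]
  set E : ℝ → ℂ := fun s => ∫ u in a..s, B u with hE
  have Ed : ∀ s, HasDerivAt E (B s) s := fun s => (Bc.integral_hasStrictDerivAt a s).hasDerivAt
  have Ec : Continuous E := continuous_iff_continuousAt.2 fun s => (Ed s).continuousAt
  have Rd : ∀ s, HasDerivAt (fun s => (E s).re) (B s).re s := fun s =>
    Complex.reCLM.hasFDerivAt.comp_hasDerivAt s (Ed s)
  have key := image_norm_le_of_norm_deriv_right_le_deriv_boundary'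
    (f := fun s => y s * exp (-E s)) (f' := fun s => f s * exp (-E s)) (a := a) (b := b)
    (B := fun s => w s * Real.exp (-(E s).re))
    (B' := fun s => (w' s - (A s).re * w s) * Real.exp (-(E s).re))
    (hy.mul (by fun_prop)) (fun s hs => ?_) (by simpa [hE] using h0)
    (hw.mul (by fun_prop)) (fun s hs => ?_) (fun s hs => ?_) ht
  · rw [norm_mul, Complex.norm_exp, neg_re] at key
    exact le_of_mul_le_mul_right key (Real.exp_pos _)
  · have := (hy' s hs).mul ((Ed s).neg.cexp.hasDerivWithinAt (s := Ici s))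
    rw [Be s (Ico_subset_Icc_self hs)] at this
    refine this.congr_deriv ?_
    simp only [Pi.neg_apply]
    ring
  · have := (hw' s hs).mul ((Rd s).neg.exp.hasDerivWithinAt (s := Ici s))
    rw [Be s (Ico_subset_Icc_self hs)] at this
    refine this.congr_deriv ?_
    simp only [Pi.neg_apply]
    ring
  · rw [norm_mul, Complex.norm_exp, neg_re]
    gcongr
    linarith [hb s hs]

/-- backward barrier: `‖f‖ + w' ≤ re A · w` -/
theorem bar_bwd {a b : ℝ} {y A f : ℝ → ℂ} {w w' : ℝ → ℝ} (hA : ContinuousOn A (Icc a b))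
    (hy : ContinuousOn y (Icc a b))
    (hy' : ∀ t ∈ Ioc a b, HasDerivWithinAt y (A t * y t + f t) (Iic t) t)
    (hw : ContinuousOn w (Icc a b)) (hw' : ∀ t ∈ Ioc a b, HasDerivWithinAt w (w' t) (Iic t) t)
    (h0 : ‖y b‖ ≤ w b) (hb : ∀ t ∈ Ioc a b, ‖f t‖ + w' t ≤ (A t).re * w t) :
    ∀ t ∈ Icc a b, ‖y t‖ ≤ w t := by
  intro t ht
  have mp : MapsTo (fun s : ℝ => -s) (Icc (-b) (-a)) (Icc a b) := fun s hs =>
    ⟨by linarith [hs.2], by linarith [hs.1]⟩
  have mq : ∀ s ∈ Ico (-b) (-a), -s ∈ Ioc a b := fun s hs =>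
    ⟨by linarith [hs.2], by linarith [hs.1]⟩
  have mr : ∀ s : ℝ, MapsTo (fun s : ℝ => -s) (Ici s) (Iic (-s)) := fun s u hu =>
    neg_le_neg (mem_Ici.1 hu)
  have := bar_fwd (a := -b) (b := -a) (y := fun s => y (-s)) (A := fun s => -A (-s))
    (f := fun s => -f (-s)) (w := fun s => w (-s)) (w' := fun s => -w' (-s))
    (hA.comp continuous_neg.continuousOn mp).neg (hy.comp continuous_neg.continuousOn mp)
    (fun s hs => ?_) (hw.comp continuous_neg.continuousOn mp) (fun s hs => ?_)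
    (by simpa using h0) (fun s hs => ?_) (-t) ⟨by linarith [ht.2], by linarith [ht.1]⟩
  · simpa using this
  · have := (hy' _ (mq s hs)).scomp s (hasDerivAt_neg s).hasDerivWithinAt (mr s)
    refine this.congr_deriv ?_
    simp only [neg_smul, one_smul]
    ring
  · have := (hw' _ (mq s hs)).scomp s (hasDerivAt_neg s).hasDerivWithinAt (mr s)
    refine this.congr_deriv ?_
    simp
  · have := hb _ (mq s hs)
    simp only [norm_neg, neg_re]
    linarith

/-- continuous functions on `[0,1]` -/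
abbrev CI : Type := C(Icc (0 : ℝ) 1, ℂ)

/-- extension to `ℝ` -/
def ex (f : CI) (t : ℝ) : ℂ := f (projIcc 0 1 zero_le_one t)

lemma ex_cont (f : CI) : Continuous (ex f) := f.continuous.comp continuous_projIcc

@[simp] lemma ex_coe (f : CI) (s : Icc (0 : ℝ) 1) : ex f s = f s := by simp [ex]

lemma ex_mem (f : CI) {t : ℝ} (ht : t ∈ Icc (0 : ℝ) 1) : ex f t = f ⟨t, ht⟩ := ex_coe f ⟨t, ht⟩

@[simp] lemma ex_add (f g : CI) (t : ℝ) : ex (f + g) t = ex f t + ex g t := rfl
@[simp] lemma ex_sub (f g : CI) (t : ℝ) : ex (f - g) t = ex f t - ex g t := rfl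
@[simp] lemma ex_neg (f : CI) (t : ℝ) : ex (-f) t = -ex f t := rfl
@[simp] lemma ex_mul (f g : CI) (t : ℝ) : ex (f * g) t = ex f t * ex g t := rfl
@[simp] lemma ex_smul (c : ℂ) (f : CI) (t : ℝ) : ex (c • f) t = c * ex f t := rfl
@[simp] lemma ex_zero (t : ℝ) : ex 0 t = 0 := rfl
@[simp] lemma ex_one (t : ℝ) : ex 1 t = 1 := rfl

lemma ex_le (f : CI) (t : ℝ) : ‖ex f t‖ ≤ ‖f‖ := f.norm_coe_le_norm _

/-- end points -/
def i0 : Icc (0 : ℝ) 1 := ⟨0, left_mem_Icc.2 zero_le_one⟩
def i1 : Icc (0 : ℝ) 1 := ⟨1, right_mem_Icc.2 zero_le_one⟩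

lemma ex_0 (f : CI) : ex f 0 = f i0 := ex_coe f i0
lemma ex_1 (f : CI) : ex f 1 = f i1 := ex_coe f i1

lemma prim_der (f : CI) (t : ℝ) : HasDerivAt (fun s => ∫ u in (0 : ℝ)..s, ex f u) (ex f t) t :=
  ((ex_cont f).integral_hasStrictDerivAt 0 t).hasDerivAt

/-- the primitive vanishing at `0` -/
def pr : CI →L[ℂ] CI :=
  LinearMap.mkContinuous
    { toFun := fun f => ⟨fun s => ∫ u in (0 : ℝ)..s, ex f u,
        (continuous_iff_continuousAt.2 fun s => (prim_der f s).continuousAt).comp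
          continuous_subtype_val⟩
      map_add' := fun f g => by
        ext s
        simp only [ContinuousMap.coe_mk, ContinuousMap.add_apply, ex_add]
        exact integral_add ((ex_cont f).intervalIntegrable _ _) ((ex_cont g).intervalIntegrable _ _)
      map_smul' := fun c f => by
        ext s
        simp only [ContinuousMap.coe_mk, ContinuousMap.smul_apply, ex_smul, RingHom.id_apply,
          smul_eq_mul]
        exact intervalIntegral.integral_const_mul _ _ } 1 (fun f => by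
      rw [one_mul]
      refine (ContinuousMap.norm_le _ (norm_nonneg f)).2 (fun s => ?_)
      refine (norm_integral_le_of_norm_le_const (C := ‖f‖) (fun u _ => ex_le f u)).trans ?_
      rw [sub_zero, abs_of_nonneg s.2.1]
      have := s.2.2
      have := norm_nonneg f
      nlinarith)

lemma pr_apply (f : CI) (s : Icc (0 : ℝ) 1) : pr f s = ∫ u in (0 : ℝ)..s, ex f u := rfl


@[simp] lemma pr_i0 (f : CI) : pr f i0 = 0 := by simp [pr_apply, i0]

/-- constants -/
def cst : ℂ →L[ℂ] CI := ContinuousLinearMap.toSpanSingleton ℂ (1 : CI)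

@[simp] lemma cst_apply (c : ℂ) (s : Icc (0 : ℝ) 1) : cst c s = c := by
  simp [cst, ContinuousLinearMap.toSpanSingleton_apply]

@[simp] lemma ex_cst (c : ℂ) (t : ℝ) : ex (cst c) t = c := cst_apply c _

/-- `y'` is the derivative of `y` -/
def Der (y y' : CI) : Prop := y = cst (y i0) + pr y'

lemma Der.hasD {y y' : CI} (h : Der y y') {t : ℝ} (ht : t ∈ Icc (0 : ℝ) 1) :
    HasDerivWithinAt (ex y) (ex y' t) (Icc 0 1) t := by
  have h1 := ((prim_der y' t).const_add (y i0)).hasDerivWithinAt (s := Icc 0 1)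
  refine h1.congr (fun s hs => ?_) ?_
  · rw [ex_mem y hs]; nth_rewrite 1 [h]; simp [pr_apply]
  · rw [ex_mem y ht]; nth_rewrite 1 [h]; simp [pr_apply]

lemma Der.right {y y' : CI} (h : Der y y') {t : ℝ} (ht : t ∈ Ico (0 : ℝ) 1) :
    HasDerivWithinAt (ex y) (ex y' t) (Ici t) t :=
  (h.hasD (Ico_subset_Icc_self ht)).mono_of_mem_nhdsWithin (Icc_mem_nhdsGE_of_mem ht)

lemma Der.left {y y' : CI} (h : Der y y') {t : ℝ} (ht : t ∈ Ioc (0 : ℝ) 1) :
    HasDerivWithinAt (ex y) (ex y' t) (Iic t) t :=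
  (h.hasD (Ioc_subset_Icc_self ht)).mono_of_mem_nhdsWithin (Icc_mem_nhdsLE_of_mem ht)

lemma Der.at {y y' : CI} (h : Der y y') {t : ℝ} (ht : t ∈ Ioo (0 : ℝ) 1) :
    HasDerivAt (ex y) (ex y' t) t :=
  (h.hasD (Ioo_subset_Icc_self ht)).hasDerivAt (Icc_mem_nhds ht.1 ht.2)

lemma der_of_right {y y' : CI}
    (h : ∀ t ∈ Ioo (0 : ℝ) 1, HasDerivWithinAt (ex y) (ex y' t) (Ioi t) t) : Der y y' := by
  ext s
  have := integral_eq_sub_of_hasDeriv_right_of_le (f := ex y) (f' := ex y') s.2.1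
    (ex_cont y).continuousOn (fun t ht => h t ⟨ht.1, ht.2.trans_le s.2.2⟩)
    ((ex_cont y').intervalIntegrable _ _)
  simp only [ContinuousMap.add_apply, cst_apply, pr_apply, this, ex_coe, ex_0]
  ring

/-- any function on `ℝ` with the right values and derivative -/
lemma der_of_fun {y y' : CI} {g : ℝ → ℂ} (hg : ∀ s : Icc (0 : ℝ) 1, y s = g s)
    (h : ∀ s : Icc (0 : ℝ) 1, (s : ℝ) ∈ Ioo (0 : ℝ) 1 → HasDerivAt g (y' s) s) : Der y y' := by
  refine der_of_right (fun t ht => ?_)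
  have h1 := h ⟨t, Ioo_subset_Icc_self ht⟩ ht
  rw [ex_mem y' (Ioo_subset_Icc_self ht)]
  refine (h1.congr_of_eventuallyEq ?_).hasDerivWithinAt
  filter_upwards [Icc_mem_nhds ht.1 ht.2] with u hu
  rw [ex_mem y hu, hg]

lemma der_of_at {y y' : CI} (h : ∀ t ∈ Ioo (0 : ℝ) 1, HasDerivAt (ex y) (ex y' t) t) : Der y y' :=
  der_of_right fun t ht => (h t ht).hasDerivWithinAt


lemma der_cst (c : ℂ) : Der (cst c) 0 := by simp [Der]

lemma Der.add {y y' z z' : CI} (h : Der y y') (k : Der z z') : Der (y + z) (y' + z') :=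
  der_of_at fun _ ht => (h.at ht).add (k.at ht)

lemma Der.sub {y y' z z' : CI} (h : Der y y') (k : Der z z') : Der (y - z) (y' - z') :=
  der_of_at fun _ ht => (h.at ht).sub (k.at ht)

lemma Der.neg {y y' : CI} (h : Der y y') : Der (-y) (-y') :=
  der_of_at fun _ ht => (h.at ht).neg

lemma Der.mul {y y' z z' : CI} (h : Der y y') (k : Der z z') : Der (y * z) (y' * z + y * z') :=
  der_of_at fun _ ht => (h.at ht).mul (k.at ht)

lemma Der.smul {y y' : CI} (h : Der y y') (c : ℂ) : Der (c • y) (c • y') :=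
  der_of_at fun _ ht => (h.at ht).const_mul c

lemma Der.congr {y y' z' : CI} (h : Der y y') (e : y' = z') : Der y z' := e ▸ h


/-- pointwise composition with an entire function -/
def ce (g : CI) : CI := ⟨fun s => exp (g s), by fun_prop⟩

@[simp] lemma ce_apply (g : CI) (s : Icc (0 : ℝ) 1) : ce g s = exp (g s) := rfl
@[simp] lemma ex_ce (g : CI) (t : ℝ) : ex (ce g) t = exp (ex g t) := rfl


lemma Der.ce {y y' : CI} (h : Der y y') : Der (ce y) (ce y * y') :=
  der_of_at fun _ ht => (h.at ht).cexp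


/-- homogeneous solution with value `1` at `0` -/
def hom0 (A : CI) : CI := ce (pr A)
/-- homogeneous solution with value `1` at `1` -/
def hom1 (A : CI) : CI := ce (pr A - cst (pr A i1))

/-- forward solution of `y' = A y + f`, `y 0 = 0` -/
def fw (A : CI) : CI →L[ℂ] CI :=
  (ContinuousLinearMap.mul ℂ CI (ce (pr A))).comp
    (pr.comp (ContinuousLinearMap.mul ℂ CI (ce (-pr A))))

/-- backward solution of `y' = A y + f`, `y 1 = 0` -/
def bw (A : CI) : CI →L[ℂ] CI :=
  (ContinuousLinearMap.mul ℂ CI (ce (pr A))).comp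
    ((pr - cst.comp ((ContinuousMap.evalCLM ℂ i1).comp pr)).comp
      (ContinuousLinearMap.mul ℂ CI (ce (-pr A))))

lemma fw_apply (A f : CI) : fw A f = ce (pr A) * pr (ce (-pr A) * f) := rfl

lemma bw_apply (A f : CI) :
    bw A f = ce (pr A) * (pr (ce (-pr A) * f) - cst (pr (ce (-pr A) * f) i1)) := rfl

@[simp] lemma hom0_i0 (A : CI) : hom0 A i0 = 1 := by simp [hom0]
@[simp] lemma hom1_i1 (A : CI) : hom1 A i1 = 1 := by simp [hom1]
@[simp] lemma fw_i0 (A f : CI) : fw A f i0 = 0 := by simp [fw_apply]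
@[simp] lemma bw_i1 (A f : CI) : bw A f i1 = 0 := by simp [bw_apply]














end Crest.Agent.N250.B1
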