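import Crest.Agent.N250.B1.Lin3

/-!
# Row 250, block B1 (helper64): the path `γ_X`, the real point `xr`, its inverse `sx`,
the change of speed `kap` between two cuts
-/

set_option autoImplicit false
open Set Complex Filter Topology

noncomputable section

namespace Crest.Agent.N250.B1

/-! ### `cub` -/

theorem cub_nonneg (s : ℝ) : 0 ≤ cub s := le_max_right _ _

theorem cub_le_one {s : ℝ} (hs : s ≤ 1) : cub s ≤ 1 := max_le (by linarith) zero_le_one

theorem cub_of_le {s : ℝ} (hs : s ≤ 1 / 2) : cub s = 0 := max_eq_right (by linarith)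

theorem cub_of_ge {s : ℝ} (hs : 1 / 2 ≤ s) : cub s = 2 * s - 1 := max_eq_left (by linarith)

theorem cub_zero : cub 0 = 0 := cub_of_le (by norm_num)

theorem cub_one : cub 1 = 1 := by rw [cub_of_ge (by norm_num)]; norm_num


theorem cub_pow_le_one (s : II) (n : ℕ) : cub s ^ n ≤ 1 :=
  pow_le_one₀ (cub_nonneg _) (cub_le_one s.2.2)

theorem hasDerivAt_cub_pow (n : ℕ) (s : ℝ) :
    HasDerivAt (fun s => cub s ^ (n + 2)) (2 * (n + 2) * cub s ^ (n + 1)) s := by
  have hR : ∀ t : ℝ, HasDerivAt (fun s : ℝ => (2 * s - 1) ^ (n + 2))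
      (2 * (n + 2) * (2 * t - 1) ^ (n + 1)) t := fun t => by
    have h := (((hasDerivAt_id' t).const_mul 2).sub_const 1).fun_pow (n + 2)
    refine h.congr_deriv ?_
    simp only [Nat.add_succ_sub_one]
    push_cast; ring
  rcases lt_trichotomy s (1 / 2) with h | h | h
  · have e : 2 * ((n : ℝ) + 2) * cub s ^ (n + 1) = 0 := by rw [cub_of_le h.le]; simp
    rw [e]
    refine (hasDerivAt_const s (0 : ℝ)).congr_of_eventuallyEq ?_
    filter_upwards [Iio_mem_nhds h] with t ht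
    rw [cub_of_le (le_of_lt ht)]; simp
  · subst h
    have e : 2 * ((n : ℝ) + 2) * cub (1 / 2) ^ (n + 1) = 0 := by rw [cub_of_le le_rfl]; simp
    rw [e, ← hasDerivWithinAt_univ, ← Iic_union_Ici (a := (1 / 2 : ℝ))]
    refine HasDerivWithinAt.union ?_ ?_
    · refine (hasDerivAt_const _ (0 : ℝ)).hasDerivWithinAt.congr (fun t ht => ?_) ?_
      · rw [cub_of_le ht]; simp
      · rw [cub_of_le le_rfl]; simp
    · have h1 := (hR (1 / 2)).hasDerivWithinAt (s := Ici (1 / 2))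
      have e1 : 2 * ((n : ℝ) + 2) * (2 * (1 / 2 : ℝ) - 1) ^ (n + 1) = 0 := by norm_num
      rw [e1] at h1
      exact h1.congr (fun t ht => by rw [cub_of_ge ht]) (by rw [cub_of_ge le_rfl])
  · rw [cub_of_ge h.le]
    refine (hR s).congr_of_eventuallyEq ?_
    filter_upwards [Ioi_mem_nhds h] with t ht
    rw [cub_of_ge (le_of_lt ht)]

theorem hasDerivAt_cub3 (s : ℝ) : HasDerivAt (fun s => cub s ^ 3) (6 * cub s ^ 2) s :=
  (hasDerivAt_cub_pow 1 s).congr_deriv (by norm_num)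

theorem hasDerivAt_cub2 (s : ℝ) : HasDerivAt (fun s => cub s ^ 2) (4 * cub s) s :=
  (hasDerivAt_cub_pow 0 s).congr_deriv (by norm_num)

/-- `cub` as an element of `CI` -/
def cu : CI := ⟨fun s => ((cub s : ℝ) : ℂ), by have := continuous_cub; fun_prop⟩

@[simp] theorem cu_apply (s : II) : cu s = ((cub s : ℝ) : ℂ) := rfl



theorem der_cu2 : Der (cu ^ 2) ((4 : ℂ) • cu) :=
  der_of_fun (g := fun s => ((cub s ^ 2 : ℝ) : ℂ)) (fun s => by simp) fun s _ =>
    (hasDerivAt_cub2 s).ofReal_comp.congr_deriv (by simp)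

/-! ### the path -/

variable {R X0 : ℝ} {X : ℂ}

theorem gam_apply (R : ℝ) (X : ℂ) (s : II) :
    gam R X s = R + 2 * ((s : ℝ) : ℂ) + (X - R - 2) * ((cub s : ℝ) : ℂ) ^ 3 := rfl

theorem dgam_apply (R : ℝ) (X : ℂ) (s : II) :
    dgam R X s = 2 + 6 * (X - R - 2) * ((cub s : ℝ) : ℂ) ^ 2 := rfl

@[simp] theorem gam_i0 (R : ℝ) (X : ℂ) : gam R X i0 = R := by simp [gam_apply, i0, cub_zero]

@[simp] theorem gam_i1 (R : ℝ) (X : ℂ) : gam R X i1 = X := by
  simp only [gam_apply, i1, cub_one]; push_cast; ring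

theorem gam_strip (R : ℝ) (X : ℂ) {s : II} (hs : (s : ℝ) ≤ 1 / 2) :
    gam R X s = R + 2 * ((s : ℝ) : ℂ) := by simp [gam_apply, cub_of_le hs]


theorem gam_eq (R : ℝ) (X Y : ℂ) : gam R X = gam R Y + (X - Y) • cu ^ 3 := by
  ext s; simp only [gam_apply, ContinuousMap.add_apply, ContinuousMap.smul_apply,
    ContinuousMap.pow_apply, cu_apply, smul_eq_mul]; ring

theorem dgam_eq (R : ℝ) (X Y : ℂ) : dgam R X = dgam R Y + (X - Y) • (6 : ℂ) • cu ^ 2 := by
  ext s; simp only [dgam_apply, ContinuousMap.add_apply, ContinuousMap.smul_apply,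
    ContinuousMap.pow_apply, cu_apply, smul_eq_mul]; ring

theorem hasDerivAt_gam (R : ℝ) (X : ℂ) : HasDerivAt (gam R) (cu ^ 3) X := by
  have h := (((hasDerivAt_id' X).sub_const 0).smul_const (cu ^ 3)).const_add (gam R 0)
  rw [one_smul] at h
  exact h.congr_of_eventuallyEq (Eventually.of_forall fun Y => gam_eq R Y 0)

theorem hasDerivAt_dgam (R : ℝ) (X : ℂ) : HasDerivAt (dgam R) ((6 : ℂ) • cu ^ 2) X := by
  have h := (((hasDerivAt_id' X).sub_const 0).smul_const ((6 : ℂ) • cu ^ 2)).const_add (dgam R 0)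
  rw [one_smul] at h
  exact h.congr_of_eventuallyEq (Eventually.of_forall fun Y => dgam_eq R Y 0)



theorem der_gam (R : ℝ) (X : ℂ) : Der (gam R X) (dgam R X) :=
  der_of_fun (g := fun s => R + 2 * (s : ℂ) + (X - R - 2) * ((cub s ^ 3 : ℝ) : ℂ))
    (fun s => by simp [gam_apply]) fun s _ => by
      have h := (((hasDerivAt_id' (s : ℝ)).ofReal_comp.const_mul 2).const_add (R : ℂ)).fun_add
        ((hasDerivAt_cub3 s).ofReal_comp.const_mul (X - R - 2))
      refine h.congr_deriv ?_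
      rw [dgam_apply]; push_cast; ring


/-! ### the real point -/

theorem gam_real (R X : ℝ) (s : II) : gam R X s = (xr R X s : ℝ) := by
  rw [gam_apply, xr]; push_cast; ring

theorem dgam_real (R X : ℝ) (s : II) : dgam R X s = (dxr R X s : ℝ) := by
  rw [dgam_apply, dxr]; push_cast; ring

theorem gam_sub_xr (R : ℝ) (X : ℂ) (s : II) :
    gam R X s = (xr R X.re s : ℝ) + ((X.im * cub s ^ 3 : ℝ) : ℂ) * I := by
  rw [← gam_real, gam_apply, gam_apply]
  conv_lhs => rw [← re_add_im X]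
  push_cast; ring

theorem dgam_sub_dxr (R : ℝ) (X : ℂ) (s : II) :
    dgam R X s = (dxr R X.re s : ℝ) + ((6 * X.im * cub s ^ 2 : ℝ) : ℂ) * I := by
  rw [← dgam_real, dgam_apply, dgam_apply]
  conv_lhs => rw [← re_add_im X]
  push_cast; ring

theorem gam_re (R : ℝ) (X : ℂ) (s : II) : (gam R X s).re = xr R X.re s := by
  rw [gam_sub_xr, add_re, ofReal_re, re_ofReal_mul, I_re, mul_zero, add_zero]

theorem gam_im (R : ℝ) (X : ℂ) (s : II) : (gam R X s).im = X.im * cub s ^ 3 := by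
  rw [gam_sub_xr, add_im, ofReal_im, im_ofReal_mul, I_im, mul_one, zero_add]

theorem dgam_re (R : ℝ) (X : ℂ) (s : II) : (dgam R X s).re = dxr R X.re s := by
  rw [dgam_sub_dxr, add_re, ofReal_re, re_ofReal_mul, I_re, mul_zero, add_zero]



theorem continuous_xr (R X : ℝ) : Continuous (xr R X) := by
  have := continuous_cub; unfold xr; fun_prop

theorem continuous_dxr (R X : ℝ) : Continuous (dxr R X) := by
  have := continuous_cub; unfold dxr; fun_prop

theorem hasDerivAt_xr (R X s : ℝ) : HasDerivAt (xr R X) (dxr R X s) s := by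
  have h := (((hasDerivAt_id' s).const_mul 2).const_add R).fun_add
    ((hasDerivAt_cub3 s).const_mul (X - R - 2))
  refine HasDerivAt.congr_deriv h ?_
  rw [dxr]; ring

theorem hasDerivAt_dxr (R X s : ℝ) : HasDerivAt (dxr R X) (24 * (X - R - 2) * cub s) s := by
  have h := ((hasDerivAt_cub2 s).const_mul (6 * (X - R - 2))).const_add 2
  exact HasDerivAt.congr_deriv h (by ring)

theorem xr_zero (R X : ℝ) : xr R X 0 = R := by simp [xr, cub_zero]

theorem xr_one (R X : ℝ) : xr R X 1 = X := by rw [xr, cub_one]; ring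

theorem xr_i0 (R X : ℝ) : xr R X i0 = R := xr_zero R X

theorem xr_i1 (R X : ℝ) : xr R X i1 = X := xr_one R X

theorem xr_strip (R X : ℝ) {s : ℝ} (hs : s ≤ 1 / 2) : xr R X s = R + 2 * s := by
  simp [xr, cub_of_le hs]

theorem two_le_dxr (h : R + 2 ≤ X0) (s : ℝ) : 2 ≤ dxr R X0 s := by
  have : 0 ≤ 6 * (X0 - R - 2) * cub s ^ 2 := mul_nonneg (by linarith) (sq_nonneg _)
  unfold dxr; linarith

theorem dxr_pos (h : R + 2 ≤ X0) (s : ℝ) : 0 < dxr R X0 s := two_pos.trans_le (two_le_dxr h s)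

theorem le_xr (h : R + 2 ≤ X0) (s : ℝ) : R + 2 * s ≤ xr R X0 s := by
  have : 0 ≤ (X0 - R - 2) * cub s ^ 3 := mul_nonneg (by linarith) (pow_nonneg (cub_nonneg _) _)
  unfold xr; linarith

theorem two_le_norm_dgam (h : R + 2 ≤ X.re) (s : II) : 2 ≤ ‖dgam R X s‖ :=
  (two_le_dxr h s).trans (dgam_re R X s ▸ re_le_norm _)

theorem dgam_ne (h : R + 2 ≤ X.re) (s : II) : dgam R X s ≠ 0 :=
  norm_pos_iff.1 (two_pos.trans_le (two_le_norm_dgam h s))

theorem strictMono_xr (h : R + 2 ≤ X0) : StrictMono (xr R X0) :=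
  strictMono_of_hasDerivAt_pos (hasDerivAt_xr R X0) (dxr_pos h)

theorem xr_mem (h : R + 2 ≤ X0) {s : ℝ} (hs : s ∈ Icc (0 : ℝ) 1) : xr R X0 s ∈ Icc R X0 :=
  ⟨(xr_zero R X0).symm.trans_le ((strictMono_xr h).monotone hs.1), by
    have := (strictMono_xr h).monotone hs.2
    rwa [xr_one] at this⟩

theorem xr_mem' (h : R + 2 ≤ X0) (s : II) : xr R X0 s ∈ Icc R X0 := xr_mem h s.2

/-- the smoothing profile only depends on the real point -/
theorem sig_xr' (h : R + 2 ≤ X0) (s : ℝ) : sig (xr R X0 s - R) = sig (2 * s) := by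
  rcases le_total s (1 / 2) with hs | hs
  · rw [xr_strip R X0 hs, add_sub_cancel_left]
  · have := le_xr h s
    unfold sig
    rw [max_eq_right (by linarith), max_eq_right (by linarith)]

theorem surjective_xr (h : R + 2 ≤ X0) : Function.Surjective (xr R X0) := by
  refine (continuous_xr R X0).surjective ?_ ?_
  · exact tendsto_atTop_mono (le_xr h)
      (tendsto_atTop_add_const_left _ _ (tendsto_id.const_mul_atTop two_pos))
  · refine (tendsto_atBot_add_const_left atBot R (tendsto_id.const_mul_atBot two_pos)).congr' ?_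
    filter_upwards [Iic_mem_atBot (1 / 2 : ℝ)] with s hs
    rw [xr_strip R X0 hs]; rfl

/-- the inverse of `xr` -/
def sx (R X : ℝ) : ℝ → ℝ := Function.invFun (xr R X)

theorem xr_sx (h : R + 2 ≤ X0) (x : ℝ) : xr R X0 (sx R X0 x) = x :=
  Function.rightInverse_invFun (surjective_xr h) x

theorem sx_xr (h : R + 2 ≤ X0) (s : ℝ) : sx R X0 (xr R X0 s) = s :=
  Function.leftInverse_invFun (strictMono_xr h).injective s

theorem strictMono_sx (h : R + 2 ≤ X0) : StrictMono (sx R X0) := fun x y hxy =>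
  (strictMono_xr h).lt_iff_lt.1 (by rwa [xr_sx h, xr_sx h])

theorem continuous_sx (h : R + 2 ≤ X0) : Continuous (sx R X0) :=
  (strictMono_sx h).monotone.continuous_of_surjective fun s => ⟨_, sx_xr h s⟩

theorem sx_left (h : R + 2 ≤ X0) : sx R X0 R = 0 := by
  have := sx_xr h 0
  rwa [xr_zero] at this

theorem sx_right (h : R + 2 ≤ X0) : sx R X0 X0 = 1 := by
  have := sx_xr h 1
  rwa [xr_one] at this

theorem sx_mem (h : R + 2 ≤ X0) {x : ℝ} (hx : x ∈ Icc R X0) : sx R X0 x ∈ Icc (0 : ℝ) 1 :=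
  ⟨sx_left h ▸ (strictMono_sx h).monotone hx.1, sx_right h ▸ (strictMono_sx h).monotone hx.2⟩

theorem sx_strip (h : R + 2 ≤ X0) {x : ℝ} (hx : x ≤ R + 1) : sx R X0 x = (x - R) / 2 := by
  have := sx_xr h ((x - R) / 2)
  rw [xr_strip R X0 (by linarith)] at this
  rw [← this]; congr 1; ring

theorem image_xr (h : R + 2 ≤ X0) : xr R X0 '' Icc 0 1 = Icc R X0 :=
  Subset.antisymm (by rintro _ ⟨s, hs, rfl⟩; exact xr_mem h hs) fun x hx =>
    ⟨_, sx_mem h hx, xr_sx h x⟩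

theorem exists_xr (h : R + 2 ≤ X0) {x : ℝ} (hx : x ∈ Icc R X0) : ∃ s : II, xr R X0 s = x :=
  ⟨⟨_, sx_mem h hx⟩, xr_sx h x⟩

theorem hasDerivAt_sx (h : R + 2 ≤ X0) (x : ℝ) :
    HasDerivAt (sx R X0) (dxr R X0 (sx R X0 x))⁻¹ x :=
  HasDerivAt.of_local_left_inverse (continuous_sx h).continuousAt (hasDerivAt_xr R X0 _)
    (dxr_pos h _).ne' (Eventually.of_forall (xr_sx h))

/-! ### transfer between `[0, 1]` and `[R, X]` -/

/-- an element of `CI` as a function of `x` -/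
def fx (R X : ℝ) (y : CI) (x : ℝ) : ℂ := ex y (sx R X x)

theorem fx_xr (h : R + 2 ≤ X0) (y : CI) (s : II) : fx R X0 y (xr R X0 s) = y s := by
  rw [fx, sx_xr h, ex_coe]


theorem fx_right (h : R + 2 ≤ X0) (y : CI) : fx R X0 y X0 = y i1 := by rw [fx, sx_right h, ex_1]


theorem fx_gam (h : R + 2 ≤ X0) {x : ℝ} (hx : x ∈ Icc R X0) : fx R X0 (gam R X0) x = x := by
  obtain ⟨s, rfl⟩ := exists_xr h hx
  rw [fx_xr h, gam_real]

theorem Der.dv (h : R + 2 ≤ X0) {y y1 : CI} (hy : Der y (dgam R X0 * y1)) :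
    Dv R X0 (fx R X0 y) (fx R X0 y1) := fun x hx => by
  have h1 := (hy.hasD (sx_mem h hx)).scomp x (hasDerivAt_sx h x).hasDerivWithinAt
    (fun _ hx => sx_mem h hx : MapsTo (sx R X0) (Icc R X0) (Icc 0 1))
  refine HasDerivWithinAt.congr_deriv h1 ?_
  have hp : ((dxr R X0 (sx R X0 x) : ℝ) : ℂ) ≠ 0 := ofReal_ne_zero.2 (dxr_pos h _).ne'
  rw [ex_mul, ex_mem (dgam R X0) (sx_mem h hx), dgam_real, real_smul, fx]
  push_cast
  field_simp

/-- a function of `x` as an element of `CI` -/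
def cx (h : R + 2 ≤ X0) (f : ℝ → ℂ) (hf : ContinuousOn f (Icc R X0)) : CI :=
  ⟨fun s => f (xr R X0 s), hf.comp_continuous ((continuous_xr R X0).comp continuous_subtype_val)
    (xr_mem' h)⟩

@[simp] theorem cx_apply (h : R + 2 ≤ X0) (f : ℝ → ℂ) (hf : ContinuousOn f (Icc R X0)) (s : II) :
    cx h f hf s = f (xr R X0 s) := rfl


theorem der_of_dv (h : R + 2 ≤ X0) {y y1 : CI} {f f1 : ℝ → ℂ} (hd : Dv R X0 f f1)
    (hy : ∀ s : II, y s = f (xr R X0 s)) (hy1 : ∀ s : II, y1 s = f1 (xr R X0 s)) :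
    Der y (dgam R X0 * y1) :=
  der_of_fun (g := fun s => f (xr R X0 s)) hy fun s hs => by
    have h0 := (strictMono_xr h) hs.1
    have h1 := (strictMono_xr h) hs.2
    rw [xr_zero] at h0
    rw [xr_one] at h1
    have h2 := ((hd _ (xr_mem' h s)).hasDerivAt (Icc_mem_nhds h0 h1)).scomp (s : ℝ)
      (hasDerivAt_xr R X0 s)
    refine HasDerivAt.congr_deriv h2 ?_
    rw [ContinuousMap.mul_apply, dgam_real, hy1, real_smul]

theorem Dv.der (h : R + 2 ≤ X0) {f f1 : ℝ → ℂ} (hd : Dv R X0 f f1)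
    (h1 : ContinuousOn f1 (Icc R X0)) : Der (cx h f hd.cont) (dgam R X0 * cx h f1 h1) :=
  der_of_dv h hd (fun _ => rfl) fun _ => rfl

/-! ### the change of speed -/

/-- `1 / γ'_{X₀}` for a real cut -/
def idg (R X0 : ℝ) : CI :=
  ⟨fun s => ((dxr R (max X0 (R + 2)) s : ℝ) : ℂ)⁻¹,
    (continuous_ofReal.comp ((continuous_dxr _ _).comp continuous_subtype_val)).inv₀ fun _ =>
      ofReal_ne_zero.2 (dxr_pos (le_max_right _ _) _).ne'⟩

theorem idg_apply (h : R + 2 ≤ X0) (s : II) : idg R X0 s = ((dxr R X0 s : ℝ) : ℂ)⁻¹ := by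
  simp only [idg, ContinuousMap.coe_mk, max_eq_left h]

theorem dgam_mul_idg (h : R + 2 ≤ X0) : dgam R X0 * idg R X0 = 1 := by
  ext s
  rw [ContinuousMap.mul_apply, idg_apply h, dgam_real, ContinuousMap.one_apply]
  exact mul_inv_cancel₀ (ofReal_ne_zero.2 (dxr_pos h _).ne')

theorem norm_idg_apply (h : R + 2 ≤ X0) (s : II) : ‖idg R X0 s‖ = (dxr R X0 s)⁻¹ := by
  rw [idg_apply h, norm_inv, norm_real, Real.norm_of_nonneg (dxr_pos h _).le]


/-- `κ` for a unit change of the cut -/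
def kap1 (R X0 : ℝ) : CI := (6 : ℂ) • cu ^ 2 * idg R X0

/-- its `x`-derivative -/
def kapx1 (R X0 : ℝ) : CI := (48 : ℂ) • cu * idg R X0 ^ 3

/-- `γ'_X = γ'_{X₀} (1 + κ)` -/
def kap (R X0 : ℝ) (X : ℂ) : CI := (X - X0) • kap1 R X0

/-- `κ_x = κ' / γ'_{X₀}` -/
def kapx (R X0 : ℝ) (X : ℂ) : CI := (X - X0) • kapx1 R X0

theorem dgam_eq_kap (h : R + 2 ≤ X0) (X : ℂ) : dgam R X = dgam R X0 * (1 + kap R X0 X) := by
  rw [dgam_eq R X X0, kap, kap1, mul_add, mul_one, mul_smul_comm, mul_left_comm, dgam_mul_idg h,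
    mul_one]

theorem der_idg (h : R + 2 ≤ X0) :
    Der (idg R X0) (-((24 * ((X0 : ℂ) - R - 2)) • cu * idg R X0 ^ 2)) :=
  der_of_fun (g := fun s => ((dxr R X0 s : ℝ) : ℂ)⁻¹) (idg_apply h) fun s _ => by
    have hp : ((dxr R X0 s : ℝ) : ℂ) ≠ 0 := ofReal_ne_zero.2 (dxr_pos h _).ne'
    refine ((hasDerivAt_dxr R X0 s).ofReal_comp.fun_inv hp).congr_deriv ?_
    simp only [ContinuousMap.neg_apply, ContinuousMap.mul_apply, ContinuousMap.smul_apply,
      ContinuousMap.pow_apply, cu_apply, idg_apply h, smul_eq_mul]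
    push_cast
    field_simp

theorem der_kap1 (h : R + 2 ≤ X0) : Der (kap1 R X0) (dgam R X0 * kapx1 R X0) := by
  refine ((der_cu2.smul 6).mul (der_idg h)).congr ?_
  ext s
  have hp : ((dxr R X0 s : ℝ) : ℂ) ≠ 0 := ofReal_ne_zero.2 (dxr_pos h _).ne'
  have e : ((dxr R X0 s : ℝ) : ℂ) = 2 + 6 * (X0 - R - 2) * ((cub s : ℝ) : ℂ) ^ 2 := by
    rw [dxr]; push_cast; ring
  simp only [kapx1, ContinuousMap.add_apply, ContinuousMap.neg_apply, ContinuousMap.mul_apply,
    ContinuousMap.smul_apply, ContinuousMap.pow_apply, cu_apply, idg_apply h, smul_eq_mul,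
    dgam_real]
  field_simp
  rw [e]; ring

theorem der_kap (h : R + 2 ≤ X0) (X : ℂ) : Der (kap R X0 X) (dgam R X0 * kapx R X0 X) :=
  ((der_kap1 h).smul _).congr (by rw [kapx, mul_smul_comm])

theorem norm_kap1 (h : R + 2 < X0) : ‖kap1 R X0‖ ≤ (X0 - R - 2)⁻¹ := by
  have hd : 0 < X0 - R - 2 := by linarith
  refine (ContinuousMap.norm_le _ (inv_pos.2 hd).le).2 fun s => ?_
  have hp := dxr_pos h.le s
  simp only [kap1, ContinuousMap.mul_apply, ContinuousMap.smul_apply, ContinuousMap.pow_apply,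
    cu_apply, smul_eq_mul, norm_mul, norm_pow, norm_idg_apply h.le, norm_real,
    Real.norm_of_nonneg (cub_nonneg _), norm_ofNat]
  rw [← div_eq_mul_inv, inv_eq_one_div, div_le_div_iff₀ hp hd, dxr]
  linarith

theorem norm_kapx1 (h : R + 2 ≤ X0) : ‖kapx1 R X0‖ ≤ 6 := by
  refine (ContinuousMap.norm_le _ (by norm_num)).2 fun s => ?_
  have h1 : (dxr R X0 s)⁻¹ ≤ 1 / 2 := by rw [one_div]; exact inv_anti₀ two_pos (two_le_dxr h s)
  have h2 := pow_le_pow_left₀ (inv_pos.2 (dxr_pos h s)).le h1 3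
  have h3 := cub_le_one s.2.2
  have h4 := cub_nonneg s
  have h5 := pow_nonneg (inv_pos.2 (dxr_pos h s)).le 3
  simp only [kapx1, ContinuousMap.mul_apply, ContinuousMap.smul_apply, ContinuousMap.pow_apply,
    cu_apply, smul_eq_mul, norm_mul, norm_pow, norm_idg_apply h, norm_real,
    Real.norm_of_nonneg (cub_nonneg _), norm_ofNat]
  calc _ ≤ 48 * 1 * (1 / 2 : ℝ) ^ 3 := by gcongr
    _ = 6 := by norm_num

theorem norm_kap (h : R + 2 < X0) (X : ℂ) : ‖kap R X0 X‖ ≤ ‖X - X0‖ / (X0 - R - 2) := by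
  rw [kap, norm_smul, div_eq_mul_inv]
  exact mul_le_mul_of_nonneg_left (norm_kap1 h) (norm_nonneg _)

theorem norm_kapx (h : R + 2 ≤ X0) (X : ℂ) : ‖kapx R X0 X‖ ≤ 6 * ‖X - X0‖ := by
  rw [kapx, norm_smul, mul_comm]
  exact mul_le_mul_of_nonneg_right (norm_kapx1 h) (norm_nonneg _)






end Crest.Agent.N250.B1

end
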