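import Crest.Agent.N250.B1.End0
import Crest.Agent.N250.B1.Gam

/-!
# Row 250, B1 (helper45): the inverses in `GJ` are honest
-/

set_option autoImplicit false
set_option linter.unusedSectionVars false
open Set Complex Filter Topology

noncomputable section

namespace Crest.Agent.N250

namespace Nl
variable {R : Type*} [NormedCommRing R] [NormOneClass R] [NormedAlgebra ℂ R] [CompleteSpace R]

lemma Qm_le4 {y T Z n : R} (hy : ‖y‖ ≤ 1 / 4) (hT : ‖T‖ ≤ 1 / 2) (hZ : ‖Z‖ ≤ 4)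
    (hn : ‖n‖ ≤ 1 / 64) : ‖Qm y T Z n‖ ≤ 1 / 2 :=
  (add_le (add_le hy (mul_le (mul_le hf_le hn) (pow_le hZ 2)))
    (mul_le (mul_le (pow_le hf_le 2) (inv_le (hy.trans (by norm_num)))) (pow_le hT 2))).trans
      (by norm_num)


end Nl

namespace B1
variable {ℓ : Ell} {R K g g' X0 ν δ A M : ℝ} {a0 X a : ℂ} {J : Jt ℓ}

theorem norm_le_pt {f : CI} {C : ℝ} (h : ∀ s, ‖f s‖ ≤ C) : ‖f‖ ≤ C :=
  (ContinuousMap.norm_le_of_nonempty _).2 h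

section pt
variable {x0 : ℝ} {x e kx : ℂ}

theorem NrP.et_ne (hb : BsP K g g' X0 a0 ν x0) (h : NrP a0 a δ A x0 x e kx) : et a x ≠ 0 := by
  intro h0
  have := h.n4
  rw [h0, norm_zero] at this
  linarith [hb.norm_pos]

theorem NrP.x_ne (hb : BsP K g g' X0 a0 ν x0) (h : NrP a0 a δ A x0 x e kx) : x ≠ 0 := by
  intro h0
  have := h.n5'
  rw [h0, norm_zero] at this
  linarith [hb.x_pos]

theorem NrP.e_ne (h : NrP a0 a δ A x0 x e kx) : e ≠ 0 := by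
  intro h0
  have := h.n6'
  rw [h0, norm_zero] at this
  linarith


/-- `|1/η| t ≤ 2` for `t ≤ |η₀|` -/
theorem NrP.inv_et_le (hb : BsP K g g' X0 a0 ν x0) (h : NrP a0 a δ A x0 x e kx) {t : ℝ}
    (ht : t ≤ ‖et a0 x0‖) : ‖(et a x)⁻¹‖ * t ≤ 2 := by
  rw [norm_inv, inv_mul_le_iff₀ (norm_pos_iff.2 (h.et_ne hb))]
  linarith [h.n4]

theorem NrP.n_le (hb : BsP K g g' X0 a0 ν x0) (h : NrP a0 a δ A x0 x e kx) :
    ‖(x ^ 2 * et a x)⁻¹‖ * (et a0 x0).re⁻¹ * ‖et a0 x0‖ ≤ 8 * ν := by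
  have h1 := hb.nu
  have h2 := h.n4
  have h3 := h.n5'
  have h4 := hb.x_pos
  have h5 := hb.re_pos
  have h6 := norm_pos_iff.2 (h.x_ne hb)
  have h7 := norm_pos_iff.2 (h.et_ne hb)
  have hν : 0 < ν := pos_of_mul_pos_left (one_pos.trans_le h1) (by positivity)
  have h8 : x0 ^ 2 ≤ 4 * ‖x‖ ^ 2 := by nlinarith
  rw [norm_inv, norm_mul, norm_pow, ← mul_inv, inv_mul_le_iff₀ (by positivity)]
  calc ‖et a0 x0‖ ≤ 2 * ‖et a x‖ * 1 := by linarith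
    _ ≤ 2 * ‖et a x‖ * (ν * (4 * ‖x‖ ^ 2 * (et a0 x0).re)) := by
        gcongr
        exact h1.trans (by gcongr)
    _ = _ := by ring

theorem NrP.n_le' (hb : BsP K g g' X0 a0 ν x0) (h : NrP a0 a δ A x0 x e kx) :
    ‖(x ^ 2 * et a x)⁻¹‖ ≤ 8 * ν := by
  refine le_trans ?_ (h.n_le hb)
  rw [mul_assoc]
  refine le_mul_of_one_le_right (norm_nonneg _) ?_
  rw [← div_eq_inv_mul, one_le_div hb.re_pos]
  exact re_le_norm _

theorem BsP.W_le_norm (hb : BsP K g g' X0 a0 ν x0) : W g g' a0 x0 ≤ ‖et a0 x0‖ :=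
  hb.W_le.trans (re_le_norm _)

theorem BsP.rho_le_norm (hb : BsP K g g' X0 a0 ν x0) : rho K X0 x0 ≤ ‖et a0 x0‖ :=
  hb.rho_le.trans (re_le_norm _)

theorem BsP.W_div_le (hb : BsP K g g' X0 a0 ν x0) : W g g' a0 x0 / ‖et a0 x0‖ ≤ 1 :=
  (div_le_one hb.norm_pos).2 hb.W_le_norm

end pt

theorem Nr.etC_ne (hb : Bs R K g g' X0 a0 ν) (h : Nr R X0 a0 δ A X a) (s : II) :
    etC R X a s ≠ 0 := by rw [etC_apply]; exact (h s).et_ne (hb.2 s)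

theorem Nr.gam_ne (hb : Bs R K g g' X0 a0 ν) (h : Nr R X0 a0 δ A X a) (s : II) :
    gam R X s ≠ 0 := (h s).x_ne (hb.2 s)

theorem Nr.eC_ne (h : Nr R X0 a0 δ A X a) (s : II) : eC R X0 X s ≠ 0 := (h s).e_ne

theorem Nr.xe_ne (hb : Bs R K g g' X0 a0 ν) (h : Nr R X0 a0 δ A X a) (s : II) :
    (gam R X * etC R X a) s ≠ 0 := mul_ne_zero (h.gam_ne hb s) (h.etC_ne hb s)

theorem Nr.xxe_ne (hb : Bs R K g g' X0 a0 ν) (h : Nr R X0 a0 δ A X a) (s : II) :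
    (gam R X ^ 2 * etC R X a) s ≠ 0 := mul_ne_zero (pow_ne_zero 2 (h.gam_ne hb s)) (h.etC_ne hb s)

theorem Bs.etC_ne (hb : Bs R K g g' X0 a0 ν) (s : II) : etC R X0 a0 s ≠ 0 := by
  rw [etC_apply, gam_ofReal]; exact norm_pos_iff.1 (hb.2 s).norm_pos

theorem Nr.iv_etC (hb : Bs R K g g' X0 a0 ν) (h : Nr R X0 a0 δ A X a) (s : II) :
    iv (etC R X a) s = (et a (gam R X s))⁻¹ := by rw [iv_apply (h.etC_ne hb), etC_apply]

theorem Nr.iv_xe (hb : Bs R K g g' X0 a0 ν) (h : Nr R X0 a0 δ A X a) (s : II) :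
    iv (gam R X * etC R X a) s = (gam R X s * et a (gam R X s))⁻¹ := by
  rw [iv_apply (h.xe_ne hb), ContinuousMap.mul_apply, etC_apply]

theorem Nr.iv_xxe (hb : Bs R K g g' X0 a0 ν) (h : Nr R X0 a0 δ A X a) (s : II) :
    iv (gam R X ^ 2 * etC R X a) s = (gam R X s ^ 2 * et a (gam R X s))⁻¹ := by
  rw [iv_apply (h.xxe_ne hb), ContinuousMap.mul_apply, ContinuousMap.pow_apply, etC_apply]

theorem Bs.iv_etC (hb : Bs R K g g' X0 a0 ν) (s : II) :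
    iv (etC R X0 a0) s = (et a0 (gam R X0 s))⁻¹ := by rw [iv_apply hb.etC_ne, etC_apply]

theorem InB.nonneg (hb : Bs R K g g' X0 a0 ν) (hJ : InB R K g g' X0 a0 M J) : 0 ≤ M :=
  hJ.b3.nonneg (fun _ => one_pos) fun s => (hb.2 s).W_pos

theorem norm_y_le (hb : Bs R K g g' X0 a0 ν) (h : Nr R X0 a0 δ A X a)
    (hJ : InB R K g g' X0 a0 M J) : ‖cm (iv (etC R X a)) (J 0)‖ ≤ 2 * M :=
  (wb_one_iff (R := R) (X := X0)).1 (hJ.b0.cm (fun s => (hb.2 s).rho_pos) (fun s => (hb.2 s).W_pos)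
    zero_le_two (Or.inr fun s => by
      rw [h.iv_etC hb, mul_one]; exact (h s).inv_et_le (hb.2 s) (hb.2 s).rho_le_norm)
    fun s => by rw [h.iv_etC hb, mul_one]; exact (h s).inv_et_le (hb.2 s) (hb.2 s).W_le_norm)

theorem norm_T_le (hb : Bs R K g g' X0 a0 ν) (h : Nr R X0 a0 δ A X a) {u : Wi (om ℓ)}
    (hu : WB R X0 (fun _ => 1) (W g g' a0) u M) (h0 : Wi.co u 0 = 0) :
    ‖cm (iv (etC R X a)) u‖ ≤ 2 * M :=
  (wb_one_iff (R := R) (X := X0)).1 (hu.cm (fun _ => one_pos) (fun s => (hb.2 s).W_pos)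
    zero_le_two (Or.inl ⟨h0, fun _ => zero_le_one⟩)
    fun s => by rw [h.iv_etC hb, mul_one]; exact (h s).inv_et_le (hb.2 s) (hb.2 s).W_le_norm)

theorem norm_xp_le (hb : Bs R K g g' X0 a0 ν) (h : Nr R X0 a0 δ A X a)
    (hJ : InB R K g g' X0 a0 M J) : ‖cm (gam R X) (J 1)‖ ≤ 2 * M :=
  (wb_one_iff (R := R) (X := X0)).1 (hJ.b1.cm (fun s => inv_pos.2 (hb.2 s).x_pos)
    (fun s => div_pos (hb.2 s).W_pos (mul_pos (hb.2 s).x_pos (hb.2 s).norm_pos))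
    zero_le_two (Or.inr fun s => by
      rw [mul_inv_le_iff₀ (hb.2 s).x_pos, mul_one]; exact (h s).n5.le)
    fun s => by
      have h1 := (hb.2 s).W_div_le
      have h2 := (h s).n5.le
      have h3 := (hb.2 s).x_pos
      have h4 := (hb.2 s).W_pos
      have h5 := (hb.2 s).norm_pos
      calc _ ≤ 2 * xr R X0 s * (W g g' a0 (xr R X0 s) / (xr R X0 s * ‖et a0 (xr R X0 s)‖)) := by
            gcongr
        _ = 2 * (W g g' a0 (xr R X0 s) / ‖et a0 (xr R X0 s)‖) := by field_simp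
        _ ≤ _ := by gcongr)

theorem norm_Z_le (hb : Bs R K g g' X0 a0 ν) (h : Nr R X0 a0 δ A X a)
    (hJ : InB R K g g' X0 a0 M J) :
    ‖Wi.cst (om ℓ) (a • gam R X ^ 2) + cm (gam R X) (J 1)‖ ≤ 3 + 2 * M :=
  Nl.add_le ((Wi.norm_cst _).le.trans (norm_le_pt fun s => (h s).n8.le)) (norm_xp_le hb h hJ)

theorem norm_n_le (hb : Bs R K g g' X0 a0 ν) (h : Nr R X0 a0 δ A X a) :
    ‖Wi.cst (om ℓ) (iv (gam R X ^ 2 * etC R X a))‖ ≤ 8 * ν :=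
  (Wi.norm_cst _).le.trans (norm_le_pt fun s => by rw [h.iv_xxe hb]; exact (h s).n_le' (hb.2 s))

theorem norm_Qm_le (hb : Bs R K g g' X0 a0 ν) (h : Nr R X0 a0 δ A X a) (hν : ν ≤ 1 / 1000)
    (hJ : InB R K g g' X0 a0 M J) (hM : 32 * M ≤ 1) (h3 : Wi.co (J 3) 0 = 0) :
    ‖Nl.Qm (cm (iv (etC R X a)) (J 0)) (cm (iv (etC R X a)) (J 3))
      (Wi.cst _ (a • gam R X ^ 2) + cm (gam R X) (J 1))
      (Wi.cst _ (iv (gam R X ^ 2 * etC R X a)))‖ ≤ 1 / 2 :=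
  Nl.Qm_le4 ((norm_y_le hb h hJ).trans (by linarith)) ((norm_T_le hb h hJ.b3 h3).trans (by linarith))
    ((norm_Z_le hb h hJ).trans (by linarith)) ((norm_n_le hb h).trans (by linarith))

/-- the two inverses in `GJ` -/
theorem unitsJ (hb : Bs R K g g' X0 a0 ν) (h : Nr R X0 a0 δ A X a) (hν : ν ≤ 1 / 1000)
    (hJ : InB R K g g' X0 a0 M J) (hM : 32 * M ≤ 1) (h3 : Wi.co (J 3) 0 = 0) :
    IsUnit (1 + cm (iv (etC R X a)) (J 0)) ∧
    IsUnit (1 + Nl.Qm (cm (iv (etC R X a)) (J 0)) (cm (iv (etC R X a)) (J 3))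
      (Wi.cst _ (a • gam R X ^ 2) + cm (gam R X) (J 1))
      (Wi.cst _ (iv (gam R X ^ 2 * etC R X a)))) :=
  ⟨Nl.unit_of ((norm_y_le hb h hJ).trans (by linarith)), Nl.unit_of (norm_Qm_le hb h hν hJ hM h3)⟩

theorem IsJet.co3 {c : CI} (h : IsJet c J) : Wi.co (J 3) 0 = 0 := by rw [h.t0]; ext s; simp
theorem IsJet.co4 {c : CI} (h : IsJet c J) : Wi.co (J 4) 0 = 0 := by rw [h.t1]; ext s; simp
theorem IsJet.co5 {c : CI} (h : IsJet c J) : Wi.co (J 5) 0 = 0 := by rw [h.t2]; ext s; simp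

end B1

end Crest.Agent.N250

end
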