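import Crest.Agent.N250.B1.Low0_Mg
import Crest.Agent.N250.B1.WtBar
import Crest.Agent.N250.B1.EndCv1
import Crest.Agent.N250.B1.End0
import Crest.Agent.N250.B1.Gam
import Crest.Agent.N250.B1.EndCv0

-- ▼ part N250/B1/Lin6
section

/-! # Row 250, block B1 (helper24): the modes `0, ± 1` -/

set_option autoImplicit false

open Set Filter Topology Complex

noncomputable section

namespace Crest.Agent.N250.B1

/-- modes `± 1` for any weight `Ω` decreasing faster than the rotation field -/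
theorem mest_rot {R X ε : ℝ} {a : ℂ} {m : ℤ} {Ω lΩ : ℝ → ℝ} (ok : Ok ε a R X) (hm : m ^ 2 = 1)
    (hΩ : LD R X Ω lΩ) (hl : ∀ x ∈ Icc R X, lΩ x ≤ x / 16)
    (hg : ∀ x ∈ Icc R X, x * (lΩ x - (l1 a x).re) ≤ -mu a x) :
    MEst R X a m (fun x => mu a x * Ω x) (mu a X * ‖et a X‖ * Ω X / 4) (mu a X * Ω X / X)
      fun i x => 100 * ![Ω x, Ω x / (x * ‖et a x‖), Ω x / ‖et a x‖, Ω x, x * Ω x, Ω x] i := by
  intro G w p M hM s hG hw hp
  have hm' : ¬ 2 ≤ |m| := fun h => by nlinarith [sq_abs m]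
  have hm1 : (m : ℝ) ^ 2 = 1 := by exact_mod_cast hm
  have hm2 : |(m : ℝ)| = 1 := by
    have := sq_abs (m : ℝ); have := abs_nonneg (m : ℝ); nlinarith
  have hX := right_mem_Icc.2 ok.lt.le
  have pX := ok.ptX
  simp only [pt, if_neg hm'] at hw
  have hΓ : LD R X (fun x => mu a x * Ω x) fun x => lm a x + lΩ x :=
    LD.mul ⟨fun x hx => (ok.pt hx).mu_pos, ok.dv_mu⟩ hΩ
  have hh := low (l := l1 a) (by linarith [ok.ptR.x_ge]) ok.lt.le s ok.dv_l1 hΩ.dv hΩ.pos hΓ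
    (fun x hx => by have := (abs_le.1 (ok.pt hx).lm_le').2; have := hl x hx; linarith)
    (fun x hx => by
      have := (re_le_norm _).trans (ok.pt hx).l1_le'; have := (ok.pt hx).xpos; linarith)
    (fun x hx => by
      have h := ok.pt hx
      have e : Vx a m x - l1' a x + dr x * l1 a x - l1 a x ^ 2 = res a x := by
        have := h.res_eq hm
        simp only [dr, Vx, Vm] at this ⊢
        push_cast
        linear_combination -this
      rw [e]
      have := mul_le_mul_of_nonneg_right h.res_le' (hΩ.pos x hx).le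
      have := hΓ.pos x hx
      linarith)
    (fun x hx => by
      have h0 := (ok.pt hx).xpos
      have := mul_le_mul_of_nonneg_right (hg x hx) (hΩ.pos x hx).le
      rw [le_neg, div_le_iff₀ h0]; linarith)
    hG
    (hw.trans (mul_le_mul_of_nonneg_left (by
      have := mul_le_mul_of_nonneg_right pX.mu_norm_le (hΩ.pos X hX).le
      have := hΩ.pos X hX
      linarith) hM))
    (by
      refine (norm_sub_le _ _).trans ?_
      rw [norm_mul]
      have h1 := mul_le_mul pX.l1_le_inv hw (norm_nonneg _)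
        (by have := pX.xpos; have := pX.npos; positivity)
      have e : 8 / (X * ‖et a X‖) * (M * (mu a X * ‖et a X‖ * Ω X / 4)) =
          2 * M * (mu a X * Ω X * X⁻¹) := by
        have := pX.xpos; have := pX.npos; field_simp; ring
      have : 0 ≤ M * (mu a X * Ω X * X⁻¹) := by
        have := pX.xpos; have := hΓ.pos X hX; positivity
      rw [div_eq_mul_inv] at hp
      linarith)
  intro x hx
  obtain ⟨r0, r1⟩ := hh x hx
  have h := ok.pt hx
  have hx0 := h.xpos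
  have hn := h.npos
  have hΩ0 := hΩ.pos x hx
  have h0 : 0 ≤ M * Ω x := by positivity
  have hμ := mul_le_mul_of_nonneg_left h.mu_norm_le h0
  have k1 : x * ‖et a x‖ * ‖p x‖ ≤ 72 * (M * Ω x) := by
    have h1 : ‖p x‖ ≤ ‖p x - l1 a x * w x‖ + ‖l1 a x‖ * ‖w x‖ := by
      rw [← norm_mul]; exact norm_le_norm_sub_add _ _
    have h2 := mul_le_mul h.l1_le_inv r0 (norm_nonneg _) (by positivity)
    have h3 := mul_le_mul_of_nonneg_left (h1.trans (add_le_add r1 h2))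
      (by positivity : 0 ≤ x * ‖et a x‖)
    have e : x * ‖et a x‖ * (8 * M * (mu a x * Ω x * x⁻¹) + 8 / (x * ‖et a x‖) * (8 * M * Ω x)) =
        8 * (M * Ω x * (mu a x * ‖et a x‖)) + 64 * (M * Ω x) := by field_simp; ring
    linarith
  have k2 : ‖et a x‖ * ‖dr x * p x + Vx a m x * w x + G x‖ ≤ 100 * (M * Ω x) := by
    have h1 : ‖dr x * p x + Vx a m x * w x + G x‖ ≤
        x / 2 * ‖p x‖ + ‖Vx a m x‖ * ‖w x‖ + ‖G x‖ := by
      refine norm_add₃_le.trans (le_of_eq ?_)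
      rw [norm_mul, norm_mul, norm_dr hx0.le]
    have h2 : ‖et a x‖ * ‖Vx a m x‖ ≤ 7 / 2 := by
      have := h.Vm_norm_le m
      rw [le_div_iff₀' hn, hm1] at this
      exact this.trans (by norm_num)
    have h3 := mul_le_mul h2 r0 (norm_nonneg _) (by norm_num)
    have h4 := mul_le_mul_of_nonneg_left h1 hn.le
    have h5 := mul_le_mul_of_nonneg_left (hG x hx) hn.le
    linarith
  have k3 : ‖p x‖ ≤ 72 * (x * (M * Ω x)) := by
    have h2 : ε * x ^ 2 * ‖et a x‖ ≤ 1 * x ^ 2 * ‖et a x‖ := by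
      gcongr; linarith [h.small]
    have h3 := mul_le_mul_of_nonneg_right (h.one_le_norm.trans h2) (norm_nonneg (p x))
    have h4 := mul_le_mul_of_nonneg_left k1 hx0.le
    linarith
  simp only [Matrix.cons_val, hm1, hm2, one_mul]
  refine ⟨by linarith, ?_, ?_, by linarith, ?_, by linarith⟩
  · rw [← mul_div_assoc, ← mul_div_assoc, le_div_iff₀' (by positivity)]; linarith
  · rw [← mul_div_assoc, ← mul_div_assoc, le_div_iff₀' hn]; linarith
  · have : 0 ≤ x * (M * Ω x) := by positivity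
    linarith

theorem rho_aux {K X x : ℝ} (hK : 0 < K) (hX : 4 * K ≤ X ^ 2) (hx : x ^ 2 ≤ X ^ 2) :
    0 ≤ 2 / X ^ 2 * (1 - 2 * K / X ^ 2) ∧ 0 < 1 - 2 / X ^ 2 * (1 - 2 * K / X ^ 2) * x ^ 2 / 2 ∧
      1 - 2 / X ^ 2 * (1 - 2 * K / X ^ 2) * x ^ 2 / 2 ≤ rho K X x := by
  have h0 : 0 < X ^ 2 := by linarith
  have h1 : 2 * K / X ^ 2 ≤ 1 / 2 := by rw [div_le_iff₀ h0]; linarith
  have h2 : 0 < 2 * K / X ^ 2 := by positivity
  have h3 : x ^ 2 / X ^ 2 ≤ 1 := (div_le_one h0).2 hx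
  have h4 : 0 ≤ x ^ 2 / X ^ 2 := by positivity
  have h5 : 0 ≤ 2 / X ^ 2 * (1 - 2 * K / X ^ 2) := mul_nonneg (by positivity) (by linarith)
  have e : 2 / X ^ 2 * (1 - 2 * K / X ^ 2) * x ^ 2 / 2 = x ^ 2 / X ^ 2 * (1 - 2 * K / X ^ 2) := by
    ring
  refine ⟨h5, by rw [e]; nlinarith, ?_⟩
  have : rho K X x = 1 - 2 / X ^ 2 * (1 - 2 * K / X ^ 2) * x ^ 2 / 2 +
      2 / X ^ 2 * (1 - 2 * K / X ^ 2) := by unfold rho; ring
  linarith

/-- the mode `0` -/
theorem mest_zero {R X K : ℝ} (a : ℂ) (hR : 4 ≤ R) (hK : 0 < K) (hX : 4 * K ≤ X ^ 2) :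
    MEst R X a 0 (fun _ => 1) 0 X⁻¹
      fun i x => 100 * ![rho K X x, x⁻¹, 1, 1, 1, 1] i := by
  intro G w p M hM s hG hw hp x hx
  have hRX : R ≤ X := hx.1.trans hx.2
  have hX0 : 0 < X := by linarith
  have hx0 : 0 < x := by linarith [hx.1]
  have sq : ∀ y ∈ Icc R X, y ^ 2 ≤ X ^ 2 := fun y hy =>
    pow_le_pow_left₀ (by linarith [hy.1]) hy.2 2
  have e0 : ∀ y, Vx a 0 y = -1 := fun y => by simp [Vx]
  have hw' : ‖w X‖ ≤ 0 := by simpa [pt] using hw
  obtain ⟨r0, r1⟩ := low0 (A := 2 / X ^ 2 * (1 - 2 * K / X ^ 2)) (M := M) (g := G) (w := w)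
    (w1 := p) hR (rho_aux hK hX le_rfl).1 (fun y hy => (rho_aux hK hX (sq y hy)).2.1)
    (s.congr (fun _ _ => rfl) (fun _ _ => rfl) fun y _ => by simp [e0, dr]) hM
    (fun y hy => by simpa using hG y hy)
    (hw'.trans (mul_nonneg hM (rho_aux hK hX le_rfl).2.1.le))
    (by rwa [← div_eq_mul_inv, le_div_iff₀' hX0] at hp) x hx
  obtain ⟨a0, a1, a2⟩ := rho_aux hK hX (sq x hx)
  have a3 : 0 ≤ 2 / X ^ 2 * (1 - 2 * K / X ^ 2) * x ^ 2 / 2 := by positivity
  have k0 := mul_le_mul_of_nonneg_left a2 hM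
  have k1 := mul_nonneg hM a3
  have k2 : ‖dr x * p x + Vx a 0 x * w x + G x‖ ≤ x / 2 * ‖p x‖ + ‖w x‖ + ‖G x‖ := by
    refine norm_add₃_le.trans (le_of_eq ?_)
    rw [norm_mul, norm_mul, norm_dr hx0.le, e0]; simp
  have k3 := hG x hx
  have k4 := mul_nonneg hM a1.le
  simp only [Matrix.cons_val, Int.cast_zero, abs_zero, zero_mul, ne_eq, OfNat.ofNat_ne_zero,
    not_false_eq_true, zero_pow] at k3 ⊢
  refine ⟨by linarith, ?_, by linarith, by positivity, by positivity, by positivity⟩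
  rw [← mul_assoc, ← div_eq_mul_inv, le_div_iff₀' hx0]; linarith

end Crest.Agent.N250.B1

end
end

-- ▼ part N250/B1/Lin7
section

/-! # Row 250, block B1 (helper24): the linear solver `LinS` -/

set_option autoImplicit false

open Set Filter Topology Complex

noncomputable section

namespace Crest.Agent.N250.B1

lemma Bar.weaken {a b δ : ℝ} {B Ω Ω1 Ω2 γ γ' : ℝ → ℝ} {V : ℝ → ℂ} {κ : ℂ}
    (h : Bar a b B V κ Ω Ω1 Ω2 γ δ) (h0 : ∀ x ∈ Ioo a b, 0 < γ' x) (h1 : ∀ x ∈ Ioo a b, γ' x ≤ γ x) :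
    Bar a b B V κ Ω Ω1 Ω2 γ' δ :=
  { h with γpos := h0, sup := fun x hx => (h.sup x hx).trans (neg_le_neg (h1 x hx)) }

/-- weights of the mode `0` in `InB` -/
def wt0 (K X : ℝ) : Fin 6 → ℝ → ℝ :=
  ![rho K X, fun x => x⁻¹, fun _ => 1, fun _ => 1, fun _ => 1, fun _ => 1]

/-- weights of the other modes in `InB` -/
def wt1 (g g' : ℝ) (a : ℂ) : Fin 6 → ℝ → ℝ :=
  ![W g g' a, fun x => W g g' a x / (x * ‖et a x‖), fun x => W g g' a x / ‖et a x‖, W g g' a,
    fun x => x * W g g' a x, W g g' a]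

theorem inB_iff {ℓ : Ell} {R K g g' X M : ℝ} {a : ℂ} {J : Jt ℓ} :
    InB R K g g' X a M J ↔ ∀ i, WB R X (wt0 K X i) (wt1 g g' a i) (J i) M :=
  ⟨fun h i => by fin_cases i; exacts [h.b0, h.b1, h.b2, h.b3, h.b4, h.b5],
    fun h => ⟨h 0, h 1, h 2, h 3, h 4, h 5⟩⟩

theorem Es_right {R X : ℝ} (h : R + 2 ≤ X) (t : ℝ) : Es R t X = (Real.exp t)⁻¹ := by
  rw [Es, sig, max_eq_right (by linarith), ← Real.exp_neg]; simp

theorem Es_left (R t : ℝ) : Es R t R = 1 := by simp [Es, sig]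

section
variable {ℓ : Ell} {R K X g g' c : ℝ} {a : ℂ}

theorem wt_Om (ok : Ok (c / 10 ^ 5) a R X) (t : ℝ) {A C : ℝ} (hA : A ≤ C) (i : Fin 6)
    {x : ℝ} (hx : x ∈ Icc R X) (Ω : ℝ → ℝ) (hΩ : Ω x = W g g' a x * Es R t x) :
    A * ![Ω x, Ω x / (x * ‖et a x‖), Ω x / ‖et a x‖, Ω x, x * Ω x, Ω x] i ≤
      C * wt1 g g' a i x * Es R t x := by
  have h := ok.pt hx
  have := h.xpos; have := h.npos; have := h.W_pos g g'; have := Es_pos R t x
  have e : ![Ω x, Ω x / (x * ‖et a x‖), Ω x / ‖et a x‖, Ω x, x * Ω x, Ω x] i =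
      wt1 g g' a i x * Es R t x := by
    fin_cases i <;> simp [wt1, hΩ] <;> ring
  rw [e, mul_assoc]
  refine mul_le_mul_of_nonneg_right hA (mul_nonneg ?_ (by positivity))
  fin_cases i <;> simp only [wt1] <;> simp <;> positivity

/-- the mode estimates of the end solver -/
theorem lfam_end (G : GG g g' c) (hR : 4 / (c / 10 ^ 5) ≤ R) (hK : 4 / (c / 10 ^ 5) ≤ K)
    (hℓ : ℓ.Sm (c / 6000) R) (hX : 2 * R + 4 ≤ X) (hKX : 2 * √K ≤ X) (ha : Adm K X a) :
    LFam ℓ R X a (3600 / c) (fun _ => 1) (fun x => mu a x * W g g' a x) (del0 R g g' X a)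
      (del1 ℓ g g' X a) (wt0 K X) (wt1 g g' a) ∧ ∀ m, MEx R X a m := by
  have hc := G.pos
  have hc1 := G.c_le
  have ok : Ok (c / 10 ^ 5) a R X := ha.ok' (by linarith) (by positivity) hR hK hX hKX
  have hK0 : 0 < K := lt_of_lt_of_le (by positivity) hK
  have hR1 := ok.ptR.x_ge
  have hR0 : 0 < R := by linarith
  have pX := ok.ptX
  have hX0 := pX.xpos
  have hX2 : R + 2 ≤ X := by linarith
  have hW := pX.W_pos g g'
  have he := pX.repos
  have hC : 3600 ≤ 3600 / c := by rw [le_div_iff₀ hc]; linarith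
  have sg : ∀ m : ℤ, Sg _ _ _ R X (c * |(m : ℝ)| / 1000) := fun m =>
    sg_sig (t := ℓ.l m) X (by linarith) (ℓ.nonneg m) (by
      have := hℓ m
      rw [le_div_iff₀ hR0] at this; linarith)
  have ld : ∀ m : ℤ, LD R X (Om g g' (fun x => sig (x - R) * ℓ.l m) a) _ := fun m =>
    ⟨fun x hx => (ok.pt hx).Om_pos _ _ _, ok.dv_Om g g' (sg m).d0⟩
  have om : ∀ (m : ℤ) x, Om g g' (fun x => sig (x - R) * ℓ.l m) a x =
      W g g' a x * Es R (ℓ.l m) x := fun _ _ => rfl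
  refine ⟨⟨hX2, by positivity, fun _ _ => one_pos,
    fun x hx => mul_pos (ok.pt hx).mu_pos ((ok.pt hx).W_pos _ _), fun m => ?_, fun m => ?_, ?_,
    fun m hm => ?_⟩, fun m => ?_⟩
  · have := Real.rpow_pos_of_pos hR0 (-g)
    unfold del0; split_ifs <;> positivity
  · unfold del1; split_ifs <;> positivity
  · refine (mest_zero a (by linarith) hK0 (four_le_of_sqrt hK0.le hKX)).mono (c := 1) zero_le_one
      (fun _ _ => by simp) (by simp [del0]) (by simp [del1]) fun i x hx => ?_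
    have e : ![rho K X x, x⁻¹, 1, 1, 1, 1] i = wt0 K X i x := by fin_cases i <;> simp [wt0]
    rw [one_mul, e]
    refine mul_le_mul_of_nonneg_right (by linarith) ?_
    have h1 := (ok.pt hx).xpos
    have h2 := rho_ge hK0.le hX0 (four_le_of_sqrt hK0.le hKX) (pow_le_pow_left₀ h1.le hx.2 2)
    have h3 : 0 ≤ rho K X x := le_trans (by positivity) h2
    fin_cases i <;> simp [wt0, h3, h1.le]
  · by_cases h2 : 2 ≤ |m|
    · obtain ⟨Ot, O1, O2, bar, h1⟩ := ok.bar_hi G (by linarith) h2 (sg m)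
      have hk : (2 : ℝ) ≤ |(m : ℝ)| := by exact_mod_cast h2
      have hk2 : 4 ≤ (m : ℝ) ^ 2 := by nlinarith [sq_abs (m : ℝ)]
      refine (mest_of_bar (c := c / 16) ok h2 (by positivity) (by linarith) (ld m)
        (fun x hx => ?_) (bar.weaken (fun x hx => ?_) fun x hx => ?_) h1).mono (c := 3)
        (by norm_num) (fun x hx => ?_) ?_ ?_ fun i x hx => ?_
      · exact ((ok.pt hx).lam_le' G ((sg m).nn x hx)).trans (by linarith [(ok.pt hx).xpos])
      · have := (ok.pt (Ioo_subset_Icc_self hx)).mu_pos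
        have := (ld m).pos x (Ioo_subset_Icc_self hx); positivity
      · have := (ok.pt (Ioo_subset_Icc_self hx)).mu_pos
        have := (ld m).pos x (Ioo_subset_Icc_self hx)
        gcongr; norm_num
      · have := mul_pos (ok.pt hx).mu_pos ((ld m).pos x hx)
        rw [om] at this ⊢; linarith
      · have h3 := rpow_le_W G hR0 (ha.re_ge hK0.le hX0 (by nlinarith) (by nlinarith))
        have h4 := ok.ptR.W_pos g g'
        rw [del0, if_pos h2, om, Es_left, mul_one, ← mul_div_assoc]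
        exact div_le_div₀ (by positivity) (by linarith) (by positivity)
          (by nlinarith [sq_abs (m : ℝ)])
      · rw [del1, if_neg hm, om, Es_right hX2]
        have := Real.exp_pos (ℓ.l m)
        have e : 3 * (W g g' a X * (Real.exp (ℓ.l m))⁻¹ / (X + |(m : ℝ)|)) =
            W g g' a X * 3 / ((X + |(m : ℝ)|) * Real.exp (ℓ.l m)) := by field_simp
        rw [e, ← mul_assoc]
        gcongr
        · exact pX.re_le_three
        · nlinarith [pX.x_ge]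
      · rw [← mul_assoc]
        refine wt_Om ok _ ?_ i hx _ (om m x)
        rw [div_div_eq_mul_div, ← mul_div_assoc]
        exact div_le_div_of_nonneg_right (by norm_num) hc.le
    · have hm1 : m ^ 2 = 1 := by rcases small_cases h2 with h | h | h <;> simp_all
      have hm2 : |(m : ℝ)| = 1 := by rcases small_cases h2 with h | h | h <;> simp_all
      have ht : Real.exp (ℓ.l m) ≤ 3 := by
        have h3 := hℓ m
        rw [hm2, le_div_iff₀ hR0] at h3
        have h4 : ℓ.l m ≤ 1 := by nlinarith [ℓ.nonneg m]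
        exact (Real.exp_le_exp.2 h4).trans (Real.exp_one_lt_d9.le.trans (by norm_num))
      have h5 := Real.exp_pos (ℓ.l m)
      have hn := pX.norm_le
      have hn0 := pX.npos
      have hμ := pX.mu_pos
      refine (mest_rot ok hm1 (ld m) (fun x hx => (ok.pt hx).lam_le' G ((sg m).nn x hx))
        fun x hx => ?_).mono (c := 36) (by norm_num) (fun x hx => ?_) ?_ ?_ fun i x hx => ?_
      · exact ((ok.pt hx).lam_sub_l1 G ((sg m).nn x hx)).trans (by linarith [(ok.pt hx).mu_pos])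
      · have := mul_pos (ok.pt hx).mu_pos ((ld m).pos x hx)
        rw [om] at this ⊢; linarith
      · rw [del0, if_neg h2, if_neg hm, om, Es_right hX2, ← pX.mu_mul]
        have e : 36 * (mu a X * ‖et a X‖ * (W g g' a X * (Real.exp (ℓ.l m))⁻¹) / 4) =
            W g g' a X * (mu a X * ‖et a X‖ * 9) / Real.exp (ℓ.l m) := by field_simp; ring
        rw [e, le_div_iff₀ h5, mul_assoc]
        refine mul_le_mul_of_nonneg_left ?_ hW.le
        have : ‖et a X‖ * Real.exp (ℓ.l m) ≤ 3 * 3 := by gcongr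
        have := mul_le_mul_of_nonneg_left this (mul_pos hμ hn0).le
        linarith
      · rw [del1, if_neg hm, om, Es_right hX2, ← pX.mu_mul, hm2]
        have e : 36 * (mu a X * (W g g' a X * (Real.exp (ℓ.l m))⁻¹) / X) =
            W g g' a X * (mu a X * 72) / (X * ((1 + 1) * Real.exp (ℓ.l m))) := by field_simp; ring
        rw [e]
        gcongr
        nlinarith
      · rw [← mul_assoc]
        exact wt_Om ok _ (by linarith) i hx _ (om m x)
  · by_cases h2 : 2 ≤ |m|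
    · obtain ⟨Ot, O1, O2, bar, -⟩ := ok.bar_hi G (by linarith) h2 (sg m)
      exact mex_of_bar ok h2 bar
    · exact mex_low ok h2

end

theorem linS_holds : LinS := by
  intro g g' hg
  obtain ⟨c, G⟩ := hg.gg
  have hc := G.pos
  have hc1 := G.c_le
  have h1 : 1 ≤ 4 / (c / 10 ^ 5) := by rw [le_div_iff₀ (by positivity)]; linarith
  refine ⟨_, _, c / 6000, 2 * (3600 / c), h1, h1, by positivity, by positivity,
    fun R K hR hK ℓ hℓ X a hX hKX ha => ?_⟩
  obtain ⟨F, hex⟩ := lfam_end G hR hK hℓ hX hKX ha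
  have ok : Ok (c / 10 ^ 5) a R X := ha.ok' (by linarith) (by positivity) hR hK hX hKX
  have hK0 : 0 < K := by linarith
  have db := fun D : Dat ℓ => db_dn (g := g) (g' := g') ok.ptR.xpos ok.ptX.xpos
    (mul_pos (ok.ptX.W_pos g g') ok.ptX.repos) D
  refine ⟨fun G' D => ?_, fun J G' D M hL hb hG hD => inB_iff.2 fun i => ?_⟩
  · obtain ⟨x0, hx0, hmin⟩ := isCompact_Icc.exists_isMinOn (nonempty_Icc.2 ok.lt.le)
      (ok.dv_mu.cont.mul (ok.dv_W g g').cont)
    have h0 := F.γ_pos x0 hx0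
    refine F.ex (c := 1 + (mu a x0 * W g g' a x0)⁻¹) (B := X) (fun x hx => (ok.pt hx).ne) hex
      (by positivity) ok.ptX.xpos.le (fun x hx => ⟨?_, ?_⟩) (fun i x hx => ?_) G' (db D)
    · have := inv_pos.2 h0; linarith
    · have h2 : mu a x0 * W g g' a x0 ≤ mu a x * W g g' a x := hmin hx
      have h3 := mul_le_mul_of_nonneg_left h2 (inv_pos.2 h0).le
      rw [inv_mul_cancel₀ h0.ne'] at h3
      have := F.γ_pos x hx
      linarith
    · have h := ok.pt hx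
      have := h.x_ge; have := hx.2; have hn := h.npos
      have h2 := (h.W_le' G).trans (div_le_div_of_nonneg_right h.re_le (by norm_num))
      have h3 := h.norm_le
      have h4 := rho_le_one (x := x) hK0.le ok.ptX.xpos (four_le_of_sqrt hK0.le hKX) (by nlinarith)
      have h5 : x⁻¹ ≤ 1 := inv_le_one_of_one_le₀ (by linarith)
      have h6 : W g g' a x / ‖et a x‖ ≤ 1 := (div_le_one hn).2 (by linarith)
      have h7 : W g g' a x / (x * ‖et a x‖) ≤ 1 := (div_le_one (by positivity)).2 (by nlinarith)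
      have h8 : x * W g g' a x ≤ x * 1 := by gcongr; linarith
      fin_cases i <;> simp only [wt0, wt1] <;> simp <;> constructor <;> linarith
  · obtain ⟨β, b1, b2, b3⟩ := F.bound hL hb hG (db D) i
    obtain ⟨β', c1, c2, c3, c4⟩ := hG
    refine ⟨β, b1, b2.trans ?_, b3⟩
    have : 0 ≤ 3600 / c := F.C0
    nlinarith

end Crest.Agent.N250.B1

end
end

-- ▼ part N250/B1/EndNr
section

/-!
# Row 250, B1 (helper32): the quantitative facts on the domain, `NrS`
-/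

set_option autoImplicit false
open Set Complex Filter Topology

noncomputable section

namespace Crest.Agent.N250.B1

namespace NrH

variable {ε δ K X0 x0 : ℝ} {a : ℂ}

theorem kk_nonneg (h : Pt (ε ^ 2) a x0) : 0 ≤ kk a x0 := div_nonneg (norm_nonneg _) h.repos.le

theorem kk_mul (h : Pt (ε ^ 2) a x0) : kk a x0 * (et a x0).re = ‖et a x0‖ :=
  div_mul_cancel₀ _ h.repos.ne'

/-- `1/κ ≤ (3/2) ε x₀` -/
theorem kk_le (h : Pt (ε ^ 2) a x0) (hε : 0 < ε) : kk a x0 ≤ 3 / 2 * ε * x0 := by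
  have hr := h.repos
  have hx := h.xpos
  have h1 := h.disc9
  have h2 := h.x_le
  refine abs_le_of_sq_le_sq' ?_ (by positivity) |>.2
  unfold kk
  rw [div_pow, div_le_iff₀ (by positivity)]
  nlinarith

set_option maxHeartbeats 1600000 in
theorem nrP (h : Pt (ε ^ 2) a x0) (hε : 0 < ε) (hε1 : ε ≤ 1 / 1000) (hδ : 100 * ε ≤ δ)
    (hx : x0 ≤ X0) (ha : ‖a‖ * X0 ^ 2 ≤ 5 / 2) (hK : 0 < K) (haK : K * ‖a‖ ≤ 5 / 4 * (et a x0).re)
    {t : ℝ} (ht : |t| ≤ X0⁻¹) {κ kx : ℂ} (hκ : ‖κ‖ ≤ 2 / X0 ^ 2) (hkx : ‖kx‖ ≤ 6 / X0) :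
    NrP a a δ (3 * (‖a‖ * X0 ^ 2 / K)) x0 (x0 + t * I) (1 + κ) kx := by
  have hr := h.repos
  have h100 := h.x_ge
  have hX : 100 ≤ X0 := h100.trans hx
  have hX0 : 0 < X0 := by linarith
  have hn := h.npos
  have hre := h.re_le
  have k0 := kk_nonneg h
  have k1 := kk_le h hε
  have k2 := kk_mul h
  obtain ⟨u, hu⟩ : ∃ u, u = X0⁻¹ := ⟨_, rfl⟩
  rw [← hu] at ht
  have u0 : 0 < u := by rw [hu]; positivity
  have uX : u * X0 = 1 := by rw [hu]; exact inv_mul_cancel₀ hX0.ne'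
  have u1 : u ≤ 1 / 100 := by nlinarith
  have ux : u * x0 ≤ 1 := by nlinarith
  have hκ' : ‖κ‖ ≤ 2 * u ^ 2 := by rw [hu, inv_pow, ← div_eq_mul_inv]; exact hκ
  have hkx' : ‖kx‖ ≤ 6 * u := by rw [hu, ← div_eq_mul_inv]; exact hkx
  have κ1 : ‖κ‖ ≤ 1 / 100 := by nlinarith
  have nt : ‖(t : ℂ) * I‖ ≤ u := by simpa using ht
  obtain ⟨x, hxdef⟩ : ∃ x : ℂ, x = x0 + t * I := ⟨_, rfl⟩
  rw [← hxdef]
  have xs : ‖x - x0‖ ≤ u := by simpa [hxdef] using ht
  have nx0 : ‖(x0 : ℂ)‖ = x0 := by rw [norm_real, Real.norm_eq_abs, abs_of_pos h.xpos]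
  have xle : ‖x‖ ≤ x0 + u := hxdef ▸ (norm_add_le _ _).trans (by rw [nx0]; linarith)
  have xge : x0 ≤ ‖x‖ := by simpa [hxdef] using re_le_norm x
  have x2 : ‖x‖ ^ 2 ≤ 11 / 10 * X0 ^ 2 := by
    have : ‖x‖ ≤ X0 + 1 / 100 := by linarith
    nlinarith [norm_nonneg x]
  have ele : ‖1 + κ‖ ≤ 1 + 1 / 100 := (norm_add_le _ _).trans (by rw [norm_one]; linarith)
  have ege : 1 - 1 / 100 ≤ ‖1 + κ‖ := by
    have := norm_sub_le (1 + κ) κ
    rw [add_sub_cancel_right, norm_one] at this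
    linarith
  have de : ‖et a x - et a x0‖ ≤ 2 * ε ^ 2 * (et a x0).re :=
    h.et_sub_le ((mul_le_mul_of_nonneg_right xs h.xpos.le).trans ux)
  have ε2 : ε ^ 2 ≤ ε / 1000 := by nlinarith
  have n4 : ‖et a x0‖ ≤ 10 / 9 * ‖et a x‖ := by
    have := norm_sub_le (et a x) (et a x - et a x0)
    rw [sub_sub_cancel] at this
    nlinarith
  have nη : 0 < ‖et a x‖ := by linarith
  have ne : et a x ≠ 0 := norm_pos_iff.1 nη
  have e2 : ‖1 - (1 + κ) ^ 2‖ ≤ 6 * u ^ 2 := by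
    have e : 1 - (1 + κ) ^ 2 = -(κ * (1 + (1 + κ))) := by ring
    rw [e, norm_neg, norm_mul]
    have : ‖1 + (1 + κ)‖ ≤ 3 := (norm_add_le _ _).trans (by rw [norm_one]; linarith)
    calc _ ≤ 2 * u ^ 2 * 3 := mul_le_mul hκ' this (norm_nonneg _) (by positivity)
      _ = _ := by ring
  have n2 : kk a x0 * ‖1 - (1 + κ) ^ 2‖ ≤ ε := by
    calc _ ≤ 3 / 2 * ε * x0 * (6 * u ^ 2) := mul_le_mul k1 e2 (norm_nonneg _) (by positivity)
      _ = 9 * ε * (u * x0) * u := by ring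
      _ ≤ 9 * ε * 1 * (1 / 100) := by gcongr
      _ ≤ ε := by linarith
  refine ⟨?_, by linarith, ?_, by linarith, by linarith, by linarith, by linarith, by linarith,
    by linarith, ?_, ?_, ?_⟩
  · have e : (1 + κ) ^ 2 * x / 2 + kx - (1 + κ) * x0 / 2 =
        (1 + κ) * (κ * x + (x - x0)) / 2 + kx := by ring
    have b1 : ‖κ * x‖ ≤ 3 * u := by
      rw [norm_mul]
      calc _ ≤ 2 * u ^ 2 * (x0 + u) := mul_le_mul hκ' xle (norm_nonneg _) (by positivity)
        _ = 2 * u * (u * x0 + u * u) := by ring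
        _ ≤ 2 * u * (1 + 1 / 100 * (1 / 100)) := by gcongr
        _ ≤ 3 * u := by linarith
    have b2 : ‖(1 + κ) * (κ * x + (x - x0)) / 2 + kx‖ ≤ 10 * u := by
      refine (norm_add_le _ _).trans ?_
      rw [norm_div, norm_mul, norm_ofNat]
      have : ‖κ * x + (x - x0)‖ ≤ 4 * u := (norm_add_le _ _).trans (by linarith)
      have := mul_le_mul ele this (norm_nonneg _) (by norm_num)
      linarith
    rw [e]
    calc _ ≤ 3 / 2 * ε * x0 * (10 * u) := mul_le_mul k1 b2 (norm_nonneg _) (by positivity)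
      _ ≤ 3 / 2 * ε * x0 * (10 * (1 / 100)) := by gcongr
      _ < δ * x0 := by nlinarith
  · have e : 1 - (1 + κ) ^ 2 * et a x0 / et a x =
        ((et a x - et a x0) + (1 - (1 + κ) ^ 2) * et a x0) / et a x := by field_simp; ring
    rw [e, norm_div, ← mul_div_assoc, div_lt_iff₀ nη]
    have b1 : kk a x0 * ‖et a x - et a x0‖ ≤ 2 * ε ^ 2 * ‖et a x0‖ := by
      calc _ ≤ kk a x0 * (2 * ε ^ 2 * (et a x0).re) := mul_le_mul_of_nonneg_left de k0
        _ = 2 * ε ^ 2 * (kk a x0 * (et a x0).re) := by ring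
        _ = _ := by rw [k2]
    have b2 : kk a x0 * ‖(1 - (1 + κ) ^ 2) * et a x0‖ ≤ ε * ‖et a x0‖ := by
      rw [norm_mul, ← mul_assoc]; exact mul_le_mul_of_nonneg_right n2 (norm_nonneg _)
    have b3 := mul_le_mul_of_nonneg_left (norm_add_le (et a x - et a x0)
      ((1 - (1 + κ) ^ 2) * et a x0)) k0
    have b4 : (2 * ε ^ 2 + ε) * ‖et a x0‖ ≤ (2 * ε) * (10 / 9 * ‖et a x‖) :=
      mul_le_mul (by linarith) n4 (norm_nonneg _) (by positivity)
    have b5 : 100 * ε * ‖et a x‖ ≤ δ * ‖et a x‖ := mul_le_mul_of_nonneg_right hδ nη.le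
    have b6 : 0 < ε * ‖et a x‖ := by positivity
    nlinarith
  · rw [norm_mul, norm_pow]
    have := mul_le_mul_of_nonneg_left x2 (norm_nonneg a)
    nlinarith
  · have := h.a_le_three
    nlinarith
  · rw [norm_div, norm_mul, norm_pow, norm_pow, ← mul_div_assoc, div_le_iff₀ nη]
    have b1 : kk a x0 * ‖a‖ ≤ 5 / 4 * ‖et a x0‖ / K := by
      rw [le_div_iff₀ hK]
      calc _ = kk a x0 * (K * ‖a‖) := by ring
        _ ≤ kk a x0 * (5 / 4 * (et a x0).re) := mul_le_mul_of_nonneg_left haK k0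
        _ = 5 / 4 * (kk a x0 * (et a x0).re) := by ring
        _ = _ := by rw [k2]
    have a0 := norm_nonneg a
    calc _ = kk a x0 * ‖a‖ * (‖a‖ * ‖x‖ ^ 2) := by ring
      _ ≤ 5 / 4 * ‖et a x0‖ / K * (‖a‖ * (11 / 10 * X0 ^ 2)) := by gcongr
      _ ≤ 5 / 4 * (10 / 9 * ‖et a x‖) / K * (‖a‖ * (11 / 10 * X0 ^ 2)) := by gcongr
      _ = 55 / 36 * (‖a‖ * X0 ^ 2 / K * ‖et a x‖) := by ring
      _ ≤ 3 * (‖a‖ * X0 ^ 2 / K * ‖et a x‖) := by gcongr; norm_num
      _ = _ := by ring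

end NrH

theorem nrS_holds : NrS := by
  intro g g' hg δ hδ
  obtain ⟨c, G⟩ := hg.gg
  set ε := min (1 / 1000) (δ / 100) with hε
  have ε0 : 0 < ε := lt_min (by norm_num) (by positivity)
  have ε1 : ε ≤ 1 / 1000 := min_le_left _ _
  have ε2 : 100 * ε ≤ δ := by have : ε ≤ δ / 100 := min_le_right _ _; linarith
  have ε3 : ε ^ 2 ≤ 1 / 10 ^ 5 := by nlinarith
  refine ⟨4 / ε ^ 2, 4 / ε ^ 2, 3, by norm_num, fun R K hR hK X a h1 h2 h3 h4 => ?_⟩
  have hp : 0 < 4 / ε ^ 2 := by positivity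
  have R0 : 0 < R := hp.trans_le hR
  have K0 : 0 < K := hp.trans_le hK
  have hRX : R + 2 ≤ X.re := by linarith
  have X0 : 0 < X.re := by linarith
  have ok := h4.ok' ε3 (by positivity) hR hK h1.le h2.le
  have K4 := four_le_of_sqrt K0.le h2.le
  have hpt : ∀ s : II, Pt (ε ^ 2) a (xr R X.re s) := fun s => ok.pt (xr_mem' hRX s)
  have hsq : ∀ s : II, xr R X.re s ^ 2 ≤ X.re ^ 2 := fun s =>
    pow_le_pow_left₀ (hpt s).xpos.le (xr_mem' hRX s).2 2
  have hrho : ∀ s : II, rho K X.re (xr R X.re s) ≤ (et a (xr R X.re s)).re := fun s =>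
    h4.rho_le X0 (by nlinarith [(hpt s).x_ge])
  have hXX : ‖X - (X.re : ℝ)‖ ≤ X.re⁻¹ := by
    have : X - (X.re : ℝ) = (X.im : ℝ) * I := by
      linear_combination -re_add_im X
    rw [this]; simpa using h3.le
  refine ⟨⟨hRX, fun s => ?_⟩, fun s => ?_⟩
  · have h := hpt s
    refine ⟨by linarith [h.x_ge], lt_of_lt_of_le (by positivity) (rho_ge K0.le X0 K4 (hsq s)),
      hrho s, h.norm_le, (h.W_le' G).trans (by linarith [h.repos]), ?_⟩
    refine h.x_le.trans ?_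
    rw [mul_assoc]
    exact mul_le_mul_of_nonneg_right (by nlinarith) (by have := h.repos; positivity)
  · rw [gam_sub_xr, Cv.eC_eq hRX, Cv.kC_eq hRX, ContinuousMap.add_apply, ContinuousMap.one_apply]
    refine NrH.nrP (hpt s) ε0 ε1 ε2 (xr_mem' hRX s).2 (h4.norm_le K0.le) K0
      ((h4.a_le_rho K0.le X0 K4 (hsq s)).trans (by linarith [hrho s])) ?_ ?_ ?_
    · rw [abs_mul, abs_of_nonneg (pow_nonneg (cub_nonneg _) 3)]
      exact (mul_le_of_le_one_right (abs_nonneg _) (cub_pow_le_one s 3)).trans h3.le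
    · refine (ContinuousMap.norm_coe_le_norm _ s).trans ((norm_kap (by linarith) X).trans ?_)
      rw [div_le_div_iff₀ (by linarith) (by positivity)]
      have : ‖X - (X.re : ℝ)‖ * X.re ≤ 1 := by
        have := mul_le_mul_of_nonneg_right hXX X0.le
        rwa [inv_mul_cancel₀ X0.ne'] at this
      nlinarith
    · refine (ContinuousMap.norm_coe_le_norm _ s).trans ((norm_kapx hRX X).trans ?_)
      rw [div_eq_mul_inv]; linarith

end Crest.Agent.N250.B1

end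
end

-- ▼ part N250/B1/EndStab
section

/-!
# Row 250, B1 (helper72): stability of the nearness conditions (`StabS`)

Strict inequalities between jointly continuous functions of `(parameter, s)` persist near the base
parameter, uniformly in `s` in the compact interval.
-/

set_option autoImplicit false
open Set Complex Filter Topology

noncomputable section

namespace Crest.Agent.N250.B1

namespace Stab

theorem ev_lt {P : Type} [TopologicalSpace P] {p0 : P} {F G : P × II → ℝ}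
    (hF : ∀ s, ContinuousAt F (p0, s)) (hG : ∀ s, ContinuousAt G (p0, s))
    (h : ∀ s, F (p0, s) < G (p0, s)) : ∀ᶠ p in 𝓝 p0, ∀ s, F (p, s) < G (p, s) := by
  have := isCompact_univ.eventually_forall_of_forall_eventually (x₀ := p0)
    (P := fun p (s : II) => F (p, s) < G (p, s)) (fun s _ => (hF s).eventually_lt (hG s) (h s))
  simpa using this

/-- a positive jointly continuous weight changes by at most a factor `2` -/
theorem ev_two {P : Type} [TopologicalSpace P] {p0 : P} {F : P × II → ℝ}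
    (hF : ∀ s, ContinuousAt F (p0, s)) (h : ∀ s, 0 < F (p0, s)) :
    ∀ᶠ p in 𝓝 p0, ∀ s, F (p0, s) ≤ 2 * F (p, s) := by
  have h1 : ∀ s, ContinuousAt (fun q : P × II => F (p0, q.2)) (p0, s) := fun s =>
    ContinuousAt.comp (f := fun q : P × II => (p0, q.2)) (hF s) (by fun_prop)
  exact (ev_lt (F := fun q : P × II => F (p0, q.2)) (G := fun q => 2 * F q) h1
    (fun s => continuousAt_const.mul (hF s)) fun s => by linarith [h s]).mono
    fun p hp s => (hp s).le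

abbrev PP : Type := (ℂ × ℂ) × II

theorem c_x0 (R X0 : ℝ) : Continuous fun q : PP => xr R X0 q.2 :=
  (continuous_xr R X0).comp (by fun_prop)

theorem c_x (R : ℝ) : Continuous fun q : PP => gam R q.1.1 q.2 := by
  simp only [gam_apply]
  have := continuous_cub
  fun_prop

theorem c_e (R X0 : ℝ) : Continuous fun q : PP => eC R X0 q.1.1 q.2 := by
  simp only [eC, ContinuousMap.mul_apply, dgam_apply R _ (_ : PP).2]
  have := continuous_cub
  fun_prop

theorem c_k (R X0 : ℝ) : Continuous fun q : PP => kC R X0 q.1.1 q.2 := by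
  simp only [kC, ContinuousMap.smul_apply, smul_eq_mul]
  fun_prop

theorem c_et {Y : Type} [TopologicalSpace Y] {a x : Y → ℂ} (ha : Continuous a) (hx : Continuous x) :
    Continuous fun y => et (a y) (x y) := by
  unfold et; fun_prop

theorem c_xr (R : ℝ) : Continuous fun q : PP => xr R q.1.1.re q.2 := by
  unfold xr
  have := continuous_cub
  fun_prop

theorem nrP_ev {Y : Type} [TopologicalSpace Y] {y0 : Y} {a0 : ℂ} {δ A η : ℝ} {x0 : Y → ℝ}
    {a x e k : Y → ℂ} (hx0 : Continuous x0) (ha : Continuous a) (hx : Continuous x)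
    (he : Continuous e) (hk : Continuous k) (hp : 0 < (et a0 (x0 y0)).re)
    (h : NrP a0 (a y0) δ A (x0 y0) (x y0) (e y0) (k y0)) (hη : 0 < η) :
    ∀ᶠ y in 𝓝 y0, NrP a0 (a y) δ (A + η) (x0 y) (x y) (e y) (k y) := by
  have hx0' : Continuous fun y => ((x0 y : ℝ) : ℂ) := continuous_ofReal.comp hx0
  have het0 : Continuous fun y => et a0 (x0 y : ℝ) := c_et continuous_const hx0'
  have het : Continuous fun y => et (a y) (x y) := c_et ha hx
  have hkk : ContinuousAt (fun y => kk a0 (x0 y)) y0 :=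
    het0.norm.continuousAt.div (continuous_re.comp het0).continuousAt hp.ne'
  have hne : et (a y0) (x y0) ≠ 0 := fun h0 => by
    have := h.n4
    rw [h0, norm_zero] at this
    linarith [norm_nonneg (et a0 (x0 y0 : ℝ))]
  have e1 := ContinuousAt.eventually_lt
    (f := fun y => kk a0 (x0 y) * ‖e y ^ 2 * x y / 2 + k y - e y * (x0 y : ℝ) / 2‖)
    (g := fun y => δ * x0 y) (hkk.mul (Continuous.continuousAt (by fun_prop)))
    (Continuous.continuousAt (by fun_prop)) h.n1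
  have e2 := ContinuousAt.eventually_lt (f := fun y => kk a0 (x0 y) * ‖1 - e y ^ 2‖)
    (g := fun _ => δ) (hkk.mul (Continuous.continuousAt (by fun_prop))) continuousAt_const h.n2
  have e3 := ContinuousAt.eventually_lt
    (f := fun y => kk a0 (x0 y) * ‖1 - e y ^ 2 * et a0 (x0 y : ℝ) / et (a y) (x y)‖)
    (g := fun _ => δ) (hkk.mul (continuousAt_const.sub
      (((he.pow 2).mul het0).continuousAt.div het.continuousAt hne)).norm) continuousAt_const h.n3
  have e4 := het0.norm.continuousAt.eventually_lt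
    (g := fun y => 2 * ‖et (a y) (x y)‖) (continuous_const.mul het.norm).continuousAt h.n4
  have e5 := hx.norm.continuousAt.eventually_lt
    (g := fun y => 2 * x0 y) (continuous_const.mul hx0).continuousAt h.n5
  have e5' := hx0.continuousAt.eventually_lt
    (g := fun y => 2 * ‖x y‖) (continuous_const.mul hx.norm).continuousAt h.n5'
  have e6 := he.norm.continuousAt.eventually_lt (g := fun _ => 2) continuousAt_const h.n6
  have e6' := ContinuousAt.eventually_lt (f := fun _ => (1 : ℝ)) (g := fun y => 2 * ‖e y‖)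
    continuousAt_const (continuous_const.mul he.norm).continuousAt h.n6'
  have e7 := hk.norm.continuousAt.eventually_lt hx0.continuousAt h.n7
  have e8 := (ha.mul (hx.pow 2)).norm.continuousAt.eventually_lt (g := fun _ => 3)
    continuousAt_const h.n8
  have e8' := ha.norm.continuousAt.eventually_lt (g := fun _ => 1 / 2) continuousAt_const h.n8'
  have e9 := ContinuousAt.eventually_lt
    (f := fun y => kk a0 (x0 y) * ‖a y ^ 2 * x y ^ 2 / et (a y) (x y)‖) (g := fun _ => A + η)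
    (hkk.mul (((ha.pow 2).mul (hx.pow 2)).continuousAt.div het.continuousAt hne).norm)
    continuousAt_const (h.n9.trans_lt (by linarith))
  filter_upwards [e1, e2, e3, e4, e5, e5', e6, e6', e7, e8, e8', e9] with
    y e1 e2 e3 e4 e5 e5' e6 e6' e7 e8 e8' e9
  exact ⟨e1, e2, e3, e4, e5, e5', e6, e6', e7, e8, e8', e9.le⟩

theorem nr_ev {R K g g' X0 ν δ A : ℝ} {a0 : ℂ} {p0 : ℂ × ℂ} (hB : Bs R K g g' X0 a0 ν)
    (hN : Nr R X0 a0 δ A p0.1 p0.2) {η : ℝ} (hη : 0 < η) :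
    ∀ᶠ p : ℂ × ℂ in 𝓝 p0, Nr R X0 a0 δ (A + η) p.1 p.2 := by
  have := isCompact_univ.eventually_forall_of_forall_eventually (x₀ := p0)
    (P := fun (p : ℂ × ℂ) (s : II) => NrP a0 p.2 δ (A + η) (xr R X0 s) (gam R p.1 s) (eC R X0 p.1 s)
      (kC R X0 p.1 s)) fun s _ =>
    nrP_ev (y0 := ((p0, s) : PP)) (a := fun q => q.1.2) (c_x0 R X0) (by fun_prop) (c_x R) (c_e R X0)
      (c_k R X0) (hB.2 s).re_pos (hN s) hη
  exact this.mono fun p hp s => hp s trivial

theorem inB_ev {R K g g' ν : ℝ} {p0 : ℂ × ℂ} (hB : Bs R K g g' p0.1.re p0.2 ν) (ℓ : Ell) :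
    ∀ᶠ p : ℂ × ℂ in 𝓝 p0, ∀ (M : ℝ) (J : Jt ℓ), InB R K g g' p0.1.re p0.2 M J →
      InB R K g g' p.1.re p.2 (2 * M) J := by
  have hx := c_xr R
  have hx' : Continuous fun q : PP => ((xr R q.1.1.re q.2 : ℝ) : ℂ) := continuous_ofReal.comp hx
  have ha : Continuous fun q : PP => q.1.2 := by fun_prop
  have hX : Continuous fun q : PP => q.1.1.re := by fun_prop
  have het : Continuous fun q : PP => ‖et q.1.2 (xr R q.1.1.re q.2 : ℝ)‖ := (c_et ha hx').norm
  have hX0 : p0.1.re ^ 2 ≠ 0 := by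
    have h1 := (hB.2 i0).one_le
    rw [xr_i0] at h1
    exact pow_ne_zero 2 (by linarith [hB.1] : 0 < p0.1.re).ne'
  have hrho : ∀ s : II, ContinuousAt (fun q : PP => rho K q.1.1.re (xr R q.1.1.re q.2)) (p0, s) :=
    fun s => continuousAt_const.sub
      ((((hx.pow 2).sub continuous_const).continuousAt.div (hX.pow 2).continuousAt hX0).mul
        (continuousAt_const.sub (continuousAt_const.div (hX.pow 2).continuousAt hX0)))
  have hW : ∀ s : II, ContinuousAt (fun q : PP => W g g' q.1.2 (xr R q.1.1.re q.2)) (p0, s) :=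
    fun s => (hx.continuousAt.rpow_const (Or.inl (hB.2 s).x_pos.ne')).mul
      (het.continuousAt.rpow_const (Or.inl (hB.2 s).norm_pos.ne'))
  have px := fun s : II => (hB.2 s).x_pos
  have pn := fun s : II => (hB.2 s).norm_pos
  have pW := fun s : II => (hB.2 s).W_pos
  have pr := fun s : II => (hB.2 s).rho_pos
  have e0 := ev_two hrho pr
  have e1 := ev_two hW pW
  have e2 := ev_two (p0 := p0) (F := fun q : PP => (xr R q.1.1.re q.2)⁻¹)
    (fun s => hx.continuousAt.inv₀ (px s).ne') fun s => inv_pos.2 (px s)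
  have e3 := ev_two (p0 := p0) (F := fun q : PP => W g g' q.1.2 (xr R q.1.1.re q.2) /
      (xr R q.1.1.re q.2 * ‖et q.1.2 (xr R q.1.1.re q.2 : ℝ)‖))
    (fun s => (hW s).div (hx.mul het).continuousAt (mul_pos (px s) (pn s)).ne')
    fun s => div_pos (pW s) (mul_pos (px s) (pn s))
  have e4 := ev_two (p0 := p0) (F := fun q : PP => W g g' q.1.2 (xr R q.1.1.re q.2) /
      ‖et q.1.2 (xr R q.1.1.re q.2 : ℝ)‖)
    (fun s => (hW s).div het.continuousAt (pn s).ne') fun s => div_pos (pW s) (pn s)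
  have e5 := ev_two (p0 := p0)
    (F := fun q : PP => xr R q.1.1.re q.2 * W g g' q.1.2 (xr R q.1.1.re q.2))
    (fun s => hx.continuousAt.mul (hW s)) fun s => mul_pos (px s) (pW s)
  have h12 : ∀ _ : II, (1 : ℝ) ≤ 2 * 1 := fun _ => by norm_num
  filter_upwards [e0, e1, e2, e3, e4, e5] with p e0 e1 e2 e3 e4 e5 M J h
  exact ⟨h.b0.wt pr pW zero_le_two e0 e1,
    h.b1.wt (fun s => inv_pos.2 (px s)) (fun s => div_pos (pW s) (mul_pos (px s) (pn s)))
      zero_le_two e2 e3,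
    h.b2.wt (fun _ => one_pos) (fun s => div_pos (pW s) (pn s)) zero_le_two h12 e4,
    h.b3.wt (fun _ => one_pos) pW zero_le_two h12 e1,
    h.b4.wt (fun _ => one_pos) (fun s => mul_pos (px s) (pW s)) zero_le_two h12 e5,
    h.b5.wt (fun _ => one_pos) pW zero_le_two h12 e1⟩

theorem dn_cont (ℓ : Ell) (R g g' X : ℝ) (a : ℂ) : Continuous (dn (ℓ := ℓ) R g g' X a) := by
  have h1 : Continuous fun D : Dat ℓ => Wi.co D.2.1 0 :=
    (Wi.coL (omF ℓ) 0).continuous.comp (by fun_prop)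
  have h2 : Continuous fun D : Dat ℓ => Wi.single (omF ℓ) 0 (Wi.co D.2.1 0) :=
    (map_continuous (Wi.cst (omF ℓ))).comp h1
  unfold dn
  fun_prop

end Stab

theorem stabS_holds : StabS := by
  intro ℓ R K g g' ν δ A z0 hB hN η hη
  have hc : ContinuousAt (fun z : Par ℓ => (z.1, z.2.1)) z0 := by fun_prop
  have h1 := hc.eventually (Stab.nr_ev (p0 := (z0.1, z0.2.1)) hB hN hη)
  have h2 := hc.eventually (Stab.inB_ev (p0 := (z0.1, z0.2.1)) hB ℓ)
  have h3 := ContinuousAt.eventually_lt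
    (f := fun z : Par ℓ => dn R g g' z0.1.re z0.2.1 z.2.2)
    (g := fun _ => dn R g g' z0.1.re z0.2.1 z0.2.2 + η) (x₀ := z0)
    ((Stab.dn_cont ℓ R g g' _ _).comp (by fun_prop)).continuousAt continuousAt_const (by linarith)
  filter_upwards [h1, h2, h3] with z h1 h2 h3
  exact ⟨h1, h3, h2⟩

end Crest.Agent.N250.B1

end
end

-- ▼ part N250/B1/EndSrc
section

/-!
# Row 250, B1 (helper43): the size of the source (`SrcS`)
-/

set_option autoImplicit false
set_option linter.unusedSectionVars false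
open Set Complex Filter Topology

noncomputable section

namespace Crest.Agent.N250

namespace Nl
variable {R : Type*} [NormedCommRing R] [NormOneClass R] [NormedAlgebra ℂ R] [CompleteSpace R]

/-- variant of `Sm.G_le` with `|k n Z²|` as a hypothesis -/
theorem G_le4 {y T TT Z S V n k : R} {a b : ℝ} (hy : ‖y‖ ≤ 1 / 4) (hT : ‖T‖ ≤ 1 / 2)
    (hTT : ‖TT‖ ≤ 1) (hZ : ‖Z‖ ≤ 4) (hV : ‖V‖ ≤ 1) (hn : ‖n‖ ≤ 1 / 64)
    (h1 : ‖k * (y * TT)‖ ≤ a) (h2 : ‖k * (T * T)‖ ≤ a) (h3 : ‖k * (T * S)‖ ≤ a)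
    (h4 : ‖k * n * Z ^ 2‖ ≤ b) : ‖k * G y T TT Z S V n‖ ≤ 25 * a + 2 * b := by
  have ha : 0 ≤ a := (norm_nonneg _).trans h1
  have hu : ‖uu y‖ ≤ 2 := inv_le (hy.trans (by norm_num))
  have hj : ‖jj y T Z n‖ ≤ 2 := inv_le (Qm_le4 hy hT hZ hn)
  have hh := hf_le (R := R)
  have hV' : ‖1 + V‖ ≤ 1 + 1 := add_le norm_one.le hV
  have e : k * G y T TT Z S V n = hf R * uu y * (k * (y * TT)) +
      hf R ^ 2 * uu y ^ 2 * (k * (T * T)) +
      jj y T Z n * (hf R * (1 + V) * (k * n * Z ^ 2) + hf R * uu y * Z * (k * (T * S)) -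
        hf R ^ 3 * uu y ^ 2 * n * Z ^ 2 * (k * (T * T)) + hf R ^ 2 * uu y * (k * (T * T)) +
        hf R ^ 3 * uu y ^ 2 * TT * (k * (T * T)) -
        hf R ^ 4 * uu y ^ 3 * T ^ 2 * (k * (T * T))) := by
    rw [G, Gp]; ring
  rw [e]
  refine (add_le (add_le (mul_le (mul_le hh hu) h1)
    (mul_le (mul_le (pow_le hh 2) (pow_le hu 2)) h2)) (mul_le hj
      (sub_le (add_le (add_le (sub_le (add_le
        (mul_le (mul_le hh hV') h4)
        (mul_le (mul_le (mul_le hh hu) hZ) h3))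
        (mul_le (mul_le (mul_le (mul_le (pow_le hh 3) (pow_le hu 2)) hn) (pow_le hZ 2)) h2))
        (mul_le (mul_le (pow_le hh 2) hu) h2))
        (mul_le (mul_le (mul_le (pow_le hh 3) (pow_le hu 2)) hTT) h2))
        (mul_le (mul_le (mul_le (pow_le hh 4) (pow_le hu 3)) (pow_le hT 2)) h2)))).trans ?_
  nlinarith

end Nl

namespace B1

namespace Src

variable {ℓ : Ell} {R K g g' X0 ν δ A M : ℝ} {a0 X a : ℂ} {J : Jt ℓ}

section pt
variable {x0 : ℝ} {x e kx : ℂ}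

theorem kk_pos (hb : BsP K g g' X0 a0 ν x0) : 0 < kk a0 x0 := div_pos hb.norm_pos hb.re_pos

theorem kk_t (hb : BsP K g g' X0 a0 ν x0) :
    kk a0 x0 * (W g g' a0 x0 / ‖et a0 x0‖) ≤ 1 := by
  have := hb.norm_pos
  have := hb.re_pos
  rw [kk, div_mul_div_comm, div_le_one (by positivity), mul_comm]
  gcongr
  exact hb.W_le

theorem kk_et (hb : BsP K g g' X0 a0 ν x0) (h : NrP a0 a δ A x0 x e kx) {t : ℝ}
    (ht : t ≤ (et a0 x0).re) : kk a0 x0 * ‖(et a x)⁻¹‖ * t ≤ 2 * 1 := by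
  have h1 := h.inv_et_le hb le_rfl
  have h2 := hb.re_pos
  have h3 := kk_pos hb
  calc _ ≤ kk a0 x0 * ‖(et a x)⁻¹‖ * (et a0 x0).re := by gcongr
    _ = ‖(et a x)⁻¹‖ * ‖et a0 x0‖ := by rw [kk]; field_simp
    _ ≤ _ := by linarith

theorem et_W (hb : BsP K g g' X0 a0 ν x0) (h : NrP a0 a δ A x0 x e kx) :
    ‖(et a x)⁻¹‖ * W g g' a0 x0 ≤ 2 * (W g g' a0 x0 / ‖et a0 x0‖) := by
  have h1 := h.inv_et_le hb le_rfl
  have h2 := hb.norm_pos
  have h3 := hb.W_pos
  calc _ = ‖(et a x)⁻¹‖ * ‖et a0 x0‖ * (W g g' a0 x0 / ‖et a0 x0‖) := by field_simp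
    _ ≤ _ := by gcongr

theorem xet_W (hb : BsP K g g' X0 a0 ν x0) (h : NrP a0 a δ A x0 x e kx) :
    ‖(x * et a x)⁻¹‖ * (x0 * W g g' a0 x0) ≤ 4 * (W g g' a0 x0 / ‖et a0 x0‖) := by
  have h1 := et_W hb h
  have h2 : ‖x⁻¹‖ * x0 ≤ 2 := by
    rw [norm_inv, inv_mul_le_iff₀ (norm_pos_iff.2 (h.x_ne hb))]; linarith [h.n5']
  have h3 := hb.W_pos
  calc _ = ‖x⁻¹‖ * x0 * (‖(et a x)⁻¹‖ * W g g' a0 x0) := by rw [mul_inv, norm_mul]; ring
    _ ≤ 2 * (2 * (W g g' a0 x0 / ‖et a0 x0‖)) := by gcongr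
    _ = _ := by ring

theorem b1_le (hb : BsP K g g' X0 a0 ν x0) {c d : ℝ} (h : c ≤ d * x0) :
    c * x0⁻¹ ≤ d * 1 ∧ c * (W g g' a0 x0 / (x0 * ‖et a0 x0‖)) ≤ d * (W g g' a0 x0 / ‖et a0 x0‖) := by
  have h2 := hb.norm_pos
  have h3 := hb.W_pos
  have h4 := hb.x_pos
  refine ⟨by rwa [mul_inv_le_iff₀ h4, mul_one], ?_⟩
  calc _ ≤ d * x0 * (W g g' a0 x0 / (x0 * ‖et a0 x0‖)) := by gcongr
    _ = _ := by field_simp

theorem kk_n (hb : BsP K g g' X0 a0 ν x0) (h : NrP a0 a δ A x0 x e kx) :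
    kk a0 x0 * ‖(x ^ 2 * et a x)⁻¹‖ ≤ 8 * ν := by
  refine le_trans (le_of_eq ?_) (h.n_le hb)
  rw [kk]; ring

theorem kk_np (hb : BsP K g g' X0 a0 ν x0) (h : NrP a0 a δ A x0 x e kx) :
    kk a0 x0 * ‖(x ^ 2 * et a x)⁻¹‖ * ‖a * x ^ 2‖ ^ 2 ≤ A := by
  refine le_trans (le_of_eq ?_) h.n9
  have := h.x_ne hb
  have := h.et_ne hb
  rw [mul_assoc, ← norm_pow, ← norm_mul]
  congr 2
  field_simp

theorem b5_le (hb : BsP K g g' X0 a0 ν x0) (h : NrP a0 a δ A x0 x e kx) :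
    kk a0 x0 * ‖(1 / 2 : ℂ) * ((et a0 x0)⁻¹ - e ^ 2 * (et a x)⁻¹)‖ * W g g' a0 x0 ≤
      δ * (W g g' a0 x0 / ‖et a0 x0‖) := by
  have h1 := h.et_ne hb
  have h2 := hb.norm_pos
  have h3 := hb.W_pos
  have h4 := norm_pos_iff.1 h2
  have h5 := kk_pos hb
  have e1 : (1 / 2 : ℂ) * ((et a0 x0)⁻¹ - e ^ 2 * (et a x)⁻¹) =
      (1 - e ^ 2 * et a0 x0 / et a x) / (2 * et a0 x0) := by field_simp
  have h6 := h.n3.le
  have h7 : 0 ≤ δ := le_trans (by positivity) h6
  rw [e1, norm_div, norm_mul, Complex.norm_two]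
  calc _ = kk a0 x0 * ‖1 - e ^ 2 * et a0 x0 / et a x‖ * (W g g' a0 x0 / ‖et a0 x0‖) / 2 := by
        field_simp
    _ ≤ δ * (W g g' a0 x0 / ‖et a0 x0‖) / 2 := by gcongr
    _ ≤ _ := half_le_self (by positivity)

end pt

variable {θ : Nl.Th CI} {k : CI}

theorem up_cm (hb : Bs R K g g' X0 a0 ν)
    (hθ : ∀ s : II, θ.t s = (W g g' a0 (xr R X0 s) / ‖et a0 (xr R X0 s)‖ : ℝ))
    {f0 f : ℝ → ℝ} {u : Wi (om ℓ)} (h : WB R X0 f0 f u M) (h0 : ∀ s : II, 0 < f0 (xr R X0 s))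
    (h1 : ∀ s : II, 0 < f (xr R X0 s)) {B : ℝ} {φ : CI} (hB : 0 ≤ B)
    (e0 : Wi.co u 0 = 0 ∨ ∀ s : II, ‖φ s‖ * f0 (xr R X0 s) ≤ B * 1)
    (e1 : ∀ s : II, ‖φ s‖ * f (xr R X0 s) ≤ B * (W g g' a0 (xr R X0 s) / ‖et a0 (xr R X0 s)‖)) :
    ‖Nl.up θ (cm φ u)‖ ≤ B * M :=
  (wb_up_iff θ (t := fun x => W g g' a0 x / ‖et a0 x‖) fun s => by
    rw [hθ, norm_real, Real.norm_of_nonneg (div_pos (hb.2 s).W_pos (hb.2 s).norm_pos).le]).1
    (h.cm h0 h1 hB (e0.imp_left fun e => ⟨e, fun _ => zero_le_one⟩) e1)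

theorem norm_k (hb : Bs R K g g' X0 a0 ν) (hk : ∀ s : II, k s = kk a0 (xr R X0 s)) (φ : CI)
    (s : II) : ‖(k * φ) s‖ = kk a0 (xr R X0 s) * ‖φ s‖ := by
  rw [ContinuousMap.mul_apply, norm_mul, hk, norm_real, Real.norm_of_nonneg (kk_pos (hb.2 s)).le]

/-- the nonlinear part -/
theorem GJ_le (hb : Bs R K g g' X0 a0 ν) (h : Nr R X0 a0 δ A X a) (hν : ν ≤ 1 / 1000)
    (hJ : InB R K g g' X0 a0 M J) (hM : 32 * M ≤ 1) (h3 : Wi.co (J 3) 0 = 0)
    (h4 : Wi.co (J 4) 0 = 0) (h5 : Wi.co (J 5) 0 = 0)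
    (hθ : ∀ s : II, θ.t s = (W g g' a0 (xr R X0 s) / ‖et a0 (xr R X0 s)‖ : ℝ))
    (hk : ∀ s : II, k s = kk a0 (xr R X0 s)) :
    ‖Wi.cst _ k * Nl.up θ (GJ R X a J)‖ ≤ 202 * M ^ 2 + 4 * A := by
  have M0 := hJ.nonneg hb
  have pW := fun s : II => (hb.2 s).W_pos
  have p1 : ∀ _ : II, (0 : ℝ) < 1 := fun _ => one_pos
  have hG : Nl.Gain (Nl.scale (om ℓ) θ) k 1 := Nl.gain_scale (norm_le_pt fun s => by
    rw [norm_k hb hk, hθ, norm_real,
      Real.norm_of_nonneg (div_pos (hb.2 s).W_pos (hb.2 s).norm_pos).le]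
    exact kk_t (hb.2 s))
  have eW : ∀ s : II, ‖iv (etC R X a) s‖ * W g g' a0 (xr R X0 s) ≤
      2 * (W g g' a0 (xr R X0 s) / ‖et a0 (xr R X0 s)‖) := fun s => by
    rw [h.iv_etC hb]; exact et_W (hb.2 s) (h s)
  have hy := up_cm hb hθ hJ.b0 (fun s => (hb.2 s).rho_pos) pW zero_le_two (Or.inr fun s => by
    rw [h.iv_etC hb, mul_one]; exact (h s).inv_et_le (hb.2 s) (hb.2 s).rho_le_norm) eW
  have hT := up_cm hb hθ hJ.b3 p1 pW zero_le_two (Or.inl h3) eW
  have hTT := up_cm hb hθ hJ.b5 p1 pW zero_le_two (Or.inl h5) eW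
  have hS := up_cm hb hθ hJ.b4 p1 (fun s => mul_pos (hb.2 s).x_pos (pW s))
    (φ := iv (gam R X * etC R X a)) zero_le_four (Or.inl h4) fun s => by
      rw [h.iv_xe hb]; exact xet_W (hb.2 s) (h s)
  have hP := up_cm hb hθ hJ.b1 (fun s => inv_pos.2 (hb.2 s).x_pos)
    (fun s => div_pos (pW s) (mul_pos (hb.2 s).x_pos (hb.2 s).norm_pos)) (φ := gam R X) zero_le_two
    (Or.inr fun s => (b1_le (hb.2 s) (h s).n5.le).1) fun s => (b1_le (hb.2 s) (h s).n5.le).2
  have hQ : ‖Nl.up θ (J 2)‖ ≤ 1 * M := by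
    simpa [cm] using up_cm hb hθ hJ.b2 p1 (fun s => div_pos (pW s) (hb.2 s).norm_pos) (φ := 1)
      zero_le_one (Or.inr fun s => by simp) fun s => by simp
  have hy0 : ‖k * Wi.co (Nl.up θ (cm (iv (etC R X a)) (J 0))) 0‖ ≤ 2 * M := by
    have := (wb_one_iff (R := R) (X := X0)).1 (hJ.b0.cm (fun s => (hb.2 s).rho_pos) pW
      (φ := k * iv (etC R X a)) zero_le_two (Or.inr fun s => by
        rw [norm_k hb hk, h.iv_etC hb]; exact kk_et (hb.2 s) (h s) (hb.2 s).rho_le) fun s => by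
        rw [norm_k hb hk, h.iv_etC hb]; exact kk_et (hb.2 s) (h s) (hb.2 s).W_le)
    refine le_trans (le_of_eq ?_) ((Wi.norm_co_le _ 0).trans this)
    rw [Nl.co_up, Wi.co_cst_mul, Wi.co_cst_mul, mul_assoc]
  have z : ∀ (φ : CI) (u : Wi (om ℓ)), Wi.co u 0 = 0 → Wi.co (Nl.up θ (cm φ u)) 0 = 0 :=
    fun φ u hu => by rw [Nl.co_up, Wi.co_cst_mul, hu, mul_zero]
  obtain ⟨u1, u2⟩ := unitsJ hb h hν hJ hM h3
  rw [GJ, Nl.map_G (Nl.up θ) _ _ _ u1 u2, map_add, map_add, Nl.up_cst, Nl.up_cst, Nl.up_cst]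
  set n := iv (gam R X ^ 2 * etC R X a) with hn
  set p := a • gam R X ^ 2 with hp
  set P := Nl.up θ (cm (gam R X) (J 1))
  have hpn : ‖p‖ ≤ 3 := norm_le_pt fun s => (h s).n8.le
  have hnn : ‖n‖ ≤ 8 * ν := norm_le_pt fun s => by rw [h.iv_xxe hb]; exact (h s).n_le' (hb.2 s)
  have q0 : ∀ s : II, ‖(k * n) s‖ ≤ 8 * ν := fun s => by
    rw [norm_k hb hk, h.iv_xxe hb]; exact kk_n (hb.2 s) (h s)
  have q2 : ∀ s : II, ‖(k * n) s‖ * ‖p s‖ ^ 2 ≤ A := fun s => by
    rw [norm_k hb hk, h.iv_xxe hb]; exact kk_np (hb.2 s) (h s)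
  have q1 : ‖k * n * p‖ * (4 * M) ≤ A + 32 * ν * M ^ 2 := by
    have : ‖((4 * M : ℝ) : ℂ) • (k * n * p)‖ ≤ A + 32 * ν * M ^ 2 := norm_le_pt fun s => by
      rw [ContinuousMap.smul_apply, norm_smul, norm_real, Real.norm_of_nonneg (by positivity),
        ContinuousMap.mul_apply, norm_mul]
      have := q0 s
      have := q2 s
      have := mul_nonneg (norm_nonneg ((k * n) s)) (sq_nonneg (‖p s‖ - 2 * M))
      have := mul_le_mul_of_nonneg_right (q0 s) (sq_nonneg M)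
      nlinarith
    rwa [norm_smul, norm_real, Real.norm_of_nonneg (by positivity), mul_comm] at this
  have hZ2 : ‖Wi.cst (Nl.scale (om ℓ) θ) k * Wi.cst _ n * (Wi.cst _ p + P) ^ 2‖ ≤
      2 * A + M ^ 2 := by
    have e : Wi.cst (Nl.scale (om ℓ) θ) k * Wi.cst _ n * (Wi.cst _ p + P) ^ 2 =
        Wi.cst _ (k * n * p ^ 2) + Wi.cst _ (k * n * p) * P + Wi.cst _ (k * n * p) * P +
          Wi.cst _ (k * n) * P ^ 2 := by
      simp only [map_mul, map_pow]; ring
    have r2 : ‖Wi.cst (Nl.scale (om ℓ) θ) (k * n * p ^ 2)‖ ≤ A :=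
      (Wi.norm_cst _).le.trans (norm_le_pt fun s => by
        rw [ContinuousMap.mul_apply, norm_mul, ContinuousMap.pow_apply, norm_pow]; exact q2 s)
    have r1 := Nl.cst_mul_le (le_refl ‖k * n * p‖) hP
    have r0 := Nl.cst_mul_le (norm_le_pt q0) (Nl.pow_le hP 2)
    rw [e]
    refine (Nl.add_le (Nl.add_le (Nl.add_le r2 r1) r1) r0).trans ?_
    have := mul_le_mul_of_nonneg_right hν (sq_nonneg M)
    nlinarith
  refine (Nl.G_le4 (a := 8 * M ^ 2) (hy.trans (by linarith)) (hT.trans (by linarith))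
    (hTT.trans (by linarith)) ((Nl.add_le ((Wi.norm_cst _).le.trans hpn) hP).trans (by linarith))
    ((Nl.add_le ((Wi.norm_cst _).le.trans (norm_le_pt (C := 1 / 2) fun s => ?_)) hQ).trans
      (by linarith)) ((Wi.norm_cst _).le.trans (hnn.trans (by linarith))) ?_ ?_ ?_ hZ2).trans
      (by linarith)
  · simpa [cst] using (h s).n8'.le
  · refine (hG.le' _ (z _ _ h5)).trans ?_
    calc _ ≤ (2 * M + 1 * (2 * M)) * (2 * M) := by gcongr
      _ = _ := by ring
  · refine (hG.le (z _ _ h3) (z _ _ h3)).trans ?_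
    calc _ ≤ 1 * (2 * M * (2 * M)) := by gcongr
      _ ≤ _ := by nlinarith
  · refine (hG.le (z _ _ h3) (z _ _ h4)).trans ?_
    calc _ ≤ 1 * (2 * M * (4 * M)) := by gcongr
      _ = _ := by ring

end Src

open Src in
theorem srcS_holds : SrcS := by
  refine ⟨1000, by norm_num, fun ℓ R K g g' X0 a0 ν δ A X a hb h hν J M hJ hM h3 h4 h5 θ k hθ hk => ?_⟩
  have M0 := hJ.nonneg hb
  have pW := fun s : II => (hb.2 s).W_pos
  have δ0 : 0 ≤ δ := le_trans (mul_nonneg (kk_pos (hb.2 i0)).le (norm_nonneg _)) (h i0).n2.le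
  have A0 : 0 ≤ A := le_trans (mul_nonneg (kk_pos (hb.2 i0)).le (norm_nonneg _)) (h i0).n9
  have t0 : ‖Wi.cst _ (eC R X0 X ^ 2) * (Wi.cst _ k * Nl.up θ (GJ R X a J))‖ ≤
      2 ^ 2 * (202 * M ^ 2 + 4 * A) :=
    Nl.cst_mul_le (Nl.pow_le (norm_le_pt fun s => (h s).n6.le) 2)
      (GJ_le hb h hν hJ hM h3 h4 h5 hθ hk)
  have c1 : ∀ s : II, ‖(k * ((1 / 2 : ℂ) • (eC R X0 X ^ 2 * gam R X) + kC R X0 X -
      (1 / 2 : ℂ) • (eC R X0 X * gam R X0))) s‖ ≤ δ * xr R X0 s := fun s => by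
    rw [norm_k hb hk]
    refine le_trans (le_of_eq ?_) (h s).n1.le
    congr 2
    simp only [ContinuousMap.sub_apply, ContinuousMap.add_apply, ContinuousMap.smul_apply,
      ContinuousMap.mul_apply, ContinuousMap.pow_apply, gam_ofReal, smul_eq_mul]
    ring
  have t1 := up_cm hb hθ hJ.b1 (fun s => inv_pos.2 (hb.2 s).x_pos)
    (fun s => div_pos (pW s) (mul_pos (hb.2 s).x_pos (hb.2 s).norm_pos)) δ0
    (Or.inr fun s => (b1_le (hb.2 s) (c1 s)).1) fun s => (b1_le (hb.2 s) (c1 s)).2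
  have c2 : ∀ s : II, ‖(k * (1 - eC R X0 X ^ 2) : CI) s‖ ≤ δ := fun s => by
    rw [norm_k hb hk]; exact (h s).n2.le
  have t2 := up_cm hb hθ hJ.b0 (fun s => (hb.2 s).rho_pos) pW (B := δ * 3) (by positivity)
    (Or.inr fun s => by
      rw [mul_one]
      exact mul_le_mul (c2 s) ((hb.2 s).rho_le_norm.trans (hb.2 s).norm_le) (hb.2 s).rho_pos.le δ0)
    fun s => by
      rw [mul_assoc]
      refine mul_le_mul (c2 s) ?_ (pW s).le δ0
      rw [← mul_div_assoc, le_div_iff₀ (hb.2 s).norm_pos, mul_comm]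
      exact mul_le_mul_of_nonneg_right (hb.2 s).norm_le (pW s).le
  have t3 := up_cm hb hθ hJ.b5 (fun _ => one_pos) pW
    (φ := k * ((1 / 2 : ℂ) • (iv (etC R X0 a0) - eC R X0 X ^ 2 * iv (etC R X a)))) δ0 (Or.inl h5)
    fun s => by
      rw [norm_k hb hk]
      refine le_trans (le_of_eq ?_) (b5_le (hb.2 s) (h s))
      simp only [ContinuousMap.sub_apply, ContinuousMap.smul_apply, ContinuousMap.mul_apply,
        ContinuousMap.pow_apply, hb.iv_etC, h.iv_etC hb, gam_ofReal, smul_eq_mul]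
  refine le_trans (le_of_eq ?_) ((Nl.add_le (Nl.add_le (Nl.add_le t0 t1) t2) t3).trans ?_)
  · congr 1
    simp only [src, cm, map_add, map_mul, Nl.up_cst]
    ring
  · have := mul_nonneg δ0 M0
    nlinarith [sq_nonneg M]

end B1

end Crest.Agent.N250

end
end

-- ▼ part N250/B1/EndHol

/-!
# Row 250, B1 (helper3): holomorphy of the source and of the conversion
-/

set_option autoImplicit false
open Set Complex

noncomputable section

namespace Crest.Agent.N250.B1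

namespace Hol

variable {ℓ : Ell} {R K g g' X0 ν δ A M : ℝ} {a0 X a : ℂ} {J : Jt ℓ}

theorem eC_ne (hN : Nr R X0 a0 δ A X a) (s : II) : eC R X0 X s ≠ 0 :=
  norm_pos_iff.1 (by linarith [(hN s).n6'])

theorem etC_ne (hN : Nr R X0 a0 δ A X a) (s : II) : etC R X a s ≠ 0 := by
  rw [etC_apply]
  exact norm_pos_iff.1 (by linarith [(hN s).n4, norm_nonneg (et a0 (xr R X0 s))])

theorem gam_ne (hB : Bs R K g g' X0 a0 ν) (hN : Nr R X0 a0 δ A X a) (s : II) : gam R X s ≠ 0 :=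
  norm_pos_iff.1 (by linarith [(hN s).n5', (hB.2 s).x_pos])

/-- `|1 / η| Re η₀ ≤ 2` -/
theorem iv_le (hB : Bs R K g g' X0 a0 ν) (hN : Nr R X0 a0 δ A X a) (s : II) {t : ℝ}
    (ht : t ≤ (et a0 (xr R X0 s)).re) : ‖iv (etC R X a) s‖ * t ≤ 2 * 1 := by
  have h1 := (hN s).n4
  have h2 := re_le_norm (et a0 (xr R X0 s))
  rw [iv_apply (etC_ne hN), etC_apply, norm_inv, inv_mul_le_iff₀ (by linarith [(hB.2 s).norm_pos])]
  linarith

theorem y_le (hB : Bs R K g g' X0 a0 ν) (hN : Nr R X0 a0 δ A X a) (h : InB R K g g' X0 a0 M J) :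
    ‖cm (iv (etC R X a)) (J 0)‖ ≤ 2 * M :=
  wb_one_iff.1 (h.b0.cm (X' := X0) (fun s => (hB.2 s).rho_pos) (fun s => (hB.2 s).W_pos) two_pos.le
    (.inr fun s => iv_le hB hN s (hB.2 s).rho_le) fun s => iv_le hB hN s (hB.2 s).W_le)

theorem T_le (hB : Bs R K g g' X0 a0 ν) (hN : Nr R X0 a0 δ A X a) {u : Wi (om ℓ)}
    (h : WB R X0 (fun _ => 1) (W g g' a0) u M) (h0 : Wi.co u 0 = 0) :
    ‖cm (iv (etC R X a)) u‖ ≤ 2 * M :=
  wb_one_iff.1 (h.cm (X' := X0) (fun _ => one_pos) (fun s => (hB.2 s).W_pos) two_pos.le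
    (.inl ⟨h0, fun _ => zero_le_one⟩) fun s => iv_le hB hN s (hB.2 s).W_le)

theorem xp_le (hB : Bs R K g g' X0 a0 ν) (hN : Nr R X0 a0 δ A X a) (h : InB R K g g' X0 a0 M J) :
    ‖cm (gam R X) (J 1)‖ ≤ 2 * M := by
  refine wb_one_iff.1 (h.b1.cm (X' := X0) (fun s => inv_pos.2 (hB.2 s).x_pos) (fun s => div_pos
    (hB.2 s).W_pos (mul_pos (hB.2 s).x_pos (hB.2 s).norm_pos)) two_pos.le (.inr fun s => ?_)
    fun s => ?_)
  · rw [← div_eq_mul_inv, div_le_iff₀ (hB.2 s).x_pos]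
    linarith [(hN s).n5]
  · rw [← mul_div_assoc, div_le_iff₀ (mul_pos (hB.2 s).x_pos (hB.2 s).norm_pos), mul_one, ← mul_assoc]
    exact mul_le_mul (hN s).n5.le ((hB.2 s).W_le.trans (re_le_norm _)) (hB.2 s).W_pos.le
      (by linarith [(hB.2 s).x_pos])

theorem Z_le (hB : Bs R K g g' X0 a0 ν) (hN : Nr R X0 a0 δ A X a) (h : InB R K g g' X0 a0 M J) :
    ‖Wi.cst (om ℓ) (a • gam R X ^ 2) + cm (gam R X) (J 1)‖ ≤ 3 + 2 * M := by
  refine Nl.add_le ?_ (xp_le hB hN h)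
  rw [Wi.norm_cst]
  exact (ContinuousMap.norm_le _ (by norm_num)).2 fun s => (hN s).n8.le

theorem n_le (hB : Bs R K g g' X0 a0 ν) (hN : Nr R X0 a0 δ A X a) :
    ‖Wi.cst (om ℓ) (iv (gam R X ^ 2 * etC R X a))‖ ≤ 8 * ν := by
  have hν : ∀ s : II, 0 < ν := fun s => pos_of_mul_pos_left
    (one_pos.trans_le (hB.2 s).nu) (mul_pos (pow_pos (hB.2 s).x_pos 2) (hB.2 s).re_pos).le
  rw [Wi.norm_cst]
  refine (ContinuousMap.norm_le _ (by linarith [hν i0])).2 fun s => ?_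
  have b := hB.2 s
  have h1 : xr R X0 s ^ 2 ≤ (2 * ‖gam R X s‖) ^ 2 := pow_le_pow_left₀ b.x_pos.le (hN s).n5'.le 2
  have h2 : (et a0 (xr R X0 s)).re ≤ 2 * ‖et a (gam R X s)‖ := (re_le_norm _).trans (hN s).n4.le
  have h3 := mul_le_mul_of_nonneg_left (mul_le_mul h1 h2 b.re_pos.le (sq_nonneg _)) (hν s).le
  have h4 : ∀ s, (gam R X ^ 2 * etC R X a) s ≠ 0 := fun s =>
    mul_ne_zero (pow_ne_zero 2 (gam_ne hB hN s)) (etC_ne hN s)
  rw [iv_apply h4, norm_inv, ← one_div, div_le_iff₀ (norm_pos_iff.2 (h4 s)), ContinuousMap.mul_apply,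
    ContinuousMap.pow_apply, etC_apply, norm_mul, norm_pow]
  linarith [b.nu]

/-- the two inverses in `GJ` are honest -/
theorem units (hB : Bs R K g g' X0 a0 ν) (hN : Nr R X0 a0 δ A X a) (hν : ν ≤ 1 / 1000)
    (h : InB R K g g' X0 a0 M J) (h3 : Wi.co (J 3) 0 = 0) (hM : 32 * M ≤ 1) :
    ‖cm (iv (etC R X a)) (J 0)‖ ≤ 1 / 2 ∧ ‖Nl.Qm (cm (iv (etC R X a)) (J 0)) (cm (iv (etC R X a)) (J 3))
      (Wi.cst _ (a • gam R X ^ 2) + cm (gam R X) (J 1))
      (Wi.cst _ (iv (gam R X ^ 2 * etC R X a)))‖ ≤ 1 / 2 := by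
  have y : _ ≤ (1 / 16 : ℝ) := (y_le hB hN h).trans (by linarith)
  have T : _ ≤ (1 / 16 : ℝ) := (T_le hB hN h.b3 h3).trans (by linarith)
  have Z : _ ≤ (4 : ℝ) := (Z_le hB hN h).trans (by linarith)
  have n : _ ≤ (1 / 125 : ℝ) := (n_le (ℓ := ℓ) hB hN).trans (by linarith)
  have y' := y.trans (show (1 / 16 : ℝ) ≤ 1 / 2 by norm_num)
  exact ⟨y', (Nl.add_le (Nl.add_le y (Nl.mul_le (Nl.mul_le Nl.hf_le n) (Nl.pow_le Z 2)))
    (Nl.mul_le (Nl.mul_le (Nl.pow_le Nl.hf_le 2) (Nl.inv_le y')) (Nl.pow_le T 2))).trans (by norm_num)⟩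

variable {E : Type} [NormedAddCommGroup E] [NormedSpace ℂ E] {U : Set E}

/-- holomorphy of the nonlinearity wherever the two inverses exist -/
theorem diff_G' {B : Type} [NormedCommRing B] [NormOneClass B] [NormedAlgebra ℂ B] [CompleteSpace B]
    {y T TT Z S V n : E → B} (hy : DifferentiableOn ℂ y U)
    (hT : DifferentiableOn ℂ T U) (hTT : DifferentiableOn ℂ TT U) (hZ : DifferentiableOn ℂ Z U)
    (hS : DifferentiableOn ℂ S U) (hV : DifferentiableOn ℂ V U) (hn : DifferentiableOn ℂ n U)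
    (h : ∀ z ∈ U, IsUnit (1 + y z)) (h' : ∀ z ∈ U, IsUnit (1 + Nl.Qm (y z) (T z) (Z z) (n z))) :
    DifferentiableOn ℂ (fun z => Nl.G (y z) (T z) (TT z) (Z z) (S z) (V z) (n z)) U := by
  have hu := Nl.diff_uu hy h
  have hj := Nl.diff_jj hy hT hZ hn h h'
  unfold Nl.G Nl.Gp
  fun_prop

theorem diff_cm {φ : E → CI} {u : E → Wi (om ℓ)} (h : DifferentiableOn ℂ φ U)
    (h' : DifferentiableOn ℂ u U) : DifferentiableOn ℂ (fun p => cm (φ p) (u p)) U :=
  (Nl.diff_cst h).mul h'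

theorem diff_iv {φ : E → CI} (h : DifferentiableOn ℂ φ U) (hne : ∀ p ∈ U, ∀ s, φ p s ≠ 0) :
    DifferentiableOn ℂ (fun p => iv (φ p)) U := h.inverse fun p hp => unit_of_ne (hne p hp)

variable {Xf af : E → ℂ}

theorem diff_gam (h : DifferentiableOn ℂ Xf U) : DifferentiableOn ℂ (fun p => gam R (Xf p)) U :=
  Differentiable.comp_differentiableOn (fun X => (hasDerivAt_gam R X).differentiableAt) h

theorem diff_eC (h : DifferentiableOn ℂ Xf U) : DifferentiableOn ℂ (fun p => eC R X0 (Xf p)) U :=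
  (Differentiable.comp_differentiableOn (fun X => (hasDerivAt_dgam R X).differentiableAt) h).mul_const _

theorem diff_kC (h : DifferentiableOn ℂ Xf U) : DifferentiableOn ℂ (fun p => kC R X0 (Xf p)) U :=
  ((h.sub_const _).const_mul _).smul_const _

theorem diff_etC (h : DifferentiableOn ℂ Xf U) (h' : DifferentiableOn ℂ af U) :
    DifferentiableOn ℂ (fun p => etC R (Xf p) (af p)) U := by
  have x := diff_gam (R := R) h
  unfold etC
  fun_prop

theorem diff_ev {φ : E → CI} (h : DifferentiableOn ℂ φ U) (s : II) :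
    DifferentiableOn ℂ (fun p => φ p s) U :=
  ((ContinuousMap.evalCLM ℂ s : CI →L[ℂ] ℂ).differentiable.comp_differentiableOn h :)

theorem diff_src {Jf : E → Jt ℓ} (hX : DifferentiableOn ℂ Xf U)
    (j : ∀ i, DifferentiableOn ℂ (fun p => Jf p i) U)
    (iη : DifferentiableOn ℂ (fun p => iv (etC R (Xf p) (af p))) U)
    (G : DifferentiableOn ℂ (fun p => GJ R (Xf p) (af p) (Jf p)) U) :
    DifferentiableOn ℂ (fun p => src R X0 a0 (Xf p) (af p) (Jf p)) U := by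
  have x := diff_gam (R := R) hX
  have e := diff_eC (R := R) (X0 := X0) hX
  have k := diff_kC (R := R) (X0 := X0) hX
  have c1 : DifferentiableOn ℂ (fun p => eC R X0 (Xf p) ^ 2) U := by fun_prop
  have c2 : DifferentiableOn ℂ (fun p => (1 / 2 : ℂ) • (eC R X0 (Xf p) ^ 2 * gam R (Xf p)) +
      kC R X0 (Xf p) - (1 / 2 : ℂ) • (eC R X0 (Xf p) * gam R X0)) U := by fun_prop
  have c3 : DifferentiableOn ℂ (fun p => 1 - eC R X0 (Xf p) ^ 2) U := by fun_prop
  have c4 : DifferentiableOn ℂ (fun p => (1 / 2 : ℂ) • (iv (etC R X0 a0) -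
      eC R X0 (Xf p) ^ 2 * iv (etC R (Xf p) (af p)))) U := by fun_prop
  exact (((diff_cm c1 G).fun_add (diff_cm c2 (j 1))).fun_add (diff_cm c3 (j 0))).fun_add
    (diff_cm c4 (j 5))

end Hol

open Hol in
theorem holS_holds : HolS := by
  intro ℓ R K g g' X0 a0 ν δ A M E _ _ U X a J hB hν hN hX ha hJ
  have j := differentiableOn_pi.1 hJ
  have x := diff_gam (R := R) hX
  have e := diff_eC (R := R) (X0 := X0) hX
  have k := diff_kC (R := R) (X0 := X0) hX
  have η := diff_etC (R := R) hX ha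
  have ie := diff_iv e fun p hp => eC_ne (hN p hp)
  have iη := diff_iv η fun p hp => etC_ne (hN p hp)
  refine ⟨differentiableOn_pi.2 fun i => ?_, diff_ev e i1, fun h hM => ?_⟩
  · fin_cases i
    exacts [j 0, diff_cm ie (j 1), diff_cm (ie.pow 2) ((j 2).sub (diff_cm (k.mul ie) (j 1))), j 3,
      diff_cm ie (j 4), j 5]
  · have u := fun p hp => units hB (hN p hp) hν (h p hp).1 (h p hp).2.1 hM
    have G : DifferentiableOn ℂ (fun p => GJ R (X p) (a p) (J p)) U :=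
      diff_G' (diff_cm iη (j 0)) (diff_cm iη (j 3)) (diff_cm iη (j 5))
        ((Nl.diff_cst (ha.smul (x.pow 2))).add (diff_cm x (j 1)))
        (diff_cm (diff_iv (x.mul η) fun p hp s => mul_ne_zero (gam_ne hB (hN p hp) s)
          (etC_ne (hN p hp) s)) (j 4))
        ((Nl.diff_cst (cst.differentiable.comp_differentiableOn ha)).add (j 2))
        (Nl.diff_cst (diff_iv ((x.pow 2).mul η) fun p hp s =>
          mul_ne_zero (pow_ne_zero 2 (gam_ne hB (hN p hp) s)) (etC_ne (hN p hp) s)))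
        (fun p hp => Nl.unit_of (u p hp).1) fun p hp => Nl.unit_of (u p hp).2
    exact diff_src hX j iη G

end Crest.Agent.N250.B1

end
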