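import Crest.Agent.N250.B1.Max

/-! # Row 250, block B1: global existence for linear ODEs on `[a,b]`, initial and boundary data -/

set_option autoImplicit false

open Set Filter Topology Metric

namespace Crest.Agent.N250.B1

section ivp
variable {E : Type*} [NormedAddCommGroup E] [NormedSpace ℝ E] [CompleteSpace E] {a b : ℝ}

/-- radial retraction onto the ball of radius `C`. -/
noncomputable def rad (C : ℝ) (y : E) : E := (C / max C ‖y‖) • y

omit [CompleteSpace E] in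
lemma rad_eq {C : ℝ} (hC : 0 < C) {y : E} (h : ‖y‖ ≤ C) : rad C y = y := by
  simp [rad, max_eq_left h, hC.ne']

omit [CompleteSpace E] in
lemma norm_rad_le {C : ℝ} (hC : 0 < C) (y : E) : ‖rad C y‖ ≤ C := by
  have h : 0 < max C ‖y‖ := lt_max_of_lt_left hC
  rw [rad, norm_smul, Real.norm_of_nonneg (by positivity), div_mul_eq_mul_div, div_le_iff₀ h]
  exact mul_le_mul_of_nonneg_left (le_max_right _ _) hC.le

omit [CompleteSpace E] in
lemma norm_rad_le' {C : ℝ} (hC : 0 < C) (y : E) : ‖rad C y‖ ≤ ‖y‖ := by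
  have h : 0 < max C ‖y‖ := lt_max_of_lt_left hC
  rw [rad, norm_smul, Real.norm_of_nonneg (by positivity)]
  exact mul_le_of_le_one_left (norm_nonneg _) ((div_le_one h).2 (le_max_left _ _))

omit [CompleteSpace E] in
lemma rad_lip {C : ℝ} (hC : 0 < C) (x y : E) : ‖rad C x - rad C y‖ ≤ 2 * ‖x - y‖ := by
  set p := max C ‖x‖ with hp
  set q := max C ‖y‖ with hq
  have hp0 : 0 < p := lt_max_of_lt_left hC
  have hq0 : 0 < q := lt_max_of_lt_left hC
  have hpq : |p - q| ≤ ‖x - y‖ := by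
    refine (abs_max_sub_max_le_max _ _ _ _).trans ?_
    simp only [sub_self, abs_zero]
    exact max_le (norm_nonneg _) (abs_norm_sub_norm_le _ _)
  have e : rad C x - rad C y = (C / p) • (x - y) + (C / p - C / q) • y := by
    simp only [rad, ← hp, ← hq, smul_sub, sub_smul]; abel
  have h1 : C / p ≤ 1 := (div_le_one hp0).2 (le_max_left _ _)
  have h2 : |C / p - C / q| * ‖y‖ ≤ ‖x - y‖ := by
    have : C / p - C / q = (C / p) * ((q - p) / q) := by field_simp
    rw [this, abs_mul, abs_of_pos (by positivity : 0 < C / p), abs_div, abs_of_pos hq0,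
      abs_sub_comm]
    have h3 : ‖y‖ / q ≤ 1 := (div_le_one hq0).2 (le_max_right _ _)
    calc C / p * (|p - q| / q) * ‖y‖ = (C / p) * (‖y‖ / q) * |p - q| := by ring
      _ ≤ 1 * 1 * ‖x - y‖ := by gcongr
      _ = ‖x - y‖ := by ring
  rw [e]
  refine (norm_add_le _ _).trans ?_
  rw [norm_smul, norm_smul, Real.norm_eq_abs, Real.norm_eq_abs, abs_of_pos (by positivity)]
  nlinarith [norm_nonneg (x - y)]

/-- Global existence for `y' = A y + G` on `[a,b]`, datum at `a`. -/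
theorem exists_ivp_left (hab : a ≤ b) {A : ℝ → E →L[ℝ] E} {G : ℝ → E}
    (hA : ContinuousOn A (Icc a b)) (hG : ContinuousOn G (Icc a b)) (y0 : E) :
    ∃ y : ℝ → E, y a = y0 ∧ Dv a b y fun t => A t (y t) + G t := by
  obtain ⟨K, hK⟩ := isCompact_Icc.exists_bound_of_continuousOn hA
  obtain ⟨N, hN⟩ := isCompact_Icc.exists_bound_of_continuousOn hG
  have hK0 : 0 ≤ K := (norm_nonneg _).trans (hK a (left_mem_Icc.2 hab))
  have hN0 : 0 ≤ N := (norm_nonneg _).trans (hN a (left_mem_Icc.2 hab))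
  set C := gronwallBound ‖y0‖ K N (b - a) + 1 with hC
  have hmono := gronwallBound_mono (norm_nonneg y0) hN0 hK0
  have hC0 : 0 < C := by
    have := hmono (show (0 : ℝ) ≤ b - a by linarith)
    rw [gronwallBound_x0] at this
    have := norm_nonneg y0
    linarith
  have hL0 : 0 ≤ K * C + N := by positivity
  have hf : IsPicardLindelof (fun t y => A t (rad C y) + G t) (⟨a, left_mem_Icc.2 hab⟩ : Icc a b) y0
      (Real.toNNReal ((K * C + N) * (b - a))) 0 (Real.toNNReal (K * C + N))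
      (Real.toNNReal (2 * K)) := by
    refine ⟨fun t ht => ?_, fun y _ => ?_, fun t ht y _ => ?_, ?_⟩
    · refine LipschitzWith.lipschitzOnWith (LipschitzWith.of_dist_le_mul fun x y => ?_)
      rw [dist_eq_norm, dist_eq_norm, add_sub_add_right_eq_sub, ← map_sub]
      refine ((A t).le_opNorm _).trans ?_
      have := mul_le_mul (hK t ht) (rad_lip hC0 x y) (norm_nonneg _) hK0
      rw [Real.coe_toNNReal _ (by positivity)]
      linarith
    · exact (hA.clm_apply continuousOn_const).add hG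
    · refine (norm_add_le _ _).trans ?_
      rw [Real.coe_toNNReal _ hL0]
      refine add_le_add (((A t).le_opNorm _).trans ?_) (hN t ht)
      exact mul_le_mul (hK t ht) (norm_rad_le hC0 y) (norm_nonneg _) hK0
    · rw [Real.coe_toNNReal _ hL0, Real.coe_toNNReal _ (mul_nonneg hL0 (by linarith))]
      simp only [NNReal.coe_zero, sub_zero, sub_self]
      rw [max_eq_left (by linarith)]
  obtain ⟨y, hy0, hy⟩ := hf.exists_eq_forall_mem_Icc_hasDerivWithinAt₀
  have hy0' : y a = y0 := hy0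
  have hc : ContinuousOn y (Icc a b) := fun t ht => (hy t ht).continuousWithinAt
  have hb := norm_le_gronwallBound_of_norm_deriv_right_le (f' := fun t => A t (rad C (y t)) + G t)
    (δ := ‖y0‖) (K := K) (ε := N) hc
    (fun t ht => (hy t (Ico_subset_Icc_self ht)).mono_of_mem_nhdsWithin
      (mem_of_superset (Icc_mem_nhdsGE ht.2) (Icc_subset_Icc ht.1 le_rfl)))
    (by rw [hy0']) (fun t ht => by
      refine (norm_add_le _ _).trans (add_le_add (((A t).le_opNorm _).trans ?_)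
        (hN t (Ico_subset_Icc_self ht)))
      exact mul_le_mul (hK t (Ico_subset_Icc_self ht)) (norm_rad_le' hC0 _) (norm_nonneg _) hK0)
  refine ⟨y, hy0', fun t ht => ?_⟩
  have h1 : ‖y t‖ ≤ C := by
    have := hmono (show t - a ≤ b - a by linarith [ht.2])
    linarith [hb t ht]
  have := hy t ht
  rwa [rad_eq hC0 h1] at this

omit [CompleteSpace E] in
lemma Dv.refl {y y1 : ℝ → E} (h : Dv a b y y1) :
    Dv a b (fun t => y (a + b - t)) fun t => -y1 (a + b - t) := fun t ht => by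
  have hm : MapsTo (fun t => a + b - t) (Icc a b) (Icc a b) := fun s hs =>
    ⟨by simp only; linarith [hs.2], by simp only; linarith [hs.1]⟩
  have h1 : HasDerivWithinAt (fun t => a + b - t) (-1) (Icc a b) t := by
    simpa using (hasDerivWithinAt_id t (Icc a b)).const_sub (a + b)
  simpa [Function.comp_def] using (h _ (hm ht)).scomp t h1 hm

/-- Global existence for `y' = A y + G` on `[a,b]`, datum at `b`. -/
theorem exists_ivp_right (hab : a ≤ b) {A : ℝ → E →L[ℝ] E} {G : ℝ → E}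
    (hA : ContinuousOn A (Icc a b)) (hG : ContinuousOn G (Icc a b)) (y0 : E) :
    ∃ y : ℝ → E, y b = y0 ∧ Dv a b y fun t => A t (y t) + G t := by
  have hm : MapsTo (fun t => a + b - t) (Icc a b) (Icc a b) := fun s hs =>
    ⟨by simp only; linarith [hs.2], by simp only; linarith [hs.1]⟩
  have hr : ContinuousOn (fun t : ℝ => a + b - t) (Icc a b) := by fun_prop
  obtain ⟨y, hy0, hy⟩ := exists_ivp_left hab (A := fun t => -A (a + b - t))
    (G := fun t => -G (a + b - t)) (hA.comp hr hm).neg (hG.comp hr hm).neg y0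
  refine ⟨fun t => y (a + b - t), by simpa using hy0, hy.refl.congr (fun _ _ => rfl) ?_⟩
  intro t _
  simp [add_comm]

end ivp

section second
variable {a b : ℝ}

/-- `w'' = B w' + V w + g` on `[a,b]` with `w' = w1`. -/
structure Sol2 (a b : ℝ) (B V g w w1 : ℝ → ℂ) : Prop where
  d0 : Dv a b w w1
  d1 : Dv a b w1 fun x => B x * w1 x + V x * w x + g x

/-- the companion matrix -/
noncomputable def comp (B V : ℂ) : ℂ × ℂ →L[ℝ] ℂ × ℂ :=
  ((ContinuousLinearMap.snd ℂ ℂ ℂ).prod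
    (B • ContinuousLinearMap.snd ℂ ℂ ℂ + V • ContinuousLinearMap.fst ℂ ℂ ℂ)).restrictScalars ℝ

lemma comp_apply (B V : ℂ) (y : ℂ × ℂ) : comp B V y = (y.2, B * y.2 + V * y.1) := rfl

lemma comp_cont {B V : ℝ → ℂ} (hB : ContinuousOn B (Icc a b)) (hV : ContinuousOn V (Icc a b)) :
    ContinuousOn (fun t => comp (B t) (V t)) (Icc a b) := by
  have e : ∀ t, comp (B t) (V t) = comp 0 0 + (B t).re • (comp 1 0 - comp 0 0) +
      (B t).im • (comp Complex.I 0 - comp 0 0) + (V t).re • (comp 0 1 - comp 0 0) +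
      (V t).im • (comp 0 Complex.I - comp 0 0) := fun t => by
    refine ContinuousLinearMap.ext fun y => ?_
    simp only [ContinuousLinearMap.add_apply, ContinuousLinearMap.smul_apply,
      ContinuousLinearMap.sub_apply, comp_apply]
    refine Prod.ext (by simp) ?_
    simp only [Prod.snd_add, Prod.smul_snd, Prod.snd_sub, Complex.real_smul]
    conv_lhs => rw [← Complex.re_add_im (B t), ← Complex.re_add_im (V t)]
    ring
  simp_rw [e]
  have h1 := Complex.continuous_re.comp_continuousOn hB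
  have h2 := Complex.continuous_im.comp_continuousOn hB
  have h3 := Complex.continuous_re.comp_continuousOn hV
  have h4 := Complex.continuous_im.comp_continuousOn hV
  exact (((continuousOn_const.add (h1.smul continuousOn_const)).add
    (h2.smul continuousOn_const)).add (h3.smul continuousOn_const)).add
    (h4.smul continuousOn_const)

lemma sol2_of {B V g : ℝ → ℂ} {y : ℝ → ℂ × ℂ}
    (h : Dv a b y fun t => comp (B t) (V t) (y t) + (0, g t)) :
    Sol2 a b B V g (fun t => (y t).1) fun t => (y t).2 := by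
  refine ⟨fun t ht => ?_, fun t ht => ?_⟩
  · simpa [comp_apply, Function.comp_def] using
      (ContinuousLinearMap.fst ℝ ℂ ℂ).hasFDerivAt.comp_hasDerivWithinAt t (h t ht)
  · simpa [comp_apply, Function.comp_def] using
      (ContinuousLinearMap.snd ℝ ℂ ℂ).hasFDerivAt.comp_hasDerivWithinAt t (h t ht)

theorem exists_sol2_left (hab : a ≤ b) {B V g : ℝ → ℂ} (hB : ContinuousOn B (Icc a b))
    (hV : ContinuousOn V (Icc a b)) (hg : ContinuousOn g (Icc a b)) (y0 y1 : ℂ) :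
    ∃ w w1, Sol2 a b B V g w w1 ∧ w a = y0 ∧ w1 a = y1 := by
  obtain ⟨y, h0, h⟩ := exists_ivp_left hab (comp_cont hB hV)
    (G := fun t => ((0 : ℂ), g t)) (continuousOn_const.prodMk hg) (y0, y1)
  exact ⟨_, _, sol2_of h, by simp [h0], by simp [h0]⟩

theorem exists_sol2_right (hab : a ≤ b) {B V g : ℝ → ℂ} (hB : ContinuousOn B (Icc a b))
    (hV : ContinuousOn V (Icc a b)) (hg : ContinuousOn g (Icc a b)) (y0 y1 : ℂ) :
    ∃ w w1, Sol2 a b B V g w w1 ∧ w b = y0 ∧ w1 b = y1 := by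
  obtain ⟨y, h0, h⟩ := exists_ivp_right hab (comp_cont hB hV)
    (G := fun t => ((0 : ℂ), g t)) (continuousOn_const.prodMk hg) (y0, y1)
  exact ⟨_, _, sol2_of h, by simp [h0], by simp [h0]⟩

lemma Sol2.add {B V g w w1 g' u u1 : ℝ → ℂ} (h : Sol2 a b B V g w w1) (k : Sol2 a b B V g' u u1) :
    Sol2 a b B V (fun x => g x + g' x) (fun x => w x + u x) fun x => w1 x + u1 x :=
  ⟨h.d0.add k.d0, (h.d1.add k.d1).congr (fun _ _ => rfl) fun _ _ => by ring⟩

lemma Sol2.cmul {B V g w w1 : ℝ → ℂ} (h : Sol2 a b B V g w w1) (c : ℂ) :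
    Sol2 a b B V (fun x => c * g x) (fun x => c * w x) fun x => c * w1 x :=
  ⟨h.d0.cmul c, (h.d1.cmul c).congr (fun _ _ => rfl) fun _ _ => by ring⟩

lemma Sol2.sub {B V g w w1 g' u u1 : ℝ → ℂ} (h : Sol2 a b B V g w w1) (k : Sol2 a b B V g' u u1) :
    Sol2 a b B V (fun x => g x - g' x) (fun x => w x - u x) fun x => w1 x - u1 x :=
  ⟨h.d0.sub k.d0, (h.d1.sub k.d1).congr (fun _ _ => rfl) fun _ _ => by ring⟩

lemma Sol2.congr {B V g w w1 B' V' g' u u1 : ℝ → ℂ} (h : Sol2 a b B V g w w1)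
    (e0 : ∀ x ∈ Icc a b, u x = w x) (e1 : ∀ x ∈ Icc a b, u1 x = w1 x)
    (e : ∀ x ∈ Icc a b, B' x * w1 x + V' x * w x + g' x = B x * w1 x + V x * w x + g x) :
    Sol2 a b B' V' g' u u1 :=
  ⟨h.d0.congr e0 e1, h.d1.congr e1 fun x hx => by rw [e0 x hx, e1 x hx, e x hx]⟩

lemma Sol2.mono {B V g w w1 : ℝ → ℂ} (h : Sol2 a b B V g w w1) {c d : ℝ} (hc : a ≤ c)
    (hd : d ≤ b) : Sol2 c d B V g w w1 := ⟨h.d0.mono hc hd, h.d1.mono hc hd⟩

/-- A barrier for `d² - B d - V` on `[a,b]` with Robin coefficient `κ` at `b`. -/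
structure Bar (a b : ℝ) (B : ℝ → ℝ) (V : ℝ → ℂ) (κ : ℂ) (Ω Ω1 Ω2 γ : ℝ → ℝ) (δ : ℝ) : Prop where
  lt : a < b
  d0 : Dv a b Ω Ω1
  d1 : Dv a b Ω1 Ω2
  pos : ∀ x ∈ Icc a b, 0 < Ω x
  γpos : ∀ x ∈ Ioo a b, 0 < γ x
  sup : ∀ x ∈ Ioo a b, Ω2 x - B x * Ω1 x - (V x).re * Ω x ≤ -γ x
  δpos : 0 < δ
  rob : δ ≤ Ω1 b - κ.re * Ω b

theorem Bar.le {B : ℝ → ℝ} {V g w w1 : ℝ → ℂ} {κ : ℂ} {Ω Ω1 Ω2 γ : ℝ → ℝ} {δ M : ℝ}
    (h : Bar a b B V κ Ω Ω1 Ω2 γ δ) (s : Sol2 a b (fun x => B x) V g w w1)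
    (hg : ∀ x ∈ Ioo a b, ‖g x‖ ≤ M * γ x) (ha : ‖w a‖ ≤ M * Ω a)
    (hb : ‖w1 b - κ * w b‖ ≤ M * δ) : ∀ x ∈ Icc a b, ‖w x‖ ≤ M * Ω x :=
  max2 h.lt s.d0 s.d1 h.d0 h.d1 h.pos h.γpos h.sup hg ha (Or.inr ⟨κ, δ, h.δpos, h.rob, hb⟩)

/-- uniqueness for the Dirichlet/Robin problem. -/
theorem Bar.uniq {B : ℝ → ℝ} {V g w w1 u u1 : ℝ → ℂ} {κ : ℂ} {Ω Ω1 Ω2 γ : ℝ → ℝ} {δ : ℝ}
    (h : Bar a b B V κ Ω Ω1 Ω2 γ δ) (s : Sol2 a b (fun x => B x) V g w w1)
    (s' : Sol2 a b (fun x => B x) V g u u1) (ha : w a = u a)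
    (hb : w1 b - κ * w b = u1 b - κ * u b) :
    ∀ x ∈ Icc a b, w x = u x ∧ w1 x = u1 x := by
  have h0 := h.le (M := 0) (s.sub s') (by simp) (by simp [ha])
    (by rw [show w1 b - u1 b - κ * (w b - u b) = 0 by linear_combination hb]; simp)
  have e : ∀ x ∈ Icc a b, w x = u x := fun x hx => by
    have := h0 x hx
    rw [zero_mul, norm_le_zero_iff, sub_eq_zero] at this
    exact this
  refine fun x hx => ⟨e x hx, ?_⟩
  exact (uniqueDiffOn_Icc h.lt x hx).eq_deriv _ (s.d0 x hx) ((s'.d0 x hx).congr e (e x hx))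

/-- existence for the Dirichlet/Robin problem. -/
theorem Bar.ex {B : ℝ → ℝ} {V g : ℝ → ℂ} {κ : ℂ} {Ω Ω1 Ω2 γ : ℝ → ℝ} {δ : ℝ}
    (h : Bar a b B V κ Ω Ω1 Ω2 γ δ) (hB : ContinuousOn B (Icc a b))
    (hV : ContinuousOn V (Icc a b)) (hg : ContinuousOn g (Icc a b)) (α β : ℂ) :
    ∃ w w1, Sol2 a b (fun x => B x) V g w w1 ∧ w a = α ∧ w1 b - κ * w b = β := by
  have hB' : ContinuousOn (fun x => (B x : ℂ)) (Icc a b) :=
    Complex.continuous_ofReal.comp_continuousOn hB
  obtain ⟨p, p1, hp, hp0, -⟩ := exists_sol2_left h.lt.le hB' hV hg α 0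
  obtain ⟨q, q1, hq, hq0, hq1⟩ := exists_sol2_left h.lt.le hB' hV
    (continuousOn_const (c := (0 : ℂ))) 0 1
  have hne : q1 b - κ * q b ≠ 0 := fun e => by
    have z : Sol2 a b (fun x => (B x : ℂ)) V (fun _ => 0) (fun _ => 0) fun _ => 0 :=
      ⟨fun x _ => hasDerivWithinAt_const _ _ _, fun x _ => by
        simpa using hasDerivWithinAt_const x (Icc a b) (0 : ℂ)⟩
    have := (h.uniq hq z hq0 (by simpa using e) a (left_mem_Icc.2 h.lt.le)).2
    rw [hq1] at this
    exact one_ne_zero this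
  set c := (β - (p1 b - κ * p b)) / (q1 b - κ * q b) with hc
  refine ⟨_, _, (hp.add (hq.cmul c)).congr (fun _ _ => rfl) (fun _ _ => rfl) (fun _ _ => by simp),
    by simp [hp0, hq0], ?_⟩
  have : c * (q1 b - κ * q b) = β - (p1 b - κ * p b) := by rw [hc]; field_simp
  linear_combination this


end second

end Crest.Agent.N250.B1
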