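import Crest.Agent.N250.B1.Far2
import Crest.Agent.N250.B1.Reg
import Crest.Agent.N250.HJ.Main

/-! # Row 250, block B1 (S8): the far integral against the Hamilton–Jacobi boundary action -/

set_option autoImplicit false

open Set Filter Topology Metric Complex

noncomputable section

namespace Crest.Agent.N250.Far

open B1

variable {ℓ : Ell} {N : ℕ} {K X : ℝ} {a : ℂ}


lemma slope_le {X V : ℂ} (h : HJ.Adm N X V) (hN : HJ.N0 ≤ N) : ‖HJ.slope N X V‖ ≤ 24 / ‖X‖ := by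
  have h1 := h.tau_le hN
  have h2 := h.le_cs hN
  have h3 : 0 < ‖X‖ := norm_pos_iff.2 h.hX
  rw [HJ.slope, norm_div, norm_mul, norm_mul, norm_neg, Complex.norm_two,
    div_le_div_iff₀ (by positivity) h3]
  nlinarith [mul_le_mul_of_nonneg_left h1 h3.le, mul_le_mul_of_nonneg_left h2 h3.le]

lemma Mom_slope {X V : ℂ} (h : HJ.Adm N X V) (hN : HJ.N0 ≤ N) :
    Mom X V (HJ.slope N X V) 0 = -2 * HJ.EE X V * HJ.tau N X V / (X * HJ.rr V) ∧
    B1.Lag X V (HJ.slope N X V) 0 - HJ.slope N X V * Mom X V (HJ.slope N X V) 0 =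
      HJ.EE X V * HJ.rr V * HJ.cs N X V := by
  have e : Po.QQ V (HJ.slope N X V) 0 = 2 * V + HJ.slope N X V ^ 2 := by simp [Po.QQ]
  have e1 : Mom X V (HJ.slope N X V) 0 =
      HJ.EE X V * HJ.slope N X V / (HJ.rr V / HJ.cs N X V) := by
    rw [Mom, e, show (-1 / 2 : ℂ) = -(1 / 2) by ring, cpow_neg, h.sqrt_Q hN, HJ.EE]; ring
  refine ⟨by rw [e1, h.mom hN], ?_⟩
  rw [e1, ← h.ham hN, B1.Lag, e, h.sqrt_Q hN, HJ.EE]; ring



end Crest.Agent.N250.Far
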