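import Crest.Agent.N250.B1.Ex

/-! # Row 250, block B1 (S1): the mode equation in system form

`w' = c p`, `p' = c (B p + V w + g)` on `[a,b]` (`c = γ' > 0` the speed of the parametrisation):
maximum principle, gradient bound, existence, uniqueness, solution operators on `C(Icc a b, ℂ)`. -/

set_option autoImplicit false

open Set Filter Topology

namespace Crest.Agent.N250.B1

variable {a b : ℝ}

/-- `w' = c p`, `p' = c (B p + V w + g)` on `[a,b]`. -/
structure Sys (a b : ℝ) (c B V g w p : ℝ → ℂ) : Prop where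
  d0 : Dv a b w fun s => c s * p s
  d1 : Dv a b p fun s => c s * (B s * p s + V s * w s + g s)

namespace Sys
variable {c B V g w p g' u q : ℝ → ℂ}

lemma add (h : Sys a b c B V g w p) (k : Sys a b c B V g' u q) :
    Sys a b c B V (fun x => g x + g' x) (fun x => w x + u x) fun x => p x + q x :=
  ⟨(h.d0.add k.d0).congr (fun _ _ => rfl) fun _ _ => by ring,
    (h.d1.add k.d1).congr (fun _ _ => rfl) fun _ _ => by ring⟩

lemma sub (h : Sys a b c B V g w p) (k : Sys a b c B V g' u q) :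
    Sys a b c B V (fun x => g x - g' x) (fun x => w x - u x) fun x => p x - q x :=
  ⟨(h.d0.sub k.d0).congr (fun _ _ => rfl) fun _ _ => by ring,
    (h.d1.sub k.d1).congr (fun _ _ => rfl) fun _ _ => by ring⟩

lemma cmul (h : Sys a b c B V g w p) (z : ℂ) :
    Sys a b c B V (fun x => z * g x) (fun x => z * w x) fun x => z * p x :=
  ⟨(h.d0.cmul z).congr (fun _ _ => rfl) fun _ _ => by ring,
    (h.d1.cmul z).congr (fun _ _ => rfl) fun _ _ => by ring⟩

lemma congr {B' V' : ℝ → ℂ} (h : Sys a b c B V g w p)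
    (e0 : ∀ x ∈ Icc a b, u x = w x) (e1 : ∀ x ∈ Icc a b, q x = p x)
    (e : ∀ x ∈ Icc a b, B' x * p x + V' x * w x + g' x = B x * p x + V x * w x + g x) :
    Sys a b c B' V' g' u q :=
  ⟨h.d0.congr e0 fun x hx => by rw [e1 x hx],
    h.d1.congr e1 fun x hx => by rw [e0 x hx, e1 x hx, e x hx]⟩

lemma mono (h : Sys a b c B V g w p) {a' b' : ℝ} (hc : a ≤ a') (hd : b' ≤ b) :
    Sys a' b' c B V g w p := ⟨h.d0.mono hc hd, h.d1.mono hc hd⟩

lemma zero : Sys a b c B V (fun _ => 0) (fun _ => 0) fun _ => 0 :=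
  ⟨fun x _ => by simpa using hasDerivWithinAt_const x (Icc a b) (0 : ℂ),
    fun x _ => by simpa using hasDerivWithinAt_const x (Icc a b) (0 : ℂ)⟩

end Sys

/-- second derivative test in system form. -/
lemma deriv2_sys {ψ ψ1 c : ℝ → ℝ} {d x : ℝ} (hx : x ∈ Ioo a b) (hc : ∀ y ∈ Icc a b, 0 < c y)
    (h : Dv a b ψ fun y => c y * ψ1 y) (h1 : HasDerivWithinAt ψ1 d (Icc a b) x)
    (hm : ∀ y ∈ Icc a b, ψ y ≤ ψ x) : ψ1 x = 0 ∧ d ≤ 0 := by
  have hx' := Ioo_subset_Icc_self hx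
  have h00 : c x * ψ1 x = 0 := le_antisymm (deriv_nonpos_of_max ⟨hx.1.le, hx.2⟩ (h x hx') hm)
    (deriv_nonneg_of_max ⟨hx.1, hx.2.le⟩ (h x hx') hm)
  have h0 : ψ1 x = 0 := (mul_eq_zero.1 h00).resolve_left (hc x hx').ne'
  refine ⟨h0, ?_⟩
  by_contra hd
  push Not at hd
  have h' : HasDerivWithinAt ψ1 d (Ioi x) x := by
    refine (h1.mono_of_mem_nhdsWithin ?_)
    exact mem_of_superset (Ioo_mem_nhdsGT hx.2) fun y hy => ⟨hx.1.le.trans hy.1.le, hy.2.le⟩
  have h2 := (hasDerivWithinAt_iff_tendsto_slope' (by simp)).1 h'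
  have h3 : ∀ᶠ y in 𝓝[>] x, 0 < slope ψ1 x y := h2.eventually (lt_mem_nhds hd)
  obtain ⟨u, hu, hsub⟩ := (mem_nhdsGT_iff_exists_Ioo_subset' hx.2).1
    (h3.and (Ioo_mem_nhdsGT hx.2))
  have hu' : x < u := hu
  set y := (x + min u b) / 2 with hy
  have hmin : x < min u b := lt_min hu' hx.2
  have hy1 : x < y := by rw [hy]; linarith
  have hy2 : y < min u b := by rw [hy]; linarith
  have hyb : y < b := hy2.trans_le (min_le_right _ _)
  have hyu : y < u := hy2.trans_le (min_le_left _ _)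
  obtain ⟨z, hz, hz'⟩ := exists_hasDerivAt_eq_slope ψ (fun y => c y * ψ1 y) hy1
    (h.cont.mono (Icc_subset_Icc hx.1.le hyb.le))
    (fun z hz => h.at ⟨hx.1.trans hz.1, hz.2.trans hyb⟩)
  have hc2 := (hsub ⟨hz.1, hz.2.trans hyu⟩).1
  simp only [slope_def_field, h0, sub_zero] at hc2
  have hc3 : 0 < ψ1 z := (div_pos_iff_of_pos_right (by linarith [hz.1])).1 hc2
  have hc3' := mul_pos (hc z ⟨hx.1.le.trans hz.1.le, (hz.2.trans hyb).le⟩) hc3
  rw [hz'] at hc3'
  have hc4 := (div_pos_iff_of_pos_right (by linarith)).1 hc3'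
  linarith [hm y ⟨hx.1.le.trans hy1.le, hyb.le⟩]

/-- A barrier in system form: `Ω' = c Ω1`, `Ω1' = c Ω2`, `Ω2 - B Ω1 - re V Ω ≤ -γ < 0`. -/
structure BarS (a b : ℝ) (c B : ℝ → ℝ) (V : ℝ → ℂ) (Ω Ω1 Ω2 γ : ℝ → ℝ) : Prop where
  lt : a < b
  cpos : ∀ x ∈ Icc a b, 0 < c x
  d0 : Dv a b Ω fun x => c x * Ω1 x
  d1 : Dv a b Ω1 fun x => c x * Ω2 x
  pos : ∀ x ∈ Icc a b, 0 < Ω x
  γpos : ∀ x ∈ Icc a b, 0 < γ x
  sup : ∀ x ∈ Icc a b, Ω2 x - B x * Ω1 x - (V x).re * Ω x ≤ -γ x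

namespace BarS
variable {c B Ω Ω1 Ω2 γ : ℝ → ℝ} {V g w p u q : ℝ → ℂ} {M : ℝ}

/-- **Maximum principle**, general far end. -/
theorem le_gen (h : BarS a b c B V Ω Ω1 Ω2 γ)
    (s : Sys a b (fun x => c x) (fun x => B x) V g w p)
    (hg : ∀ x ∈ Icc a b, ‖g x‖ ≤ M * γ x) (ha : ‖w a‖ ≤ M * Ω a)
    (hb : ‖w b‖ ≤ M * Ω b ∨ ∃ (κ : ℂ) (δ : ℝ), 0 < δ ∧ δ ≤ Ω1 b - κ.re * Ω b ∧
      ‖p b - κ * w b‖ ≤ M * δ) :
    ∀ x ∈ Icc a b, ‖w x‖ ≤ M * Ω x := by
  have hab := h.lt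
  have hpos := h.pos
  obtain ⟨x, hx, M', z, hz, e1, e2, hle, hm⟩ := exists_max_quot hab.le s.d0.cont h.d0.cont hpos
  by_cases hM : M' ≤ M
  · exact fun y hy => (hle y hy).trans (mul_le_mul_of_nonneg_right hM (hpos y hy).le)
  exfalso
  push Not at hM
  have hx0 := hpos x hx
  have hM0 : 0 ≤ M := by
    have := (norm_nonneg _).trans ha
    exact nonneg_of_mul_nonneg_left this (hpos a (left_mem_Icc.2 hab.le))
  have hψ : Dv a b (fun y => (z * w y).re - M' * Ω y)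
      (fun y => c y * ((z * p y).re - M' * Ω1 y)) := fun y hy => by
    refine (((s.d0.cmul z).re y hy).sub ((h.d0 y hy).const_mul M')).congr_deriv ?_
    have : z * ((c y : ℂ) * p y) = (c y : ℂ) * (z * p y) := by ring
    beta_reduce
    rw [this, Complex.re_ofReal_mul]; ring
  have hψ1 : Dv a b (fun y => (z * p y).re - M' * Ω1 y)
      (fun y => c y * ((z * (B y * p y + V y * w y + g y)).re - M' * Ω2 y)) := fun y hy => by
    refine (((s.d1.cmul z).re y hy).sub ((h.d1 y hy).const_mul M')).congr_deriv ?_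
    have : z * ((c y : ℂ) * (B y * p y + V y * w y + g y)) =
        (c y : ℂ) * (z * (B y * p y + V y * w y + g y)) := by ring
    beta_reduce
    rw [this, Complex.re_ofReal_mul]; ring
  have hcx := h.cpos x hx
  rcases eq_or_lt_of_le hx.1 with h1 | h1
  · subst h1; rw [e1] at ha; nlinarith
  rcases eq_or_lt_of_le hx.2 with h2 | h2
  · subst h2
    rcases hb with hb | ⟨κ, δ, hδ, hδ', hb⟩
    · rw [e1] at hb; nlinarith
    have h3' := deriv_nonneg_of_max ⟨h1, le_rfl⟩ (hψ x hx) hm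
    have h3 := nonneg_of_mul_nonneg_right h3' hcx
    have h4 : z * p x = z * (p x - κ * w x) + κ * (z * w x) := by ring
    rw [h4, e2, Complex.add_re] at h3
    have h5 := re_mul_le (z := p x - κ * w x) hz
    have h6 : (κ * ((M' * Ω x : ℝ) : ℂ)).re = κ.re * (M' * Ω x) := by simp
    rw [h6] at h3
    nlinarith
  · have hx' : x ∈ Ioo a b := ⟨h1, h2⟩
    obtain ⟨h3, h4'⟩ := deriv2_sys hx' h.cpos hψ (hψ1 x hx) hm
    have h4 := nonpos_of_mul_nonpos_right h4' hcx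
    beta_reduce at h3
    have h5 : z * (B x * p x + V x * w x + g x) =
        B x * (z * p x) + V x * (z * w x) + z * g x := by ring
    rw [h5, e2, Complex.add_re, Complex.add_re] at h4
    have h6 : (V x * ((M' * Ω x : ℝ) : ℂ)).re = (V x).re * (M' * Ω x) := by simp
    have h7 : ((B x : ℂ) * (z * p x)).re = B x * (z * p x).re := by simp
    rw [h6, h7] at h4
    have h8 := neg_le_re_mul (z := g x) hz
    have h9 : (z * p x).re = M' * Ω1 x := by linarith
    rw [h9] at h4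
    have h10 := h.sup x hx
    have h11 := hg x hx
    have h12 := h.γpos x hx
    have hM' : 0 ≤ M' := by linarith
    nlinarith [mul_le_mul_of_nonneg_left h10 hM']

/-- Dirichlet at `a`, Robin `p b = κ w b + β` at `b` (`κ = 0`: Neumann). -/
theorem le (h : BarS a b c B V Ω Ω1 Ω2 γ) {κ : ℂ} {δ : ℝ} (hδ : 0 < δ)
    (hκ : δ ≤ Ω1 b - κ.re * Ω b) (s : Sys a b (fun x => c x) (fun x => B x) V g w p)
    (hg : ∀ x ∈ Icc a b, ‖g x‖ ≤ M * γ x) (ha : ‖w a‖ ≤ M * Ω a)
    (hb : ‖p b - κ * w b‖ ≤ M * δ) : ∀ x ∈ Icc a b, ‖w x‖ ≤ M * Ω x :=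
  h.le_gen s hg ha (Or.inr ⟨κ, δ, hδ, hκ, hb⟩)


theorem uniq (h : BarS a b c B V Ω Ω1 Ω2 γ) {κ : ℂ} (hκ : 0 < Ω1 b - κ.re * Ω b)
    (s : Sys a b (fun x => c x) (fun x => B x) V g w p)
    (s' : Sys a b (fun x => c x) (fun x => B x) V g u q) (ha : w a = u a)
    (hb : p b - κ * w b = q b - κ * u b) : ∀ x ∈ Icc a b, w x = u x ∧ p x = q x := by
  have h0 := h.le (M := 0) hκ le_rfl (s.sub s') (by simp) (by simp [ha])
    (by rw [show p b - q b - κ * (w b - u b) = 0 by linear_combination hb]; simp)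
  have e : ∀ x ∈ Icc a b, w x = u x := fun x hx => by
    have := h0 x hx
    rw [zero_mul, norm_le_zero_iff, sub_eq_zero] at this
    exact this
  refine fun x hx => ⟨e x hx, ?_⟩
  have := (uniqueDiffOn_Icc h.lt x hx).eq_deriv _ (s.d0 x hx) ((s'.d0 x hx).congr e (e x hx))
  exact mul_left_cancel₀ (by exact_mod_cast (h.cpos x hx).ne') this

end BarS

/-- **Gradient bound.** For real `l` with `l' = c l1`, `y = p + l w` solves
`y' = c ((B + l) y + (V + l1 - l (B + l)) w + g)`; backward barrier `P`. -/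
theorem Sys.p_le {c B l l1 P P1 γ : ℝ → ℝ} {V g w p : ℝ → ℂ} {M : ℝ} (hab : a ≤ b)
    (s : Sys a b (fun x => c x) (fun x => B x) V g w p) (hc : ∀ x ∈ Icc a b, 0 < c x)
    (hl : Dv a b l fun x => c x * l1 x) (hP : Dv a b P fun x => c x * P1 x)
    (hpos : ∀ x ∈ Icc a b, 0 < P x) (hγ : ∀ x ∈ Icc a b, 0 < γ x)
    (hsup : ∀ x ∈ Icc a b, P1 x - (B x + l x) * P x ≤ -γ x)
    (hG : ∀ x ∈ Icc a b, ‖(V x + l1 x - l x * (B x + l x)) * w x + g x‖ ≤ M * γ x)
    (hb : ‖p b + l b * w b‖ ≤ M * P b) : ∀ x ∈ Icc a b, ‖p x + l x * w x‖ ≤ M * P x := by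
  refine max1_back (β := fun x => ((c x * (B x + l x) : ℝ) : ℂ))
    (G := fun x => c x * ((V x + l1 x - l x * (B x + l x)) * w x + g x))
    (γ := fun x => c x * γ x) hab ?_ hP hpos
    (fun x hx => mul_pos (hc x (Ico_subset_Icc_self hx)) (hγ x (Ico_subset_Icc_self hx)))
    (fun x hx => ?_) (fun x hx => ?_) hb
  · refine (s.d1.add (hl.ofReal.mul s.d0)).congr (fun _ _ => rfl) fun x _ => ?_
    push_cast; ring
  · have := mul_le_mul_of_nonneg_left (hsup x (Ico_subset_Icc_self hx))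
      (hc x (Ico_subset_Icc_self hx)).le
    rw [Complex.ofReal_re]; linarith
  · have h1 := hc x (Ico_subset_Icc_self hx)
    rw [norm_mul, Complex.norm_real, Real.norm_of_nonneg h1.le]
    have := mul_le_mul_of_nonneg_left (hG x (Ico_subset_Icc_self hx)) h1.le
    linarith

section ex
variable {c B V g : ℝ → ℂ}

lemma sys_of {y : ℝ → ℂ × ℂ}
    (h : Dv a b y fun t => (c t • comp (B t) (V t)) (y t) + (0, c t * g t)) :
    Sys a b c B V g (fun t => (y t).1) fun t => (y t).2 := by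
  refine ⟨fun t ht => ?_, fun t ht => ?_⟩
  · simpa [comp_apply, Function.comp_def] using
      (ContinuousLinearMap.fst ℝ ℂ ℂ).hasFDerivAt.comp_hasDerivWithinAt t (h t ht)
  · simpa [comp_apply, Function.comp_def, mul_add] using
      (ContinuousLinearMap.snd ℝ ℂ ℂ).hasFDerivAt.comp_hasDerivWithinAt t (h t ht)

theorem exists_sys_left (hab : a ≤ b) (hc : ContinuousOn c (Icc a b))
    (hB : ContinuousOn B (Icc a b)) (hV : ContinuousOn V (Icc a b))
    (hg : ContinuousOn g (Icc a b)) (y0 y1 : ℂ) :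
    ∃ w p, Sys a b c B V g w p ∧ w a = y0 ∧ p a = y1 := by
  obtain ⟨y, h0, h⟩ := exists_ivp_left hab (hc.smul (comp_cont hB hV))
    (G := fun t => ((0 : ℂ), c t * g t)) (continuousOn_const.prodMk (hc.mul hg)) (y0, y1)
  exact ⟨_, _, sys_of h, by simp [h0], by simp [h0]⟩




end ex

namespace BarS
variable {c B Ω Ω1 Ω2 γ : ℝ → ℝ} {V g : ℝ → ℂ}

/-- existence for the Dirichlet/Robin problem. -/
theorem ex (h : BarS a b c B V Ω Ω1 Ω2 γ) {κ : ℂ} (hκ : 0 < Ω1 b - κ.re * Ω b)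
    (hc : ContinuousOn c (Icc a b)) (hB : ContinuousOn B (Icc a b))
    (hV : ContinuousOn V (Icc a b)) (hg : ContinuousOn g (Icc a b)) (α β : ℂ) :
    ∃ w p, Sys a b (fun x => c x) (fun x => B x) V g w p ∧ w a = α ∧ p b - κ * w b = β := by
  have hB' : ContinuousOn (fun x => (B x : ℂ)) (Icc a b) :=
    Complex.continuous_ofReal.comp_continuousOn hB
  have hc' : ContinuousOn (fun x => (c x : ℂ)) (Icc a b) :=
    Complex.continuous_ofReal.comp_continuousOn hc
  obtain ⟨w, p, hp, hp0, -⟩ := exists_sys_left h.lt.le hc' hB' hV hg α 0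
  obtain ⟨u, q, hq, hq0, hq1⟩ := exists_sys_left h.lt.le hc' hB' hV
    (continuousOn_const (c := (0 : ℂ))) 0 1
  have hne : q b - κ * u b ≠ 0 := fun e => by
    have := (h.uniq hκ hq Sys.zero hq0 (by simpa using e) a (left_mem_Icc.2 h.lt.le)).2
    rw [hq1] at this
    exact one_ne_zero this
  set z := (β - (p b - κ * w b)) / (q b - κ * u b) with hz
  refine ⟨_, _, (hp.add (hq.cmul z)).congr (fun _ _ => rfl) (fun _ _ => rfl) (fun _ _ => by simp),
    by simp [hp0, hq0], ?_⟩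
  have : z * (q b - κ * u b) = β - (p b - κ * w b) := by rw [hz]; field_simp
  linear_combination this

end BarS

section clm

/-- extension of a continuous function on `[a,b]` (for `a = 0`, `b = 1` this is `ex`). -/
noncomputable abbrev ext (hab : a ≤ b) (f : C(Icc a b, ℂ)) : ℝ → ℂ := IccExtend hab f







end clm

end Crest.Agent.N250.B1
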