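import Crest.Agent.N250.B1.Ex
import Crest.Agent.N250.B1.Sys
import Crest.Agent.N250.B1.Stm

-- ▼ part N250/B1/Lin1
section

/-! # Row 250, block B1 (helper24): a priori bounds for one Fourier mode on `[a, b]` -/

set_option autoImplicit false

open Set Filter Topology

noncomputable section

namespace Crest.Agent.N250.B1

/-- a positive weight with logarithmic derivative `l` -/
structure LD (a b : ℝ) (f l : ℝ → ℝ) : Prop where
  pos : ∀ x ∈ Icc a b, 0 < f x
  dv : Dv a b f fun x => l x * f x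

section ld
variable {a b : ℝ} {f l u k : ℝ → ℝ}

lemma LD.mul (h : LD a b f l) (h' : LD a b u k) :
    LD a b (fun x => f x * u x) fun x => l x + k x :=
  ⟨fun x hx => mul_pos (h.pos x hx) (h'.pos x hx), fun x hx => by
    exact ((h.dv x hx).fun_mul (h'.dv x hx)).congr_deriv (by ring)⟩

lemma LD.inv (h : LD a b f l) : LD a b (fun x => (f x)⁻¹) fun x => -l x :=
  ⟨fun x hx => inv_pos.2 (h.pos x hx), fun x hx => by
    have := (h.pos x hx).ne'
    exact ((h.dv x hx).fun_inv this).congr_deriv (by field_simp)⟩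

lemma LD.id (ha : 0 < a) : LD a b (fun x => x) fun x => x⁻¹ :=
  ⟨fun x hx => ha.trans_le hx.1, fun x hx => by
    have := (ha.trans_le hx.1).ne'
    exact (hasDerivWithinAt_id x (Icc a b)).congr_deriv (by field_simp)⟩

lemma LD.one : LD a b (fun _ => 1) fun _ => 0 :=
  ⟨fun _ _ => one_pos, fun x _ => by simpa using hasDerivWithinAt_const x (Icc a b) (1 : ℝ)⟩

/-- backward barrier in logarithmic form -/
theorem LD.back {y G β : ℝ → ℂ} {r : ℝ → ℝ} {M : ℝ} (h : LD a b f l) (hab : a ≤ b)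
    (hy : Dv a b y fun x => β x * y x + G x) (hr : ∀ x ∈ Icc a b, 0 < r x)
    (hl : ∀ x ∈ Icc a b, l x + r x ≤ (β x).re)
    (hG : ∀ x ∈ Icc a b, ‖G x‖ ≤ M * (r x * f x)) (hb : ‖y b‖ ≤ M * f b) :
    ∀ x ∈ Icc a b, ‖y x‖ ≤ M * f x :=
  max1_back (γ := fun x => r x * f x) hab hy h.dv h.pos
    (fun x hx => mul_pos (hr x (Ico_subset_Icc_self hx)) (h.pos x (Ico_subset_Icc_self hx)))
    (fun x hx => by
      have := mul_le_mul_of_nonneg_right (hl x (Ico_subset_Icc_self hx))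
        (h.pos x (Ico_subset_Icc_self hx)).le
      linarith)
    (fun x hx => hG x (Ico_subset_Icc_self hx)) hb

end ld

/-- the drift `x / 2` -/
def dr (x : ℝ) : ℂ := ((x / 2 : ℝ) : ℂ)

lemma dr_re (x : ℝ) : (dr x).re = x / 2 := Complex.ofReal_re _

lemma norm_dr {x : ℝ} (hx : 0 ≤ x) : ‖dr x‖ = x / 2 := by
  rw [dr, Complex.norm_real, Real.norm_of_nonneg (by positivity)]

lemma dr_cont : Continuous dr := by unfold dr; fun_prop

/-- **low modes**: factorisation through an approximate slow exponent `l`, both data at `b`. -/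
theorem low {a b M : ℝ} {V G w p l l1 : ℝ → ℂ} {Ω Ω1 Γ lΓ : ℝ → ℝ} (ha : 4 ≤ a) (hab : a ≤ b)
    (s : Sol2 a b dr V G w p) (hl : Dv a b l l1) (hΩ : Dv a b Ω Ω1)
    (hpos : ∀ x ∈ Icc a b, 0 < Ω x) (hΓ : LD a b Γ lΓ) (hlΓ : ∀ x ∈ Icc a b, lΓ x ≤ x / 8)
    (hl' : ∀ x ∈ Icc a b, (l x).re ≤ x / 8)
    (hres : ∀ x ∈ Icc a b, ‖V x - l1 x + dr x * l x - l x ^ 2‖ * Ω x ≤ Γ x / 8)
    (hsl : ∀ x ∈ Icc a b, Ω1 x - (l x).re * Ω x ≤ -(Γ x / x))
    (hG : ∀ x ∈ Icc a b, ‖G x‖ ≤ M * Γ x) (hw : ‖w b‖ ≤ M * Ω b)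
    (hp : ‖p b - l b * w b‖ ≤ 4 * M * (Γ b * b⁻¹)) :
    ∀ x ∈ Icc a b, ‖w x‖ ≤ 8 * M * Ω x ∧ ‖p x - l x * w x‖ ≤ 8 * M * (Γ x * x⁻¹) := by
  obtain ⟨x0, hx0, M1, -, -, e1, -, hle, -⟩ := exists_max_quot hab s.d0.cont hΩ.cont hpos
  have hb : b ∈ Icc a b := right_mem_Icc.2 hab
  have hM : 0 ≤ M := nonneg_of_mul_nonneg_left ((norm_nonneg _).trans hw) (hpos b hb)
  have hM1 : 0 ≤ M1 := nonneg_of_mul_nonneg_left (e1 ▸ norm_nonneg (w x0)) (hpos x0 hx0)
  have hx : ∀ x ∈ Icc a b, 0 < x := fun x hx => by linarith [hx.1]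
  have dπ : Dv a b (fun x => p x - l x * w x) fun x => (dr x - l x) * (p x - l x * w x) +
      ((V x - l1 x + dr x * l x - l x ^ 2) * w x + G x) :=
    (s.d1.sub (hl.mul s.d0)).congr (fun _ _ => rfl) fun x _ => by ring
  have hπ := (hΓ.mul (LD.id (b := b) (by linarith : 0 < a)).inv).back (r := fun x => x / 4)
    (M := M1 / 2 + 4 * M) hab dπ (fun x h => by linarith [hx x h])
    (fun x h => by
      have := hlΓ x h; have := hl' x h; have := inv_pos.2 (hx x h)
      rw [Complex.sub_re, dr_re]; linarith)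
    (fun x h => by
      have h0 := hx x h
      have e : (M1 / 2 + 4 * M) * (x / 4 * (Γ x * x⁻¹)) = M1 * (Γ x / 8) + M * Γ x := by
        field_simp; ring
      rw [e]
      refine (norm_add_le _ _).trans (add_le_add ?_ (hG x h))
      rw [norm_mul]
      refine (mul_le_mul_of_nonneg_left (hle x h) (norm_nonneg _)).trans ?_
      have := mul_le_mul_of_nonneg_left (hres x h) hM1
      linarith)
    (hp.trans (mul_le_mul_of_nonneg_right (by linarith)
      (mul_pos (hΓ.pos b hb) (inv_pos.2 (hx b hb))).le))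
  have dw : Dv a b w fun x => l x * w x + (p x - l x * w x) :=
    s.d0.congr (fun _ _ => rfl) fun x _ => by ring
  have hw' := max1_back (γ := fun x => Γ x * x⁻¹) (M := M1 / 2 + 4 * M) hab dw hΩ hpos
    (fun x h => mul_pos (hΓ.pos x (Ico_subset_Icc_self h))
      (inv_pos.2 (hx x (Ico_subset_Icc_self h))))
    (fun x h => by simpa only [div_eq_mul_inv] using hsl x (Ico_subset_Icc_self h))
    (fun x h => hπ x (Ico_subset_Icc_self h))
    (hw.trans (mul_le_mul_of_nonneg_right (by linarith) (hpos b hb).le))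
  have h8 : M1 ≤ 8 * M := by
    have := hw' x0 hx0
    rw [e1] at this
    have := le_of_mul_le_mul_right this (hpos x0 hx0)
    linarith
  intro x h
  exact ⟨(hle x h).trans (mul_le_mul_of_nonneg_right h8 (hpos x h).le),
    (hπ x h).trans (mul_le_mul_of_nonneg_right (by linarith)
      (mul_pos (hΓ.pos x h) (inv_pos.2 (hx x h))).le)⟩

/-- **high modes**: from the bound on `w` to the bounds on `w'` and `w''`. -/
theorem high {a b M C k : ℝ} {V G w p : ℝ → ℂ} {Ω lΩ n ln : ℝ → ℝ} (ha : 4 ≤ a) (hab : a ≤ b)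
    (s : Sol2 a b dr V G w p) (hΩ : LD a b Ω lΩ) (hn : LD a b n ln) (hk : 2 ≤ k) (hC : 1 ≤ C)
    (hM : 0 ≤ M) (hlΩ : ∀ x ∈ Icc a b, lΩ x ≤ x / 8) (hln : ∀ x ∈ Icc a b, -ln x ≤ x / 8)
    (hn2 : ∀ x ∈ Icc a b, n x ≤ 3) (hn1 : ∀ x ∈ Icc a b, 1 ≤ x ^ 2 * n x)
    (hV : ∀ x ∈ Icc a b, ‖V x‖ ≤ k ^ 2 / 2 * (n x)⁻¹ + 1)
    (hG : ∀ x ∈ Icc a b, ‖G x‖ * n x ≤ M * Ω x)
    (hw : ∀ x ∈ Icc a b, k ^ 2 * ‖w x‖ ≤ C * M * Ω x) (hp : (b + k) * ‖p b‖ ≤ M * Ω b) :
    ∀ x ∈ Icc a b, x * n x * ‖p x‖ ≤ 12 * C * M * Ω x ∧ k * ‖p x‖ ≤ 6 * C * M * (x * Ω x) ∧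
      n x * ‖dr x * p x + V x * w x + G x‖ ≤ 9 * C * M * Ω x := by
  have hb : b ∈ Icc a b := right_mem_Icc.2 hab
  have hx : ∀ x ∈ Icc a b, 0 < x := fun x hx => by linarith [hx.1]
  have hid := LD.id (b := b) (by linarith : 0 < a)
  have hS : ∀ x ∈ Icc a b, n x * ‖V x * w x + G x‖ ≤ 3 * C * M * Ω x := fun x h => by
    have h0 := hn.pos x h
    have h1 : n x * ‖V x‖ ≤ 2 * k ^ 2 := by
      have := mul_le_mul_of_nonneg_left (hV x h) h0.le
      have e : n x * (k ^ 2 / 2 * (n x)⁻¹ + 1) = k ^ 2 / 2 + n x := by field_simp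
      have := hn2 x h
      nlinarith
    have h2 : n x * ‖V x * w x + G x‖ ≤ n x * ‖V x‖ * ‖w x‖ + ‖G x‖ * n x := by
      have := mul_le_mul_of_nonneg_left (norm_add_le (V x * w x) (G x)) h0.le
      rw [norm_mul] at this; linarith
    have h3 := mul_le_mul_of_nonneg_right h1 (norm_nonneg (w x))
    have h4 := mul_le_mul_of_nonneg_right hC (mul_nonneg hM (hΩ.pos x h).le)
    have := hw x h; have := hG x h
    linarith
  have d0 : Dv a b p fun x => dr x * p x + (V x * w x + G x) :=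
    s.d1.congr (fun _ _ => rfl) fun x _ => by ring
  have hCM : 0 ≤ C * M := mul_nonneg (by linarith) hM
  have h0 := ((hΩ.mul hid.inv).mul hn.inv).back (r := fun x => x / 4) (M := 12 * C * M) hab d0
    (fun x h => by linarith [hx x h])
    (fun x h => by
      have := hlΩ x h; have := hln x h; have := inv_pos.2 (hx x h)
      rw [dr_re]; linarith)
    (fun x h => by
      have h0 := hx x h; have h1 := hn.pos x h
      have e : 12 * C * M * (x / 4 * (Ω x * x⁻¹ * (n x)⁻¹)) = 3 * C * M * Ω x / n x := by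
        field_simp; ring
      rw [e, le_div_iff₀' h1]; exact hS x h)
    (by
      have h0 := hx b hb; have h1 := hn.pos b hb
      have e : 12 * C * M * (Ω b * b⁻¹ * (n b)⁻¹) = 12 * C * M * Ω b / (b * n b) := by field_simp
      rw [e, le_div_iff₀' (by positivity)]
      have h2 : b * n b * ‖p b‖ ≤ (b + k) * 3 * ‖p b‖ := by
        have := hn2 b hb
        gcongr; linarith
      have h4 := mul_le_mul_of_nonneg_right hC (mul_nonneg hM (hΩ.pos b hb).le)
      have := mul_nonneg hM (hΩ.pos b hb).le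
      linarith)
  have hk0 : 0 < k := by linarith
  have dπ : Dv a b (fun x => p x + (k : ℂ) * ((x : ℂ) * w x)) fun x =>
      (dr x + ((k * x : ℝ) : ℂ)) * (p x + (k : ℂ) * ((x : ℂ) * w x)) +
        (V x * w x + G x + ((k - k * x * (x / 2 + k * x) : ℝ) : ℂ) * w x) := by
    have hi : Dv a b (fun x => (x : ℂ)) fun _ => ((1 : ℝ) : ℂ) :=
      Dv.ofReal (w := fun x => x) fun x _ => hasDerivWithinAt_id x _
    exact (s.d1.add ((hi.mul s.d0).cmul k)).congr (fun _ _ => rfl) fun x _ => by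
      simp only [dr]; push_cast; ring
  have h1 := (hid.mul hΩ).back (r := fun x => k * x) (M := 5 * C * M / k) hab dπ
    (fun x h => mul_pos hk0 (hx x h))
    (fun x h => by
      have := hlΩ x h
      have : x⁻¹ ≤ x / 8 := by
        have := h.1
        rw [inv_eq_one_div, div_le_div_iff₀ (hx x h) (by norm_num)]; nlinarith
      rw [Complex.add_re, dr_re, Complex.ofReal_re]; linarith [hx x h])
    (fun x h => by
      have hx0 := hx x h; have h1 := hn.pos x h; have hx4 : 4 ≤ x := ha.trans h.1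
      have e : 5 * C * M / k * (k * x * (x * Ω x)) = 5 * (x ^ 2 * (C * M * Ω x)) := by field_simp
      rw [e]
      refine (norm_add_le _ _).trans ?_
      have h2 : ‖V x * w x + G x‖ ≤ 3 * (x ^ 2 * (C * M * Ω x)) := by
        have := mul_le_mul_of_nonneg_right (hn1 x h) (norm_nonneg (V x * w x + G x))
        have := mul_le_mul_of_nonneg_left (hS x h) (sq_nonneg x)
        linarith
      have h3 : |k - k * x * (x / 2 + k * x)| ≤ 2 * (x ^ 2 * k ^ 2) := by
        have : 16 ≤ x ^ 2 := by nlinarith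
        have : k * 2 ≤ k ^ 2 := by nlinarith
        have : 0 ≤ k * x ^ 2 := by positivity
        have : k * 2 * x ^ 2 ≤ k ^ 2 * x ^ 2 := by gcongr
        have : k * 16 ≤ k * x ^ 2 := by gcongr
        rw [abs_le]; constructor <;> nlinarith
      rw [norm_mul, Complex.norm_real, Real.norm_eq_abs]
      have h4 := mul_le_mul_of_nonneg_right h3 (norm_nonneg (w x))
      have h5 := mul_le_mul_of_nonneg_left (hw x h) (sq_nonneg x)
      linarith)
    (by
      have hx0 := hx b hb; have hx4 : 4 ≤ b := ha.trans hab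
      rw [div_mul_eq_mul_div, le_div_iff₀' hk0]
      have h2 : ‖p b + (k : ℂ) * ((b : ℂ) * w b)‖ ≤ ‖p b‖ + k * (b * ‖w b‖) := by
        refine (norm_add_le _ _).trans (le_of_eq ?_)
        simp [abs_of_pos hk0, abs_of_pos hx0]
      have h3 := mul_le_mul_of_nonneg_left h2 hk0.le
      have h4 := mul_le_mul_of_nonneg_left (hw b hb) hx0.le
      have h5 := mul_le_mul_of_nonneg_right hC (mul_nonneg hM (hΩ.pos b hb).le)
      have h6 := mul_nonneg hx0.le (norm_nonneg (p b))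
      have h7 := mul_le_mul_of_nonneg_right hx4 (mul_nonneg hCM (hΩ.pos b hb).le)
      have := mul_nonneg hCM (hΩ.pos b hb).le
      linarith)
  intro x h
  have hx0 := hx x h; have hn0 := hn.pos x h
  have r0 : x * n x * ‖p x‖ ≤ 12 * C * M * Ω x := by
    have := h0 x h
    have e : 12 * C * M * (Ω x * x⁻¹ * (n x)⁻¹) = 12 * C * M * Ω x / (x * n x) := by field_simp
    rwa [e, le_div_iff₀' (by positivity)] at this
  refine ⟨r0, ?_, ?_⟩
  · have h2 := h1 x h
    rw [div_mul_eq_mul_div, le_div_iff₀' hk0] at h2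
    have h3 : ‖p x‖ ≤ ‖p x + (k : ℂ) * ((x : ℂ) * w x)‖ + k * (x * ‖w x‖) := by
      refine (norm_le_add_norm_add _ ((k : ℂ) * ((x : ℂ) * w x))).trans (le_of_eq ?_)
      simp [abs_of_pos hk0, abs_of_pos hx0]
    have h4 := mul_le_mul_of_nonneg_left h3 hk0.le
    have h5 := mul_le_mul_of_nonneg_left (hw x h) hx0.le
    linarith
  · have h2 : ‖dr x * p x + V x * w x + G x‖ ≤ x / 2 * ‖p x‖ + ‖V x * w x + G x‖ := by
      rw [add_assoc]
      refine (norm_add_le _ _).trans (le_of_eq ?_)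
      rw [norm_mul, norm_dr hx0.le]
    have := mul_le_mul_of_nonneg_left h2 hn0.le
    have := hS x h
    linarith

end Crest.Agent.N250.B1

end
end

-- ▼ part N250/B1/Lin2
section

/-! # Row 250, block B1 (helper24): reparametrisation `x = γ s`, linear relations give operators -/

set_option autoImplicit false

open Set Filter Topology

noncomputable section

namespace Crest.Agent.N250.B1

/-- `γ : [a, b] → [R, X]` with continuous derivative `c ≥ 1` -/
structure Rp (a b R X : ℝ) (γ c : ℝ → ℝ) : Prop where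
  le : a ≤ b
  dv : Dv a b γ c
  cc : ContinuousOn c (Icc a b)
  one_le : ∀ s ∈ Icc a b, 1 ≤ c s
  left : γ a = R
  right : γ b = X

namespace Rp
variable {a b R X : ℝ} {γ c : ℝ → ℝ}

lemma expand (h : Rp a b R X γ c) {s t : ℝ} (hs : s ∈ Icc a b) (ht : t ∈ Icc a b) (hst : s ≤ t) :
    t - s ≤ γ t - γ s := by
  have hd : Dv a b (fun s => γ s - s) fun s => c s - 1 :=
    h.dv.sub fun x _ => hasDerivWithinAt_id x _
  have := monotoneOn_of_deriv_nonneg (convex_Icc a b) hd.cont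
    (fun x hx => by
      rw [interior_Icc] at hx ⊢
      exact (hd.at hx).differentiableAt.differentiableWithinAt)
    (fun x hx => by
      rw [interior_Icc] at hx
      rw [(hd.at hx).deriv]
      linarith [h.one_le x (Ioo_subset_Icc_self hx)]) hs ht hst
  simp only at this
  linarith

lemma maps (h : Rp a b R X γ c) : MapsTo γ (Icc a b) (Icc R X) := fun s hs => by
  have h1 := h.expand (left_mem_Icc.2 h.le) hs hs.1
  have h2 := h.expand hs (right_mem_Icc.2 h.le) hs.2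
  rw [h.left] at h1; rw [h.right] at h2
  exact ⟨by linarith [hs.1], by linarith [hs.2]⟩

lemma abs_le (h : Rp a b R X γ c) {s t : ℝ} (hs : s ∈ Icc a b) (ht : t ∈ Icc a b) :
    |t - s| ≤ |γ t - γ s| := by
  rcases le_total s t with hst | hst
  · rw [abs_of_nonneg (by linarith)]; exact (h.expand hs ht hst).trans (le_abs_self _)
  · rw [abs_sub_comm, abs_sub_comm (γ t), abs_of_nonneg (by linarith)]
    exact (h.expand ht hs hst).trans (le_abs_self _)

theorem exists_inv (h : Rp a b R X γ c) : ∃ ι : ℝ → ℝ, MapsTo ι (Icc R X) (Icc a b) ∧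
    (∀ x ∈ Icc R X, γ (ι x) = x) ∧ (∀ s ∈ Icc a b, ι (γ s) = s) ∧
    Dv R X ι fun x => (c (ι x))⁻¹ := by
  have hs : ∀ x, ∃ s, x ∈ Icc R X → s ∈ Icc a b ∧ γ s = x := fun x => by
    by_cases hx : x ∈ Icc R X
    · obtain ⟨s, h1, h2⟩ := intermediate_value_Icc h.le h.dv.cont (by rwa [h.left, h.right])
      exact ⟨s, fun _ => ⟨h1, h2⟩⟩
    · exact ⟨0, fun h => absurd h hx⟩
  choose ι hι using hs
  have hc : ContinuousOn ι (Icc R X) := by
    refine LipschitzOnWith.continuousOn (K := 1) (LipschitzOnWith.of_dist_le_mul fun x hx y hy => ?_)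
    have := h.abs_le (hι y hy).1 (hι x hx).1
    rw [(hι y hy).2, (hι x hx).2] at this
    simpa [Real.dist_eq] using this
  refine ⟨ι, fun x hx => (hι x hx).1, fun x hx => (hι x hx).2, fun s hs => ?_, fun x hx => ?_⟩
  · have := h.abs_le hs (hι _ (h.maps hs)).1
    rw [(hι _ (h.maps hs)).2, sub_self, abs_zero] at this
    exact sub_eq_zero.1 (abs_nonpos_iff.1 this)
  · have h0 : c (ι x) ≠ 0 := by linarith [h.one_le _ (hι x hx).1]
    have h1 : HasFDerivWithinAt γ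
        ((ContinuousLinearEquiv.unitsEquivAut ℝ (Units.mk0 (c (ι x)) h0) : ℝ ≃L[ℝ] ℝ) : ℝ →L[ℝ] ℝ)
        (Icc a b) (ι x) :=
      (h.dv _ (hι x hx).1).hasFDerivWithinAt.congr_fderiv (by ext; simp)
    have h2 := h1.of_local_left_inverse (g := ι) (s := Icc R X)
      ((hc x hx).tendsto_nhdsWithin fun y hy => (hι y hy).1) hx
      (eventually_nhdsWithin_of_forall fun y hy => (hι y hy).2)
    exact h2.hasDerivWithinAt.congr_deriv (by simp)

lemma comp {F : Type*} [NormedAddCommGroup F] [NormedSpace ℝ F] {f f1 : ℝ → F}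
    (h : Rp a b R X γ c) (hf : Dv R X f f1) :
    Dv a b (fun s => f (γ s)) fun s => c s • f1 (γ s) := fun s hs =>
  (hf _ (h.maps hs)).scomp s (h.dv s hs) h.maps

theorem sys (h : Rp a b R X γ c) {B V G w p : ℝ → ℂ} (s : Sol2 R X B V G w p) :
    Sys a b (fun s => c s) (fun s => B (γ s)) (fun s => V (γ s)) (fun s => G (γ s))
      (fun s => w (γ s)) fun s => p (γ s) :=
  ⟨(h.comp s.d0).congr (fun _ _ => rfl) fun _ _ => Complex.real_smul.symm,
    (h.comp s.d1).congr (fun _ _ => rfl) fun _ _ => Complex.real_smul.symm⟩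

/-- a solution in the parameter `s` is a solution in `x` -/
theorem sol2 (h : Rp a b R X γ c) {B V g w p : ℝ → ℂ}
    (s : Sys a b (fun s => c s) (fun s => B (γ s)) (fun s => V (γ s)) g w p) :
    ∃ G W P : ℝ → ℂ, Sol2 R X B V G W P ∧
      ∀ s ∈ Icc a b, G (γ s) = g s ∧ W (γ s) = w s ∧ P (γ s) = p s := by
  obtain ⟨ι, h1, h2, h3, h4⟩ := h.exists_inv
  have h0 : ∀ x ∈ Icc R X, (c (ι x) : ℂ) ≠ 0 := fun x hx => by
    have := h.one_le _ (h1 hx)
    exact_mod_cast (by linarith : c (ι x) ≠ 0)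
  refine ⟨fun x => g (ι x), fun x => w (ι x), fun x => p (ι x), ⟨fun x hx => ?_, fun x hx => ?_⟩,
    fun s hs => by simp only [h3 s hs, and_self]⟩
  · refine ((s.d0 _ (h1 hx)).scomp x (h4 x hx) h1).congr_deriv ?_
    have := h0 x hx
    simp only [Complex.real_smul, Complex.ofReal_inv]; field_simp
  · refine ((s.d1 _ (h1 hx)).scomp x (h4 x hx) h1).congr_deriv ?_
    have := h0 x hx
    simp only [Complex.real_smul, Complex.ofReal_inv, h2 x hx]; field_simp

/-- continuous functions of `s` are continuous functions of `x` -/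
theorem lift (h : Rp a b R X γ c) {g : ℝ → ℂ} (hg : ContinuousOn g (Icc a b)) :
    ∃ G : ℝ → ℂ, ContinuousOn G (Icc R X) ∧ ∀ s ∈ Icc a b, G (γ s) = g s := by
  obtain ⟨ι, h1, -, h3, h4⟩ := h.exists_inv
  exact ⟨fun x => g (ι x), hg.comp h4.cont h1, fun s hs => by simp only [h3 s hs]⟩

theorem surj (h : Rp a b R X γ c) {x : ℝ} (hx : x ∈ Icc R X) : ∃ s ∈ Icc a b, γ s = x := by
  obtain ⟨ι, h1, h2, -⟩ := h.exists_inv
  exact ⟨ι x, h1 hx, h2 x hx⟩

end Rp


end Crest.Agent.N250.B1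

end
end

-- ▼ part N250/B1/Lin3

/-! # Row 250, block B1 (helper24): from estimates of one mode on `[R, X]` to jets -/

set_option autoImplicit false

open Set Filter Topology Complex

noncomputable section

namespace Crest.Agent.N250.B1

/-- the potential of the mode `m` -/
def Vx (a : ℂ) (m : ℤ) (x : ℝ) : ℂ := (m : ℂ) ^ 2 / (2 * et a x) - 1

/-- where the Dirichlet datum is prescribed -/
def pt (R X : ℝ) (m : ℤ) : ℝ := if 2 ≤ |m| then R else X

/-- a priori estimate of the mode `m`: source weight `Γ`, data weights `δ0, δ1`, jet weights `F` -/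
def MEst (R X : ℝ) (a : ℂ) (m : ℤ) (Γ : ℝ → ℝ) (δ0 δ1 : ℝ) (F : Fin 6 → ℝ → ℝ) : Prop :=
  ∀ (G w p : ℝ → ℂ) (M : ℝ), 0 ≤ M → Sol2 R X dr (Vx a m) G w p →
    (∀ x ∈ Icc R X, ‖G x‖ ≤ M * Γ x) → ‖w (pt R X m)‖ ≤ M * δ0 → ‖p X‖ ≤ M * δ1 →
    ∀ x ∈ Icc R X, ‖w x‖ ≤ M * F 0 x ∧ ‖p x‖ ≤ M * F 1 x ∧
      ‖dr x * p x + Vx a m x * w x + G x‖ ≤ M * F 2 x ∧ |(m : ℝ)| * ‖w x‖ ≤ M * F 3 x ∧
      |(m : ℝ)| * ‖p x‖ ≤ M * F 4 x ∧ (m : ℝ) ^ 2 * ‖w x‖ ≤ M * F 5 x

/-- existence for the mode `m` -/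
def MEx (R X : ℝ) (a : ℂ) (m : ℤ) : Prop :=
  ∀ G : ℝ → ℂ, ContinuousOn G (Icc R X) → ∀ α β : ℂ,
    ∃ w p, Sol2 R X dr (Vx a m) G w p ∧ w (pt R X m) = α ∧ p X = β

theorem MEst.mono {R X c : ℝ} {a : ℂ} {m : ℤ} {Γ Γ' : ℝ → ℝ} {δ0 δ1 δ0' δ1' : ℝ}
    {F F' : Fin 6 → ℝ → ℝ} (h : MEst R X a m Γ δ0 δ1 F) (hc : 0 ≤ c)
    (hΓ : ∀ x ∈ Icc R X, Γ' x ≤ c * Γ x) (h0 : δ0' ≤ c * δ0) (h1 : δ1' ≤ c * δ1)
    (hF : ∀ i, ∀ x ∈ Icc R X, c * F i x ≤ F' i x) : MEst R X a m Γ' δ0' δ1' F' := by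
  intro G w p M hM s hG hw hp x hx
  have k : ∀ {u v z : ℝ}, u ≤ M * v → v ≤ c * z → u ≤ M * c * z := fun h1 h2 =>
    h1.trans (by rw [mul_assoc]; exact mul_le_mul_of_nonneg_left h2 hM)
  have k' : ∀ {u : ℝ} (i : Fin 6), u ≤ M * c * F i x → u ≤ M * F' i x := fun i h1 =>
    h1.trans (by rw [mul_assoc]; exact mul_le_mul_of_nonneg_left (hF i x hx) hM)
  obtain ⟨r0, r1, r2, r3, r4, r5⟩ := h G w p (M * c) (mul_nonneg hM hc) s
    (fun y hy => k (hG y hy) (hΓ y hy)) (k hw h0) (k hp h1) x hx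
  exact ⟨k' 0 r0, k' 1 r1, k' 2 r2, k' 3 r3, k' 4 r4, k' 5 r5⟩

section path

theorem hasDerivAt_posPow (n : ℕ) (u : ℝ) :
    HasDerivAt (fun u : ℝ => max u 0 ^ (n + 2)) ((n + 2 : ℕ) * max u 0 ^ (n + 1)) u := by
  rcases lt_trichotomy u 0 with h | h | h
  · have e : (fun u : ℝ => max u 0 ^ (n + 2)) =ᶠ[𝓝 u] fun _ => 0 :=
      (eventually_lt_nhds h).mono fun v hv => by simp [max_eq_right hv.le]
    simpa [max_eq_right h.le] using (hasDerivAt_const u (0 : ℝ)).congr_of_eventuallyEq e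
  · subst h
    rw [hasDerivAt_iff_tendsto_slope_zero]
    have h1 : Tendsto (fun t : ℝ => max t 0 ^ (n + 1)) (𝓝[≠] 0) (𝓝 (max (0 : ℝ) 0 ^ (n + 1))) :=
      (Continuous.tendsto (by fun_prop) 0).mono_left nhdsWithin_le_nhds
    simp only [max_self, ne_eq, Nat.add_eq_zero_iff, one_ne_zero, and_false, not_false_eq_true,
      zero_pow, mul_zero, zero_add, OfNat.ofNat_ne_zero, sub_zero, smul_eq_mul] at h1 ⊢
    refine h1.congr' (eventually_nhdsWithin_of_forall fun t ht => ?_)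
    have ht' : t ≠ 0 := ht
    rcases le_total t 0 with h2 | h2
    · simp [max_eq_right h2]
    · simp only [max_eq_left h2]; field_simp; ring
  · have e : (fun u : ℝ => max u 0 ^ (n + 2)) =ᶠ[𝓝 u] fun u => u ^ (n + 2) :=
      (eventually_gt_nhds h).mono fun v hv => by simp [max_eq_left hv.le]
    simpa [max_eq_left h.le] using (hasDerivAt_pow (n + 2) u).congr_of_eventuallyEq e

/-- the speed of the real path -/
def dxr (R X s : ℝ) : ℝ := 2 + 6 * (X - R - 2) * cub s ^ 2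

theorem rp_xr {R X : ℝ} (h : R + 2 ≤ X) : Rp 0 1 R X (xr R X) (dxr R X) where
  le := zero_le_one
  dv := Dv.of_hasDerivAt fun s _ => by
    have h1 : HasDerivAt (fun s : ℝ => 2 * s - 1) 2 s := by
      simpa using ((hasDerivAt_id s).const_mul 2).sub_const 1
    have h2 := (hasDerivAt_posPow 1 (2 * s - 1)).comp s h1
    have h3 := (((hasDerivAt_id s).const_mul 2).const_add R).add (h2.const_mul (X - R - 2))
    exact h3.congr_deriv (by simp [dxr, cub]; ring)
  cc := by have := continuous_cub; unfold dxr; fun_prop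
  one_le s _ := by
    have : 0 ≤ 6 * (X - R - 2) * cub s ^ 2 := by have : 0 ≤ X - R - 2 := by linarith
                                                 positivity
    unfold dxr; linarith
  left := by simp [xr, cub]
  right := by norm_num [xr, cub]

theorem gam_xr (R X : ℝ) (s : II) : gam R X s = (xr R X s : ℝ) := by simp [gam, xr]

theorem dgam_dxr (R X : ℝ) (s : II) : dgam R X s = (dxr R X s : ℝ) := by simp [dgam, dxr]

theorem sig_xr {R X : ℝ} (h : R + 2 ≤ X) (s : II) : sig (xr R X s - R) = sig (2 * s) := by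
  rcases le_total (2 * (s : ℝ)) 1 with h1 | h1
  · simp [xr, cub, max_eq_right (by linarith : 2 * (s : ℝ) - 1 ≤ 0)]
  · have : 0 ≤ (X - R - 2) * cub s ^ 3 :=
      mul_nonneg (by linarith) (pow_nonneg (le_max_right _ _) _)
    rw [sig, sig, max_eq_right (by unfold xr; linarith), max_eq_right (by linarith)]

end path

variable {ℓ : Ell}

/-- the Dirichlet datum of the mode `m` -/
def dw (D : Dat ℓ) (m : ℤ) : ℂ :=
  if 2 ≤ |m| then Wi.co D.1 m else if m = 1 then D.2.2.1 else if m = -1 then D.2.2.2 else 0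

theorem small_cases {m : ℤ} (h : ¬ 2 ≤ |m|) : m = 0 ∨ m = 1 ∨ m = -1 := by
  rcases abs_cases m with h1 | h1 <;> omega

theorem bc_iff (D : Dat ℓ) (J : Jt ℓ) : BC D J ↔
    ∀ m, ex (Wi.co (J 0) m) (pt 0 1 m) = dw D m ∧ ex (Wi.co (J 1) m) 1 = Wi.co D.2.1 m := by
  constructor
  · intro h m
    refine ⟨?_, by rw [ex_1, h.slope]⟩
    by_cases hm : 2 ≤ |m|
    · simp only [pt, dw, if_pos hm, ex_0, h.inner m hm]
    · simp only [pt, dw, if_neg hm, ex_1]
      rcases small_cases hm with rfl | rfl | rfl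
      · simpa using h.far0
      · simpa using h.farp
      · simpa using h.farm
  · intro h
    refine ⟨fun m hm => ?_, fun m => by rw [← ex_1, (h m).2], ?_, ?_, ?_⟩
    · simpa only [pt, dw, if_pos hm, ex_0] using (h m).1
    · simpa [pt, dw, ex_1] using (h 0).1
    · simpa [pt, dw, ex_1] using (h 1).1
    · simpa [pt, dw, ex_1] using (h (-1)).1

theorem xr_pt {R X : ℝ} (h : R + 2 ≤ X) (m : ℤ) : xr R X (pt 0 1 m) = pt R X m := by
  unfold pt; split_ifs
  exacts [(rp_xr h).left, (rp_xr h).right]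

theorem pt_mem (m : ℤ) : pt 0 1 m ∈ Icc (0 : ℝ) 1 := by
  unfold pt; split_ifs <;> simp

theorem Lin.q_eq {R X : ℝ} {a : ℂ} {J : Jt ℓ} {G : Wi (om ℓ)} (h : Lin R X a J G) (m : ℤ) (s : II) :
    Wi.co (J 2) m s = dr (xr R X s) * Wi.co (J 1) m s + Vx a m (xr R X s) * Wi.co (J 0) m s +
      Wi.co G m s := by
  rw [← h.2 m s, gam_xr, dr, Vx]; push_cast; ring

theorem Lin.sys {R X : ℝ} {a : ℂ} {J : Jt ℓ} {G : Wi (om ℓ)} (h : Lin R X a J G) (m : ℤ) :
    Sys 0 1 (fun s => dxr R X s) (fun s => dr (xr R X s)) (fun s => Vx a m (xr R X s))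
      (ex (Wi.co G m)) (ex (Wi.co (J 0) m)) (ex (Wi.co (J 1) m)) :=
  ⟨fun s hs => ((h.1.d0 m).hasD hs).congr_deriv (by
      simp only [ex_mem _ hs]
      rw [ContinuousMap.mul_apply, dgam_dxr]),
    fun s hs => ((h.1.d1 m).hasD hs).congr_deriv (by
      simp only [ex_mem _ hs]
      rw [ContinuousMap.mul_apply, dgam_dxr, h.q_eq])⟩

/-- **one mode of a jet** -/
theorem Lin.mode {R X M : ℝ} {a : ℂ} {J : Jt ℓ} {G : Wi (om ℓ)} {D : Dat ℓ} {m : ℤ} {Γ : ℝ → ℝ}
    {δ0 δ1 : ℝ} {F : Fin 6 → ℝ → ℝ} (h : Lin R X a J G) (hb : BC D J) (hX : R + 2 ≤ X)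
    (he : MEst R X a m Γ δ0 δ1 F) (hM : 0 ≤ M)
    (hG : ∀ s : II, ‖Wi.co G m s‖ ≤ M * Γ (xr R X s)) (h0 : ‖dw D m‖ ≤ M * δ0)
    (h1 : ‖Wi.co D.2.1 m‖ ≤ M * δ1) (i : Fin 6) (s : II) :
    ‖Wi.co (J i) m s‖ ≤ M * F i (xr R X s) := by
  have rp := rp_xr hX
  obtain ⟨G', W', P', hs, e⟩ := rp.sol2 (h.sys m)
  obtain ⟨b0, b1⟩ := (bc_iff D J).1 hb m
  obtain ⟨r0, r1, r2, r3, r4, r5⟩ := he G' W' P' M hM hs
    (fun x hx => by
      obtain ⟨t, ht, rfl⟩ := rp.surj hx
      rw [(e t ht).1, ex_mem _ ht]; exact hG ⟨t, ht⟩)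
    (by rw [← xr_pt hX, (e _ (pt_mem m)).2.1, b0]; exact h0)
    (by rw [← rp.right, (e 1 (right_mem_Icc.2 zero_le_one)).2.2, b1]; exact h1) _ (rp.maps s.2)
  obtain ⟨e0, e1, e2⟩ := e s s.2
  rw [ex_mem _ s.2] at e0 e1 e2
  simp only [e0, e1, e2, Subtype.coe_eta] at r0 r1 r2 r3 r4 r5
  fin_cases i
  · exact r0
  · exact r1
  · rw [← h.q_eq] at r2; exact r2
  · simpa [h.1.t0] using r3
  · simpa [h.1.t1] using r4
  · simpa [h.1.t2] using r5

/-- one mode: existence on the parameter interval -/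
theorem MEx.ci {R X : ℝ} {a : ℂ} {m : ℤ} (h : MEx R X a m) (hX : R + 2 ≤ X)
    (hη : ∀ x ∈ Icc R X, et a x ≠ 0) (g : CI) (α β : ℂ) :
    ∃ w p q : CI, Der w (dgam R X * p) ∧ Der p (dgam R X * q) ∧
      (∀ s : II, q s = dr (xr R X s) * p s + Vx a m (xr R X s) * w s + g s) ∧
      ex w (pt 0 1 m) = α ∧ ex p 1 = β := by
  have rp := rp_xr hX
  obtain ⟨G, hG, eG⟩ := rp.lift (ex_cont g).continuousOn
  obtain ⟨w, p, hs, e0, e1⟩ := h G hG α β
  have hy := rp.sys hs
  have cx : Continuous fun s : II => xr R X s := rp.dv.cont.domRestrict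
  have cw : Continuous fun s : II => w (xr R X s) := hy.d0.cont.domRestrict
  have cp : Continuous fun s : II => p (xr R X s) := hy.d1.cont.domRestrict
  have cV : Continuous fun s : II => Vx a m (xr R X s) := by
    refine Continuous.sub (continuous_const.div ?_ fun s => ?_) continuous_const
    · unfold et; fun_prop
    · exact mul_ne_zero two_ne_zero (hη _ (rp.maps s.2))
  refine ⟨⟨_, cw⟩, ⟨_, cp⟩, ⟨fun s => dr (xr R X s) * p (xr R X s) +
    Vx a m (xr R X s) * w (xr R X s) + g s,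
      (((dr_cont.comp cx).mul cp).add (cV.mul cw)).add g.continuous⟩,
    der_of_fun (g := fun s => w (xr R X s)) (fun _ => rfl) fun s hs => ?_,
    der_of_fun (g := fun s => p (xr R X s)) (fun _ => rfl) fun s hs => ?_, fun _ => rfl, ?_, ?_⟩
  · exact (hy.d0.at hs).congr_deriv (by rw [ContinuousMap.mul_apply, dgam_dxr]; rfl)
  · refine (hy.d1.at hs).congr_deriv ?_
    rw [ContinuousMap.mul_apply, dgam_dxr, eG s s.2, ex_mem _ s.2]; rfl
  · rw [ex_mem _ (pt_mem m), ← e0, ← xr_pt hX]; rfl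
  · rw [ex_1, ← e1]; exact congrArg p rp.right

end Crest.Agent.N250.B1

end
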