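import Crest.Agent.N250.B1.Ex
import Crest.Agent.N250.B1.Defs

/-! # Row 250, block B1, leaf S3: the weights `η, μ, ρ, W, Ω_m` and their logarithmic derivatives -/

set_option autoImplicit false

open Set Filter Topology

namespace Crest.Agent.N250.B1

noncomputable section

/-- `Ω = W e^{-τ}` (`τ x = sig (x - R) * ℓ m` for the mode `m`) -/
def Om (g g' : ℝ) (τ : ℝ → ℝ) (a : ℂ) (x : ℝ) : ℝ := W g g' a x * Real.exp (-τ x)
/-- `(log |η|)'` -/
def ln (a : ℂ) (x : ℝ) : ℝ := (a * x / et a x).re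
/-- `(log μ)'` -/
def lm (a : ℂ) (x : ℝ) : ℝ := (-(a * x) / et a x ^ 2).re / mu a x
/-- `(log Ω)'` -/
def lam (g g' : ℝ) (τ1 : ℝ → ℝ) (a : ℂ) (x : ℝ) : ℝ := -g / x + g' * ln a x - τ1 x
/-- `(log Ω)''` -/
def lam1 (g g' : ℝ) (τ2 : ℝ → ℝ) (a : ℂ) (x : ℝ) : ℝ :=
  g / x ^ 2 + g' * (a / et a x - (a * x / et a x) ^ 2).re - τ2 x
/-- the potential of the mode `m` -/
def Vm (a : ℂ) (m : ℤ) (x : ℝ) : ℂ := (m : ℂ) ^ 2 / (2 * et a x) - 1
/-- logarithmic derivative of the rotation field `x √η` -/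
def l1 (a : ℂ) (x : ℝ) : ℂ := 1 / x + a * x / (2 * et a x)
/-- derivative of `l1` -/
def l1' (a : ℂ) (x : ℝ) : ℂ := -1 / x ^ 2 + a / (2 * et a x) - (a * x / et a x) ^ 2 / 2
/-- residual of the factorisation of `L_{±1}` -/
def res (a : ℂ) (x : ℝ) : ℂ := -a / et a x + a ^ 2 * x ^ 2 / (4 * et a x ^ 2)
/-- logarithmic derivative of `J = (x² - 2)/2` -/
def l0 (x : ℝ) : ℝ := 2 * x / (x ^ 2 - 2)

/-- the pointwise smallness hypotheses -/
structure Pt (ε : ℝ) (a : ℂ) (x : ℝ) : Prop where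
  small : ε ≤ 1 / 10 ^ 5
  xpos : 0 < x
  repos : 0 < (et a x).re
  disc9 : 4 * ‖et a x‖ ^ 2 ≤ 9 * (et a x).re
  a_le : ‖a‖ ≤ ε * (et a x).re
  x_le : 1 ≤ ε * x ^ 2 * (et a x).re

/-- admissible parameters on `[R,X]` -/
def Ok (ε : ℝ) (a : ℂ) (R X : ℝ) : Prop := R < X ∧ ∀ x ∈ Icc R X, Pt ε a x

/-- admissible exponents with an explicit margin `c` -/
structure GG (g g' c : ℝ) : Prop where
  lo : 3 / 2 ≤ g
  pos : 0 < c
  hi : c ≤ 2 - g'
  gap : 8 * c ≤ 10 * g' - 9 * g - 2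

lemma Ex.gg {g g' : ℝ} (h : Ex g g') : ∃ c, GG g g' c :=
  ⟨min (2 - g') ((10 * g' - 9 * g - 2) / 8), h.1.le,
    lt_min (by linarith [h.2.1]) (by linarith [h.2.2]), min_le_left _ _,
    by linarith [min_le_right (2 - g') ((10 * g' - 9 * g - 2) / 8)]⟩

lemma GG.le {g g' c : ℝ} (G : GG g g' c) : g ≤ g' := by
  have := G.lo; have := G.pos; have := G.hi; have := G.gap; linarith
lemma GG.hi' {g g' c : ℝ} (G : GG g g' c) : g' ≤ 2 := by have := G.pos; have := G.hi; linarith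
lemma GG.lo' {g g' c : ℝ} (G : GG g g' c) : 31 / 20 ≤ g' := by
  have := G.lo; have := G.pos; have := G.gap; linarith
lemma GG.c_le {g g' c : ℝ} (G : GG g g' c) : c ≤ 1 / 2 := by
  have := G.lo'; have := G.hi; linarith

/-- admissible smoothing exponents `τ`, of size `b` -/
structure Sg (τ τ1 τ2 : ℝ → ℝ) (R X b : ℝ) : Prop where
  d0 : Dv R X τ τ1
  d1 : Dv R X τ1 τ2
  nn : ∀ x ∈ Icc R X, 0 ≤ τ1 x
  le1 : ∀ x ∈ Icc R X, x * τ1 x ≤ b
  le2 : ∀ x ∈ Icc R X, |τ2 x| ≤ b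

lemma Sg.zero (R X : ℝ) {b : ℝ} (hb : 0 ≤ b) : Sg (fun _ => 0) (fun _ => 0) (fun _ => 0) R X b :=
  ⟨fun _ _ => hasDerivWithinAt_const _ _ _, fun _ _ => hasDerivWithinAt_const _ _ _,
    fun _ _ => le_rfl, fun _ _ => by simpa, fun _ _ => by simpa⟩

lemma et_sub (a : ℂ) (x : ℝ) : a * (x : ℂ) ^ 2 = 2 * (et a x - 1 + a) := by
  unfold et; ring

lemma et_re (a : ℂ) (x : ℝ) : (et a x).re = 1 + a.re * (x ^ 2 - 2) / 2 := by
  have : et a x = 1 + a * (((x ^ 2 - 2) / 2 : ℝ) : ℂ) := by unfold et; push_cast; ring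
  rw [this, Complex.add_re, Complex.re_mul_ofReal, Complex.one_re]; ring

lemma mu_eq (a : ℂ) (x : ℝ) : mu a x = (et a x).re / ‖et a x‖ ^ 2 := by
  rw [mu, Complex.inv_re, Complex.normSq_eq_norm_sq]

lemma hasDerivAt_et (a : ℂ) (x : ℝ) : HasDerivAt (fun y : ℝ => et a y) (a * x) x := by
  have h : HasDerivAt (fun y : ℝ => (y : ℂ)) 1 x := Complex.ofRealCLM.hasDerivAt
  have := ((((h.pow 2).sub_const 2).const_mul a).div_const 2).const_add 1
  refine (show HasDerivAt (fun y : ℝ => et a y) _ x from this).congr_deriv ?_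
  simp; ring

lemma continuous_et (a : ℂ) : Continuous fun y : ℝ => et a y :=
  continuous_iff_continuousAt.2 fun x => (hasDerivAt_et a x).continuousAt

lemma Vm_re (a : ℂ) (m : ℤ) (x : ℝ) : (Vm a m x).re = (m : ℝ) ^ 2 / 2 * mu a x - 1 := by
  have : Vm a m x = (((m : ℝ) ^ 2 / 2 : ℝ) : ℂ) * (et a x)⁻¹ - 1 := by
    unfold Vm; push_cast; rw [div_eq_mul_inv, mul_inv]; ring
  rw [this, Complex.sub_re, Complex.re_ofReal_mul, Complex.one_re, mu]

namespace Pt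
variable {ε x : ℝ} {a : ℂ}

lemma disc (h : Pt ε a x) : ‖et a x‖ ^ 2 ≤ 3 * (et a x).re := by
  have := h.disc9; have := h.repos; linarith

lemma mono (h : Pt ε a x) {ε' : ℝ} (h1 : ε ≤ ε') (h2 : ε' ≤ 1 / 10 ^ 5) : Pt ε' a x :=
  ⟨h2, h.xpos, h.repos, h.disc9, h.a_le.trans (mul_le_mul_of_nonneg_right h1 h.repos.le),
    h.x_le.trans (by have := h.repos; gcongr)⟩

lemma εpos (h : Pt ε a x) : 0 < ε := by
  by_contra hn
  have h1 := h.x_le
  have : ε * x ^ 2 * (et a x).re ≤ 0 :=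
    mul_nonpos_of_nonpos_of_nonneg (mul_nonpos_of_nonpos_of_nonneg (not_lt.1 hn) (sq_nonneg _))
      h.repos.le
  linarith

lemma ne (h : Pt ε a x) : et a x ≠ 0 := fun e => by
  have := h.repos; rw [e] at this; simp at this

lemma npos (h : Pt ε a x) : 0 < ‖et a x‖ := norm_pos_iff.2 h.ne

lemma re_le (_h : Pt ε a x) : (et a x).re ≤ ‖et a x‖ := Complex.re_le_norm _

lemma norm_le (h : Pt ε a x) : ‖et a x‖ ≤ 3 := by
  have := h.disc; have := h.re_le; have := h.npos; nlinarith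

lemma mu_mul (h : Pt ε a x) : mu a x * ‖et a x‖ ^ 2 = (et a x).re := by
  rw [mu_eq]; have := h.npos; field_simp

lemma mu_ge (h : Pt ε a x) : 1 / 3 ≤ mu a x := by
  rw [mu_eq, le_div_iff₀ (by have := h.npos; positivity)]; have := h.disc; linarith

lemma mu_ge' (h : Pt ε a x) : 4 / 9 ≤ mu a x := by
  rw [mu_eq, le_div_iff₀ (by have := h.npos; positivity)]; have := h.disc9; linarith

lemma mu_pos (h : Pt ε a x) : 0 < mu a x := by have := h.mu_ge; linarith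

lemma mu_norm_le (h : Pt ε a x) : mu a x * ‖et a x‖ ≤ 1 := by
  have h1 := h.mu_mul; have h2 := h.re_le; have h3 := h.npos
  by_contra hn
  have : 1 * ‖et a x‖ < mu a x * ‖et a x‖ * ‖et a x‖ :=
    mul_lt_mul_of_pos_right (not_le.1 hn) h3
  nlinarith


lemma re_le_three (h : Pt ε a x) : (et a x).re ≤ 3 := h.re_le.trans h.norm_le

/-- `1 ≤ 3 ε x²` -/
lemma one_le (h : Pt ε a x) : 1 ≤ 3 * ε * x ^ 2 := by
  have h1 := h.x_le; have h2 := h.re_le_three; have h3 := h.εpos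
  have : ε * x ^ 2 * (et a x).re ≤ ε * x ^ 2 * 3 := by gcongr
  linarith

lemma x_ge (h : Pt ε a x) : 100 ≤ x := by
  have h1 := h.one_le; have h2 := h.small; have h3 := h.xpos
  by_contra hn
  have h4 : x ^ 2 ≤ 100 ^ 2 := by have := (not_le.1 hn).le; gcongr
  have : 3 * ε * x ^ 2 ≤ 3 * (1 / 10 ^ 5) * 100 ^ 2 := by have := h.εpos; gcongr
  norm_num at this; linarith

lemma inv_sq_le (h : Pt ε a x) : 1 / x ^ 2 ≤ 3 * ε := by
  rw [div_le_iff₀ (by have := h.xpos; positivity)]; exact h.one_le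

lemma inv_le (h : Pt ε a x) : 1 / x ≤ 3 * ε * x := by
  rw [div_le_iff₀ h.xpos]; have := h.one_le; nlinarith

/-- `1 ≤ ε x² |η|` -/
lemma one_le_norm (h : Pt ε a x) : 1 ≤ ε * x ^ 2 * ‖et a x‖ :=
  h.x_le.trans (by have := h.εpos; have := h.re_le; gcongr)

/-- `1/(x² |η|²) ≤ ε μ` -/
lemma inv_sq_norm_le (h : Pt ε a x) : 1 / (x ^ 2 * ‖et a x‖ ^ 2) ≤ ε * mu a x := by
  have := h.xpos; have := h.npos
  rw [div_le_iff₀ (by positivity)]
  have h1 := h.x_le; rw [← h.mu_mul] at h1; nlinarith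


lemma a_le_norm (h : Pt ε a x) : ‖a‖ ≤ ε * ‖et a x‖ :=
  h.a_le.trans (by have := h.εpos; have := h.re_le; gcongr)

lemma a_le_three (h : Pt ε a x) : ‖a‖ ≤ 3 * ε := by
  have := h.a_le_norm; have := h.norm_le; have := h.εpos; nlinarith

lemma a_div_le (h : Pt ε a x) : ‖a / et a x‖ ≤ ε := by
  rw [norm_div, div_le_iff₀ h.npos]; exact h.a_le_norm

lemma a_sq_le (h : Pt ε a x) : ‖a‖ * x ^ 2 ≤ 9 := by
  have e : ‖a‖ * x ^ 2 = ‖a * (x : ℂ) ^ 2‖ := by simp
  rw [e, et_sub, norm_mul]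
  have h1 : ‖et a x - 1 + a‖ ≤ ‖et a x‖ + 1 + ‖a‖ :=
    (norm_add_le _ _).trans (by have := norm_sub_le (et a x) 1; simp at this; linarith)
  have h2 := h.norm_le; have h3 := h.a_le_three; have h4 := h.small
  simp only [Complex.norm_ofNat]
  norm_num at h4; linarith

lemma norm_ee (h : Pt ε a x) : ‖a * x / et a x‖ = ‖a‖ * x / ‖et a x‖ := by
  simp [abs_of_pos h.xpos]

/-- `|η'/η| ≤ ε x` -/
lemma ee_le (h : Pt ε a x) : ‖a * x / et a x‖ ≤ ε * x := by
  rw [h.norm_ee, div_le_iff₀ h.npos]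
  have := h.a_le_norm; have := h.xpos; nlinarith

/-- `|η'/η|² ≤ 9 ε μ` -/
lemma ee_sq_le (h : Pt ε a x) : ‖a * x / et a x‖ ^ 2 ≤ 9 * ε * mu a x := by
  rw [h.norm_ee, div_pow, div_le_iff₀ (by have := h.npos; positivity), mul_assoc, h.mu_mul]
  have h1 := h.a_le; have h2 := h.a_sq_le; have h3 := norm_nonneg a
  have h4 : 0 ≤ ε * (et a x).re := h3.trans h1
  calc (‖a‖ * x) ^ 2 = ‖a‖ * (‖a‖ * x ^ 2) := by ring
    _ ≤ (ε * (et a x).re) * 9 := by gcongr
    _ = _ := by ring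

lemma ee_eq (h : Pt ε a x) : x * (a * x / et a x) = 2 * (1 - (et a x)⁻¹ + a / et a x) := by
  have h1 := h.ne
  have h2 := et_sub a x
  field_simp
  linear_combination h2

/-- `x (log|η|)' = 2 (1 - μ + re (a/η))` -/
lemma ee_re (h : Pt ε a x) : x * (a * x / et a x).re = 2 * (1 - mu a x + (a / et a x).re) := by
  have := congrArg Complex.re h.ee_eq
  rw [Complex.re_ofReal_mul] at this
  rw [this, mu]; simp

lemma abs_re_a_div (h : Pt ε a x) : |(a / et a x).re| ≤ ε :=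
  (Complex.abs_re_le_norm _).trans h.a_div_le

lemma ln_le (h : Pt ε a x) : |ln a x| ≤ ε * x := (Complex.abs_re_le_norm _).trans h.ee_le

lemma lm_le (h : Pt ε a x) : |lm a x| ≤ ε * x := by
  have h0 := h.mu_pos; have := h.npos; have := h.xpos
  rw [lm, abs_div, abs_of_pos h0, div_le_iff₀ h0]
  refine (Complex.abs_re_le_norm _).trans ?_
  have e : ‖-(a * x) / et a x ^ 2‖ = ‖a‖ * x / ‖et a x‖ ^ 2 := by simp [abs_of_pos h.xpos]
  rw [e, div_le_iff₀ (by positivity), mul_assoc, h.mu_mul]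
  have := h.a_le; nlinarith

lemma ln_le' (h : Pt ε a x) : |ln a x| ≤ x / 16 := by
  have := h.ln_le; have h2 := h.small; have := h.xpos; norm_num at h2; nlinarith

lemma lm_le' (h : Pt ε a x) : |lm a x| ≤ x / 16 := by
  have := h.lm_le; have h2 := h.small; have := h.xpos; norm_num at h2; nlinarith

lemma W_pos (h : Pt ε a x) (g g' : ℝ) : 0 < W g g' a x := by
  have := h.xpos; have := h.npos; unfold W; positivity

lemma Om_pos (h : Pt ε a x) (g g' : ℝ) (τ : ℝ → ℝ) : 0 < Om g g' τ a x :=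
  mul_pos (h.W_pos g g') (Real.exp_pos _)

/-! ### derivatives -/

lemma hasDerivAt_inv (h : Pt ε a x) :
    HasDerivAt (fun y : ℝ => (et a y)⁻¹) (-(a * x) / et a x ^ 2) x :=
  (hasDerivAt_et a x).inv h.ne

lemma hasDerivAt_mu (h : Pt ε a x) : HasDerivAt (mu a) (lm a x * mu a x) x := by
  have := Complex.reCLM.hasFDerivAt.comp_hasDerivAt x h.hasDerivAt_inv
  rw [lm, div_mul_cancel₀ _ h.mu_pos.ne']
  exact this

lemma hasDerivAt_log (h : Pt ε a x) : HasDerivAt (fun y : ℝ => Real.log ‖et a y‖) (ln a x) x := by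
  have h1 := (hasDerivAt_et a x).clog_real (Or.inl h.repos)
  have := Complex.reCLM.hasFDerivAt.comp_hasDerivAt x h1
  simpa [Function.comp_def, Complex.log_re, ln] using this

lemma ev_ne (h : Pt ε a x) : ∀ᶠ y : ℝ in 𝓝 x, et a y ≠ 0 :=
  (continuous_et a).continuousAt.eventually_ne h.ne

lemma hasDerivAt_norm (h : Pt ε a x) :
    HasDerivAt (fun y : ℝ => ‖et a y‖) (ln a x * ‖et a x‖) x := by
  have h1 := h.hasDerivAt_log.exp
  rw [Real.exp_log h.npos, mul_comm] at h1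
  refine h1.congr_of_eventuallyEq (h.ev_ne.mono fun y hy => ?_)
  simp only [Real.exp_log (norm_pos_iff.2 hy)]

lemma hasDerivAt_W (h : Pt ε a x) (g g' : ℝ) :
    HasDerivAt (W g g' a) ((-g / x + g' * ln a x) * W g g' a x) x := by
  have h1 := (hasDerivAt_id x).rpow_const (p := -g) (Or.inl h.xpos.ne')
  have h2 := h.hasDerivAt_norm.rpow_const (p := g') (Or.inl h.npos.ne')
  have h3 := h1.mul h2
  simp only [id] at h3
  refine (show HasDerivAt (W g g' a) _ x from h3).congr_deriv ?_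
  rw [Real.rpow_sub_one h.xpos.ne', Real.rpow_sub_one h.npos.ne', W]
  have := h.xpos; have := h.npos
  field_simp

lemma hasDerivAt_ee (h : Pt ε a x) :
    HasDerivAt (fun y : ℝ => a * y / et a y) (a / et a x - (a * x / et a x) ^ 2) x := by
  have h0 : HasDerivAt (fun y : ℝ => (y : ℂ)) 1 x := Complex.ofRealCLM.hasDerivAt
  have := (h0.const_mul a).div (hasDerivAt_et a x) h.ne
  refine (show HasDerivAt (fun y : ℝ => a * y / et a y) _ x from this).congr_deriv ?_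
  have := h.ne
  field_simp

lemma hasDerivAt_ln (h : Pt ε a x) :
    HasDerivAt (ln a) (a / et a x - (a * x / et a x) ^ 2).re x :=
  Complex.reCLM.hasFDerivAt.comp_hasDerivAt x h.hasDerivAt_ee

lemma hasDerivAt_l1 (h : Pt ε a x) : HasDerivAt (l1 a) (l1' a x) x := by
  have h0 : HasDerivAt (fun y : ℝ => (y : ℂ)) 1 x := Complex.ofRealCLM.hasDerivAt
  have hx : (x : ℂ) ≠ 0 := by exact_mod_cast h.xpos.ne'
  have h1 := (h0.inv hx).add (h.hasDerivAt_ee.div_const 2)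
  have e : l1 a = fun y : ℝ => ((y : ℂ))⁻¹ + a * y / et a y / 2 := by
    funext y; unfold l1; rw [one_div, div_div, mul_comm (et a y)]
  rw [e]
  refine (show HasDerivAt (fun y : ℝ => ((y : ℂ))⁻¹ + a * y / et a y / 2) _ x from
    h1).congr_deriv ?_
  unfold l1'
  rw [mul_comm 2 (et a x), ← div_div]; ring

/-! ### the modes `0`, `±1` -/

/-- `L_{±1}` factorises up to `res`: `V_1 = -(l1' + l1² - (x/2) l1) ... ` precisely
`l1' + l1² - (x/2) l1 - V_1 = -res`. -/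
lemma res_eq (h : Pt ε a x) {m : ℤ} (hm : m ^ 2 = 1) :
    l1' a x + l1 a x ^ 2 - x / 2 * l1 a x - Vm a m x = -res a x := by
  have hx : (x : ℂ) ≠ 0 := by exact_mod_cast h.xpos.ne'
  have hm' : (m : ℂ) ^ 2 = 1 := by exact_mod_cast hm
  have h1 := h.ne
  have h2 := et_sub a x
  unfold l1' l1 Vm res
  rw [hm']
  field_simp
  linear_combination (-4 * (x : ℂ) ^ 2 * et a x) * h2

lemma res_le (h : Pt ε a x) : ‖res a x‖ ≤ 6 * ε * mu a x := by
  have e : res a x = -(a / et a x) + (a * x / et a x) ^ 2 / 4 := by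
    unfold res; have := h.ne; field_simp
  rw [e]
  refine (norm_add_le _ _).trans ?_
  rw [norm_neg, norm_div _ 4, norm_pow]
  have h1 := h.a_div_le; have h2 := h.ee_sq_le; have h3 := h.mu_ge; have h4 := h.εpos
  simp only [Complex.norm_ofNat]
  nlinarith

lemma res_le' (h : Pt ε a x) : ‖res a x‖ ≤ mu a x / 100 := by
  have := h.res_le; have h2 := h.small; have := h.mu_pos; norm_num at h2; nlinarith

lemma l1_eq (a : ℂ) (x : ℝ) : l1 a x = ((1 / x : ℝ) : ℂ) + a * x / et a x / 2 := by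
  unfold l1; push_cast; rw [div_div, mul_comm (et a x)]

lemma l1_re (a : ℂ) (x : ℝ) : (l1 a x).re = 1 / x + ln a x / 2 := by
  rw [l1_eq, Complex.add_re, Complex.ofReal_re, ln]; simp

lemma l1_le (h : Pt ε a x) : ‖l1 a x‖ ≤ 4 * ε * x := by
  rw [l1_eq]
  refine (norm_add_le _ _).trans ?_
  rw [Complex.norm_real, Real.norm_of_nonneg (by have := h.xpos; positivity), norm_div _ 2]
  have := h.inv_le; have := h.ee_le; have := h.εpos; have := h.xpos
  simp only [Complex.norm_ofNat]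
  nlinarith

lemma l1_le' (h : Pt ε a x) : ‖l1 a x‖ ≤ x / 16 := by
  have := h.l1_le; have h2 := h.small; have := h.xpos; norm_num at h2; nlinarith

/-- `|l1| ≤ 8/(x |η|)` -/
lemma l1_le_inv (h : Pt ε a x) : ‖l1 a x‖ ≤ 8 / (x * ‖et a x‖) := by
  have := h.xpos; have := h.npos
  rw [l1_eq]
  refine (norm_add_le _ _).trans ?_
  rw [Complex.norm_real, Real.norm_of_nonneg (by positivity), norm_div _ 2, h.norm_ee,
    le_div_iff₀ (by positivity)]
  simp only [Complex.norm_ofNat]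
  have e : (1 / x + ‖a‖ * x / ‖et a x‖ / 2) * (x * ‖et a x‖) = ‖et a x‖ + ‖a‖ * x ^ 2 / 2 := by
    field_simp
  rw [e]; have := h.norm_le; have := h.a_sq_le; linarith

lemma lam_le (h : Pt ε a x) {g g' c : ℝ} (G : GG g g' c) {τ1 : ℝ → ℝ} (hσ : 0 ≤ τ1 x) :
    lam g g' τ1 a x ≤ 2 * ε * x := by
  have h1 : -g / x ≤ 0 := div_nonpos_of_nonpos_of_nonneg (by linarith [G.lo]) h.xpos.le
  have h2 := (le_abs_self _).trans h.ln_le
  have h4 : 0 ≤ ε * x := by have := h.εpos; have := h.xpos; positivity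
  have h5 : g' * ln a x ≤ g' * (ε * x) := mul_le_mul_of_nonneg_left h2 (by linarith [G.lo'])
  have := G.hi'
  unfold lam; nlinarith

lemma lam_le' (h : Pt ε a x) {g g' c : ℝ} (G : GG g g' c) {τ1 : ℝ → ℝ} (hσ : 0 ≤ τ1 x) :
    lam g g' τ1 a x ≤ x / 16 := by
  have := h.lam_le G hσ; have h2 := h.small; have := h.xpos; norm_num at h2; nlinarith

lemma x_lam (h : Pt ε a x) (g g' : ℝ) (τ1 : ℝ → ℝ) : x * lam g g' τ1 a x =
    -g + 2 * g' * (1 - mu a x + (a / et a x).re) - x * τ1 x := by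
  have hx := h.xpos
  have e : x * lam g g' τ1 a x = -g + g' * (x * (a * x / et a x).re) - x * τ1 x := by
    unfold lam ln; field_simp
  rw [e, h.ee_re]; ring

/-- sharper: `x (log Ω)' ≤ 1` -/
lemma x_lam_le (h : Pt ε a x) {g g' c : ℝ} (G : GG g g' c) {τ1 : ℝ → ℝ} (hσ : 0 ≤ τ1 x) :
    x * lam g g' τ1 a x ≤ 1 := by
  have h3 : 0 ≤ x * τ1 x := mul_nonneg h.xpos.le hσ
  rw [h.x_lam]
  have h1 := (abs_le.1 h.abs_re_a_div).2; have h2 := h.mu_ge'; have h4 := h.small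
  have := G.lo; have := G.hi'; have := G.lo'
  norm_num at h4
  nlinarith

/-- the backward barrier for the modes `±1` -/
lemma lam_sub_l1 (h : Pt ε a x) {g g' c : ℝ} (G : GG g g' c) {τ1 : ℝ → ℝ} (hσ : 0 ≤ τ1 x) :
    x * (lam g g' τ1 a x - (l1 a x).re) ≤ -(3 / 2) * mu a x := by
  have hx := h.xpos
  have e : x * (l1 a x).re = 1 + (1 - mu a x + (a / et a x).re) := by
    have := h.ee_re
    rw [l1_re, mul_add, mul_one_div_cancel hx.ne', ln]; linarith
  have h3 : 0 ≤ x * τ1 x := mul_nonneg h.xpos.le hσ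
  rw [mul_sub, e, h.x_lam]
  have h1 := (abs_le.1 h.abs_re_a_div).2; have h2 := h.mu_ge'; have h4 := h.small
  have := G.lo; have := G.hi'; have := G.lo'
  norm_num at h4
  nlinarith

lemma sq_sub_pos (h : Pt ε a x) : 0 < x ^ 2 - 2 := by have := h.x_ge; nlinarith


lemma l0_le (h : Pt ε a x) : l0 x ≤ 3 / x := by
  have := h.x_ge
  rw [l0, div_le_div_iff₀ h.sq_sub_pos h.xpos]; nlinarith

lemma hasDerivAt_l0 (h : Pt ε a x) : HasDerivAt l0 (x / 2 * l0 x - 1 - l0 x ^ 2) x := by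
  have h1 := ((hasDerivAt_id x).const_mul 2).div (((hasDerivAt_id x).pow 2).sub_const 2)
    h.sq_sub_pos.ne'
  refine (show HasDerivAt l0 _ x from h1).congr_deriv ?_
  have := h.sq_sub_pos.ne'
  unfold l0; simp only [id, Pi.pow_apply]; field_simp; ring

lemma Vm_norm_le (h : Pt ε a x) (m : ℤ) : ‖Vm a m x‖ ≤ ((m : ℝ) ^ 2 / 2 + 3) / ‖et a x‖ := by
  have hn := h.npos
  unfold Vm
  refine (norm_sub_le _ _).trans ?_
  rw [norm_one, norm_div, norm_mul, norm_pow, Complex.norm_intCast, sq_abs, add_div]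
  simp only [Complex.norm_ofNat]
  rw [div_div]
  have : 1 ≤ 3 / ‖et a x‖ := by rw [le_div_iff₀ hn]; linarith [h.norm_le]
  linarith

/-- `W ≤ 9 √ε re η` (this is where `g + g' ≥ 2` is used) -/
lemma W_le (h : Pt ε a x) {g g' c : ℝ} (G : GG g g' c) :
    W g g' a x ≤ 9 * √ε * (et a x).re := by
  have hx := h.xpos; have hn := h.npos; have hr := h.repos; have hε := h.εpos
  have hε1 : ε ≤ 1 := by have := h.small; norm_num at this; linarith
  have g1 := G.lo; have g2 := G.le; have g3 := G.hi'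
  set r := (et a x).re with hr'
  have e1 : (x ^ (-g)) ^ 2 = (1 / x ^ 2) ^ g := by
    rw [Real.div_rpow zero_le_one (by positivity), Real.one_rpow, Real.rpow_neg hx.le,
      ← Real.rpow_natCast, ← Real.rpow_natCast, Real.inv_rpow (by positivity),
      ← Real.rpow_mul hx.le, ← Real.rpow_mul hx.le, one_div, mul_comm]
  have e2 : (‖et a x‖ ^ g') ^ 2 = (‖et a x‖ ^ 2) ^ g' := by
    rw [← Real.rpow_natCast, ← Real.rpow_natCast, ← Real.rpow_mul hn.le, ← Real.rpow_mul hn.le,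
      mul_comm]
  have h1 : (1 / x ^ 2) ^ g ≤ (ε * r) ^ g := by
    refine Real.rpow_le_rpow (by positivity) ?_ (by linarith)
    rw [div_le_iff₀ (by positivity)]; have := h.x_le; linarith
  have h2 : (‖et a x‖ ^ 2) ^ g' ≤ (3 * r) ^ g' :=
    Real.rpow_le_rpow (by positivity) h.disc (by linarith)
  have h3 : ε ^ g ≤ ε := by
    simpa using Real.rpow_le_rpow_of_exponent_ge hε hε1 (show (1 : ℝ) ≤ g by linarith)
  have h9 : ∀ t : ℝ, t ≤ 2 → (3 : ℝ) ^ t ≤ 9 := fun t ht => by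
    have := Real.rpow_le_rpow_of_exponent_le (show (1 : ℝ) ≤ 3 by norm_num) ht
    norm_num at this; exact this
  have h4 : r ^ (g + g' - 2) ≤ 9 :=
    (Real.rpow_le_rpow hr.le h.re_le_three (by linarith)).trans (h9 _ (by linarith))
  have e3 : r ^ g * r ^ g' = r ^ (g + g' - 2) * r ^ 2 := by
    rw [← Real.rpow_natCast, ← Real.rpow_add hr, ← Real.rpow_add hr]; congr 1; push_cast; ring
  have key : W g g' a x ^ 2 ≤ (9 * √ε * r) ^ 2 := by
    rw [W, mul_pow, e1, e2]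
    calc (1 / x ^ 2) ^ g * (‖et a x‖ ^ 2) ^ g' ≤ (ε * r) ^ g * (3 * r) ^ g' := by gcongr
      _ = ε ^ g * 3 ^ g' * (r ^ (g + g' - 2) * r ^ 2) := by
        rw [Real.mul_rpow hε.le hr.le, Real.mul_rpow (by norm_num) hr.le, ← e3]; ring
      _ ≤ ε * 9 * (9 * r ^ 2) := by have := h9 g' (by linarith); gcongr
      _ = (9 * √ε * r) ^ 2 := by rw [mul_pow, mul_pow, Real.sq_sqrt hε.le]; ring
  exact le_of_sq_le_sq (by simpa using key) (by positivity) |>.trans_eq rfl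

lemma W_le' (h : Pt ε a x) {g g' c : ℝ} (G : GG g g' c) : W g g' a x ≤ (et a x).re / 30 := by
  have h1 := h.W_le G
  have h2 : √ε ≤ 1 / 300 := by
    rw [Real.sqrt_le_iff]; have := h.small; norm_num at this ⊢; linarith
  have := h.repos; nlinarith


end Pt

namespace Ok
variable {ε R X : ℝ} {a : ℂ}

lemma lt (h : Ok ε a R X) : R < X := h.1
lemma pt (h : Ok ε a R X) {x : ℝ} (hx : x ∈ Icc R X) : Pt ε a x := h.2 x hx
lemma ptR (h : Ok ε a R X) : Pt ε a R := h.pt (left_mem_Icc.2 h.lt.le)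
lemma ptX (h : Ok ε a R X) : Pt ε a X := h.pt (right_mem_Icc.2 h.lt.le)

lemma mono (h : Ok ε a R X) {ε' : ℝ} (h1 : ε ≤ ε') (h2 : ε' ≤ 1 / 10 ^ 5) : Ok ε' a R X :=
  ⟨h.lt, fun _ hx => (h.pt hx).mono h1 h2⟩

lemma dv_norm (h : Ok ε a R X) :
    Dv R X (fun y : ℝ => ‖et a y‖) fun x => ln a x * ‖et a x‖ :=
  Dv.of_hasDerivAt fun _ hx => (h.pt hx).hasDerivAt_norm

lemma dv_mu (h : Ok ε a R X) : Dv R X (mu a) fun x => lm a x * mu a x :=
  Dv.of_hasDerivAt fun _ hx => (h.pt hx).hasDerivAt_mu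

lemma dv_W (h : Ok ε a R X) (g g' : ℝ) :
    Dv R X (W g g' a) fun x => (-g / x + g' * ln a x) * W g g' a x :=
  Dv.of_hasDerivAt fun _ hx => (h.pt hx).hasDerivAt_W g g'

lemma dv_l1 (h : Ok ε a R X) : Dv R X (l1 a) (l1' a) :=
  Dv.of_hasDerivAt fun _ hx => (h.pt hx).hasDerivAt_l1


lemma dv_Om (h : Ok ε a R X) (g g' : ℝ) {τ τ1 : ℝ → ℝ} (hσ : Dv R X τ τ1) :
    Dv R X (Om g g' τ a) fun x => lam g g' τ1 a x * Om g g' τ a x := fun x hx => by
  have h1 := (h.dv_W g g' x hx).mul (hσ x hx).neg.exp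
  refine (show HasDerivWithinAt (Om g g' τ a) _ _ x from h1).congr_deriv ?_
  unfold lam Om; simp only [Pi.neg_apply]; ring

lemma dv_lam (h : Ok ε a R X) (g g' : ℝ) {τ1 τ2 : ℝ → ℝ} (hσ : Dv R X τ1 τ2) :
    Dv R X (lam g g' τ1 a) (lam1 g g' τ2 a) := fun x hx => by
  have p := h.pt hx
  have h0 := (hasDerivAt_const x (-g)).div (hasDerivAt_id x) p.xpos.ne'
  have h1 := (h0.add (p.hasDerivAt_ln.const_mul g')).hasDerivWithinAt.sub (hσ x hx)
  refine (show HasDerivWithinAt (lam g g' τ1 a) _ _ x from h1).congr_deriv ?_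
  unfold lam1; simp only [id]; ring


lemma cont_Vm (h : Ok ε a R X) (m : ℤ) : ContinuousOn (Vm a m) (Icc R X) :=
  ((continuousOn_const.div (continuousOn_const.mul (continuous_et a).continuousOn)
    fun _ hx => mul_ne_zero two_ne_zero (h.pt hx).ne)).sub continuousOn_const


end Ok

end

end Crest.Agent.N250.B1
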