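import Mathlib

/-! # Row 250, block B1: maximum principle for complex linear ODEs on a real interval

`w'' = B w' + V w + g` with `B` real, `V` complex: the quotient `‖w‖/Ω` has no positive interior
maximum when `Ω` is a strict supersolution for `re V`.  First order (backward / forward) versions.
Global existence for the linear initial and boundary value problems. -/

set_option autoImplicit false

open Set Filter Topology

namespace Crest.Agent.N250.B1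

/-- `w1` is the derivative of `w` within `[a,b]` at every point of `[a,b]`. -/
def Dv {F : Type*} [NormedAddCommGroup F] [NormedSpace ℝ F] (a b : ℝ) (w w1 : ℝ → F) : Prop :=
  ∀ x ∈ Icc a b, HasDerivWithinAt w (w1 x) (Icc a b) x

section basic
variable {F : Type*} [NormedAddCommGroup F] [NormedSpace ℝ F] {a b : ℝ}

lemma Dv.cont {w w1 : ℝ → F} (h : Dv a b w w1) : ContinuousOn w (Icc a b) :=
  fun x hx => (h x hx).continuousWithinAt

lemma Dv.at {w w1 : ℝ → F} (h : Dv a b w w1) {x : ℝ} (hx : x ∈ Ioo a b) :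
    HasDerivAt w (w1 x) x :=
  (h x (Ioo_subset_Icc_self hx)).hasDerivAt (Icc_mem_nhds hx.1 hx.2)

lemma Dv.add {w w1 u u1 : ℝ → F} (h : Dv a b w w1) (k : Dv a b u u1) :
    Dv a b (fun x => w x + u x) (fun x => w1 x + u1 x) :=
  fun x hx => (h x hx).add (k x hx)

lemma Dv.sub {w w1 u u1 : ℝ → F} (h : Dv a b w w1) (k : Dv a b u u1) :
    Dv a b (fun x => w x - u x) (fun x => w1 x - u1 x) :=
  fun x hx => (h x hx).sub (k x hx)

lemma Dv.congr {w w1 u u1 : ℝ → F} (h : Dv a b w w1) (e : ∀ x ∈ Icc a b, u x = w x)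
    (e1 : ∀ x ∈ Icc a b, u1 x = w1 x) : Dv a b u u1 := fun x hx => by
  rw [e1 x hx]; exact (h x hx).congr e (e x hx)

lemma Dv.mono {w w1 : ℝ → F} (h : Dv a b w w1) {c d : ℝ} (hc : a ≤ c) (hd : d ≤ b) :
    Dv c d w w1 := fun x hx =>
  (h x ⟨hc.trans hx.1, hx.2.trans hd⟩).mono (Icc_subset_Icc hc hd)

lemma Dv.of_hasDerivAt {w w1 : ℝ → F} (h : ∀ x ∈ Icc a b, HasDerivAt w (w1 x) x) :
    Dv a b w w1 := fun x hx => (h x hx).hasDerivWithinAt

lemma Dv.cmul {w w1 : ℝ → ℂ} (h : Dv a b w w1) (c : ℂ) :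
    Dv a b (fun x => c * w x) (fun x => c * w1 x) :=
  fun x hx => (h x hx).const_mul c

lemma Dv.mul {w w1 u u1 : ℝ → ℂ} (h : Dv a b w w1) (k : Dv a b u u1) :
    Dv a b (fun x => w x * u x) (fun x => w1 x * u x + w x * u1 x) :=
  fun x hx => (h x hx).mul (k x hx)

lemma Dv.re {w w1 : ℝ → ℂ} (h : Dv a b w w1) :
    Dv a b (fun x => (w x).re) (fun x => (w1 x).re) :=
  fun x hx => Complex.reCLM.hasFDerivAt.comp_hasDerivWithinAt x (h x hx)

lemma Dv.ofReal {w w1 : ℝ → ℝ} (h : Dv a b w w1) :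
    Dv a b (fun x => (w x : ℂ)) (fun x => (w1 x : ℂ)) :=
  fun x hx => Complex.ofRealCLM.hasFDerivAt.comp_hasDerivWithinAt x (h x hx)

end basic

section tests
variable {a b : ℝ}

/-- at a maximum point `x < b` the derivative within `[a,b]` is `≤ 0`. -/
lemma deriv_nonpos_of_max {ψ : ℝ → ℝ} {d x : ℝ} (hx : x ∈ Ico a b)
    (h : HasDerivWithinAt ψ d (Icc a b) x) (hm : ∀ y ∈ Icc a b, ψ y ≤ ψ x) : d ≤ 0 := by
  have h' : HasDerivWithinAt ψ d (Ioi x) x := by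
    refine (h.mono_of_mem_nhdsWithin ?_)
    exact mem_of_superset (Ioo_mem_nhdsGT hx.2) fun y hy => ⟨hx.1.trans hy.1.le, hy.2.le⟩
  have h2 := (hasDerivWithinAt_iff_tendsto_slope' (by simp)).1 h'
  refine le_of_tendsto h2 ?_
  filter_upwards [Ioo_mem_nhdsGT hx.2] with y hy
  rw [slope_def_field]
  exact div_nonpos_of_nonpos_of_nonneg (by linarith [hm y ⟨hx.1.trans hy.1.le, hy.2.le⟩])
    (by linarith [hy.1])

/-- at a maximum point `x > a` the derivative within `[a,b]` is `≥ 0`. -/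
lemma deriv_nonneg_of_max {ψ : ℝ → ℝ} {d x : ℝ} (hx : x ∈ Ioc a b)
    (h : HasDerivWithinAt ψ d (Icc a b) x) (hm : ∀ y ∈ Icc a b, ψ y ≤ ψ x) : 0 ≤ d := by
  have h' : HasDerivWithinAt ψ d (Iio x) x := by
    refine (h.mono_of_mem_nhdsWithin ?_)
    exact mem_of_superset (Ioo_mem_nhdsLT hx.1) fun y hy => ⟨hy.1.le, hy.2.le.trans hx.2⟩
  have h2 := (hasDerivWithinAt_iff_tendsto_slope' (by simp)).1 h'
  refine ge_of_tendsto h2 ?_
  filter_upwards [Ioo_mem_nhdsLT hx.1] with y hy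
  rw [slope_def_field]
  exact div_nonneg_of_nonpos (by linarith [hm y ⟨hy.1.le, hy.2.le.trans hx.2⟩])
    (by linarith [hy.2])

/-- second derivative test at an interior maximum. -/
lemma deriv2_nonpos_of_max {ψ ψ1 : ℝ → ℝ} {d x : ℝ} (hx : x ∈ Ioo a b) (h : Dv a b ψ ψ1)
    (h1 : HasDerivWithinAt ψ1 d (Icc a b) x) (hm : ∀ y ∈ Icc a b, ψ y ≤ ψ x) :
    ψ1 x = 0 ∧ d ≤ 0 := by
  have hx' := Ioo_subset_Icc_self hx
  have h0 : ψ1 x = 0 := le_antisymm (deriv_nonpos_of_max ⟨hx.1.le, hx.2⟩ (h x hx') hm)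
    (deriv_nonneg_of_max ⟨hx.1, hx.2.le⟩ (h x hx') hm)
  refine ⟨h0, ?_⟩
  by_contra hd
  push Not at hd
  have h' : HasDerivWithinAt ψ1 d (Ioi x) x := by
    refine (h1.mono_of_mem_nhdsWithin ?_)
    exact mem_of_superset (Ioo_mem_nhdsGT hx.2) fun y hy => ⟨hx.1.le.trans hy.1.le, hy.2.le⟩
  have h2 := (hasDerivWithinAt_iff_tendsto_slope' (by simp)).1 h'
  have h3 : ∀ᶠ y in 𝓝[>] x, 0 < slope ψ1 x y := h2.eventually (lt_mem_nhds hd)
  obtain ⟨u, hu, hsub⟩ := (mem_nhdsGT_iff_exists_Ioo_subset' hx.2).1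
    (h3.and (Ioo_mem_nhdsGT hx.2))
  have hu' : x < u := hu
  set y := (x + min u b) / 2 with hy
  have hmin : x < min u b := lt_min hu' hx.2
  have hy1 : x < y := by rw [hy]; linarith
  have hy2 : y < min u b := by rw [hy]; linarith
  have hyb : y < b := hy2.trans_le (min_le_right _ _)
  have hyu : y < u := hy2.trans_le (min_le_left _ _)
  obtain ⟨c, hc, hc'⟩ := exists_hasDerivAt_eq_slope ψ ψ1 hy1
    (h.cont.mono (Icc_subset_Icc hx.1.le hyb.le))
    (fun z hz => h.at ⟨hx.1.trans hz.1, hz.2.trans hyb⟩)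
  have hc2 := (hsub ⟨hc.1, hc.2.trans hyu⟩).1
  simp only [slope_def_field, h0, sub_zero] at hc2
  have hc3 : 0 < ψ1 c := (div_pos_iff_of_pos_right (by linarith [hc.1])).1 hc2
  rw [hc'] at hc3
  have hc4 := (div_pos_iff_of_pos_right (by linarith)).1 hc3
  linarith [hm y ⟨hx.1.le.trans hy1.le, hyb.le⟩]

/-- the unit complex number that rotates `z` to the positive axis. -/
lemma exists_rot (z : ℂ) : ∃ c : ℂ, ‖c‖ ≤ 1 ∧ c * z = (‖z‖ : ℝ) := by
  by_cases hz : z = 0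
  · exact ⟨0, by simp, by simp [hz]⟩
  · have hn : (‖z‖ : ℂ) ≠ 0 := by exact_mod_cast norm_ne_zero_iff.2 hz
    refine ⟨(starRingEnd ℂ) z / (‖z‖ : ℂ), ?_, ?_⟩
    · rw [norm_div]; simp [norm_ne_zero_iff.2 hz]
    · rw [div_mul_eq_mul_div, Complex.conj_mul']; field_simp

lemma re_mul_le {c z : ℂ} (hc : ‖c‖ ≤ 1) : (c * z).re ≤ ‖z‖ := by
  refine (Complex.re_le_norm _).trans ?_
  rw [norm_mul]; exact mul_le_of_le_one_left (norm_nonneg _) hc

lemma neg_le_re_mul {c z : ℂ} (hc : ‖c‖ ≤ 1) : -‖z‖ ≤ (c * z).re := by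
  have := re_mul_le (z := -z) hc
  simp only [mul_neg, Complex.neg_re, norm_neg] at this
  linarith

/-- a point where `‖w‖/Ω` is maximal, with the rotated real test function. -/
lemma exists_max_quot {w : ℝ → ℂ} {Ω : ℝ → ℝ} (hab : a ≤ b) (hw : ContinuousOn w (Icc a b))
    (hΩ : ContinuousOn Ω (Icc a b)) (hpos : ∀ x ∈ Icc a b, 0 < Ω x) :
    ∃ x ∈ Icc a b, ∃ M : ℝ, ∃ c : ℂ, ‖c‖ ≤ 1 ∧ ‖w x‖ = M * Ω x ∧ c * w x = (M * Ω x : ℝ) ∧
      (∀ y ∈ Icc a b, ‖w y‖ ≤ M * Ω y) ∧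
      ∀ y ∈ Icc a b, (c * w y).re - M * Ω y ≤ (c * w x).re - M * Ω x := by
  obtain ⟨x, hx, hm⟩ := isCompact_Icc.exists_isMaxOn (nonempty_Icc.2 hab)
    (hw.norm.div hΩ fun x hx => (hpos x hx).ne')
  obtain ⟨c, hc, hcw⟩ := exists_rot (w x)
  have e : ‖w x‖ = ‖w x‖ / Ω x * Ω x := by field_simp [(hpos x hx).ne']
  have hle : ∀ y ∈ Icc a b, ‖w y‖ ≤ ‖w x‖ / Ω x * Ω y := fun y hy => by
    have := hm hy
    simp only [mem_setOf_eq, Pi.div_apply] at this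
    rwa [div_le_iff₀ (hpos y hy)] at this
  refine ⟨x, hx, ‖w x‖ / Ω x, c, hc, e, by rw [hcw, ← e], hle, fun y hy => ?_⟩
  rw [hcw, Complex.ofReal_re, ← e]
  linarith [re_mul_le (z := w y) hc, hle y hy]

end tests

section max
variable {a b : ℝ}

/-- **Second order maximum principle.** `w'' = B w' + V w + g`, `Ω > 0` with
`Ω'' - B Ω' - re V Ω ≤ -γ < 0`; left end: bound on `w a`; right end: either a bound on `w b` or a
Robin condition `w' b = κ w b + h` with `Ω' b - re κ Ω b ≥ δ > 0`. -/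
theorem max2 {w w1 g V : ℝ → ℂ} {B Ω Ω1 Ω2 γ : ℝ → ℝ} {M : ℝ} (hab : a < b)
    (hw : Dv a b w w1) (hw1 : Dv a b w1 fun x => B x * w1 x + V x * w x + g x)
    (hΩ : Dv a b Ω Ω1) (hΩ1 : Dv a b Ω1 Ω2) (hpos : ∀ x ∈ Icc a b, 0 < Ω x)
    (hγ : ∀ x ∈ Ioo a b, 0 < γ x)
    (hsup : ∀ x ∈ Ioo a b, Ω2 x - B x * Ω1 x - (V x).re * Ω x ≤ -γ x)
    (hg : ∀ x ∈ Ioo a b, ‖g x‖ ≤ M * γ x) (ha : ‖w a‖ ≤ M * Ω a)
    (hb : ‖w b‖ ≤ M * Ω b ∨ ∃ (κ : ℂ) (δ : ℝ), 0 < δ ∧ δ ≤ Ω1 b - κ.re * Ω b ∧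
      ‖w1 b - κ * w b‖ ≤ M * δ) :
    ∀ x ∈ Icc a b, ‖w x‖ ≤ M * Ω x := by
  obtain ⟨x, hx, M', c, hc, e1, e2, hle, hm⟩ := exists_max_quot hab.le hw.cont hΩ.cont hpos
  by_cases hM : M' ≤ M
  · exact fun y hy => (hle y hy).trans (mul_le_mul_of_nonneg_right hM (hpos y hy).le)
  exfalso
  push Not at hM
  have hx0 := hpos x hx
  have hM0 : 0 ≤ M := by
    have := (norm_nonneg _).trans ha
    exact nonneg_of_mul_nonneg_left this (hpos a (left_mem_Icc.2 hab.le))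
  have hψ : Dv a b (fun y => (c * w y).re - M' * Ω y) (fun y => (c * w1 y).re - M' * Ω1 y) :=
    fun y hy => ((hw.cmul c).re y hy).sub ((hΩ y hy).const_mul M')
  have hψ1 : Dv a b (fun y => (c * w1 y).re - M' * Ω1 y)
      (fun y => (c * (B y * w1 y + V y * w y + g y)).re - M' * Ω2 y) :=
    fun y hy => ((hw1.cmul c).re y hy).sub ((hΩ1 y hy).const_mul M')
  rcases eq_or_lt_of_le hx.1 with h1 | h1
  · subst h1; rw [e1] at ha; nlinarith
  rcases eq_or_lt_of_le hx.2 with h2 | h2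
  · subst h2
    rcases hb with hb | ⟨κ, δ, hδ, hδ', hb⟩
    · rw [e1] at hb; nlinarith
    have h3 := deriv_nonneg_of_max ⟨h1, le_rfl⟩ (hψ x hx) hm
    beta_reduce at h3
    have h4 : c * w1 x = c * (w1 x - κ * w x) + κ * (c * w x) := by ring
    rw [h4, e2, Complex.add_re] at h3
    have h5 := re_mul_le (z := w1 x - κ * w x) hc
    have h6 : (κ * ((M' * Ω x : ℝ) : ℂ)).re = κ.re * (M' * Ω x) := by simp
    rw [h6] at h3
    nlinarith
  · have hx' : x ∈ Ioo a b := ⟨h1, h2⟩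
    obtain ⟨h3, h4⟩ := deriv2_nonpos_of_max hx' hψ (hψ1 x hx) hm
    beta_reduce at h3 h4
    have h5 : c * (B x * w1 x + V x * w x + g x) =
        B x * (c * w1 x) + V x * (c * w x) + c * g x := by ring
    rw [h5, e2, Complex.add_re, Complex.add_re] at h4
    have h6 : (V x * ((M' * Ω x : ℝ) : ℂ)).re = (V x).re * (M' * Ω x) := by simp
    have h7 : ((B x : ℂ) * (c * w1 x)).re = B x * (c * w1 x).re := by simp
    rw [h6, h7] at h4
    have h8 := neg_le_re_mul (z := g x) hc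
    have h9 : (c * w1 x).re = M' * Ω1 x := by linarith
    rw [h9] at h4
    have h10 := hsup x hx'
    have h11 := hg x hx'
    have h12 := hγ x hx'
    have hM' : 0 ≤ M' := by linarith
    nlinarith [mul_le_mul_of_nonneg_left h10 hM']

/-- **First order, backward.** `y' = β y + G`, `Ω' - re β Ω ≤ -γ < 0`, bound at `b`. -/
theorem max1_back {y G β : ℝ → ℂ} {Ω Ω1 γ : ℝ → ℝ} {M : ℝ} (hab : a ≤ b)
    (hy : Dv a b y fun x => β x * y x + G x) (hΩ : Dv a b Ω Ω1)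
    (hpos : ∀ x ∈ Icc a b, 0 < Ω x) (hγ : ∀ x ∈ Ico a b, 0 < γ x)
    (hsup : ∀ x ∈ Ico a b, Ω1 x - (β x).re * Ω x ≤ -γ x)
    (hG : ∀ x ∈ Ico a b, ‖G x‖ ≤ M * γ x) (hb : ‖y b‖ ≤ M * Ω b) :
    ∀ x ∈ Icc a b, ‖y x‖ ≤ M * Ω x := by
  obtain ⟨x, hx, M', c, hc, e1, e2, hle, hm⟩ := exists_max_quot hab hy.cont hΩ.cont hpos
  by_cases hM : M' ≤ M
  · exact fun y hy => (hle y hy).trans (mul_le_mul_of_nonneg_right hM (hpos y hy).le)
  exfalso
  push Not at hM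
  have hx0 := hpos x hx
  have hM0 : 0 ≤ M := by
    have := (norm_nonneg _).trans hb
    exact nonneg_of_mul_nonneg_left this (hpos b (right_mem_Icc.2 hab))
  have hψ : Dv a b (fun z => (c * y z).re - M' * Ω z)
      (fun z => (c * (β z * y z + G z)).re - M' * Ω1 z) :=
    fun z hz => ((hy.cmul c).re z hz).sub ((hΩ z hz).const_mul M')
  rcases eq_or_lt_of_le hx.2 with h2 | h2
  · subst h2; rw [e1] at hb; nlinarith
  have hx' : x ∈ Ico a b := ⟨hx.1, h2⟩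
  have h3 := deriv_nonpos_of_max hx' (hψ x hx) hm
  beta_reduce at h3
  have h5 : c * (β x * y x + G x) = β x * (c * y x) + c * G x := by ring
  rw [h5, e2, Complex.add_re] at h3
  have h6 : (β x * ((M' * Ω x : ℝ) : ℂ)).re = (β x).re * (M' * Ω x) := by simp
  rw [h6] at h3
  have h8 := neg_le_re_mul (z := G x) hc
  have h10 := hsup x hx'
  have h11 := hG x hx'
  have h12 := hγ x hx'
  have hM' : 0 ≤ M' := by linarith
  nlinarith [mul_le_mul_of_nonneg_left h10 hM']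


end max

end Crest.Agent.N250.B1
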