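import Crest.Agent.N250.H.Hol

/-!
Row 250, helper45.  Nested discs: Taylor coefficients of a family of holomorphic maps on shrinking
discs with small increments converge; finite order remainder; holomorphy in a parameter; reality.
-/

set_option autoImplicit false
set_option linter.unusedSectionVars false

open Metric Set Filter Topology Complex

noncomputable section

namespace Crest.Agent.N250.Nest

variable {E Y : Type*} [NormedAddCommGroup E] [NormedSpace ℂ E] [NormedAddCommGroup Y]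
  [NormedSpace ℂ Y] [CompleteSpace Y]

/-- divided difference at the origin -/
def D (g : ℂ → Y) : ℂ → Y := dslope g 0

/-- Taylor coefficient at the origin -/
def co (n : ℕ) (g : ℂ → Y) : Y := (D^[n] g) 0

/-- holomorphic and bounded by `M` on the disc of radius `r` -/
structure Bd (r M : ℝ) (g : ℂ → Y) : Prop where
  hd : DifferentiableOn ℂ g (ball 0 r)
  le : ∀ a ∈ ball (0 : ℂ) r, ‖g a‖ ≤ M

lemma co_zero (g : ℂ → Y) : co 0 g = g 0 := rfl

lemma co_one (g : ℂ → Y) : co 1 g = deriv g 0 := by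
  simp [co, D]

lemma D_diff {r : ℝ} {g : ℂ → Y} (hr : 0 < r) (h : DifferentiableOn ℂ g (ball 0 r)) :
    DifferentiableOn ℂ (D g) (ball 0 r) :=
  (differentiableOn_dslope (isOpen_ball.mem_nhds (mem_ball_self hr))).2 h


lemma Bd.mono {r r' M : ℝ} {g : ℂ → Y} (h : Bd r M g) (hr : r' ≤ r) : Bd r' M g :=
  ⟨h.hd.mono (ball_subset_ball hr), fun a ha => h.le a (ball_subset_ball hr ha)⟩

lemma Bd.D {r M : ℝ} {g : ℂ → Y} (h : Bd r M g) (hr : 0 < r) : Bd r (2 / r * M) (D g) :=
  ⟨D_diff hr h.hd, fun a ha => by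
    have := norm_dslope_le_div_of_mapsTo_ball h.hd (H.maps_of_bd hr h.le) ha
    calc ‖Nest.D g a‖ ≤ 2 * M / r := this
      _ = 2 / r * M := by ring⟩

lemma Bd.iter {r : ℝ} (hr : 0 < r) (n : ℕ) : ∀ {M : ℝ} {g : ℂ → Y}, Bd r M g →
    Bd r ((2 / r) ^ n * M) (Nest.D^[n] g) := by
  induction n with
  | zero => intro M g h; simpa using h
  | succ n ih =>
    intro M g h
    rw [Function.iterate_succ_apply]
    have := ih (h.D hr)
    rwa [← mul_assoc, ← pow_succ] at this

lemma Bd.co_le {r M : ℝ} {g : ℂ → Y} (h : Bd r M g) (hr : 0 < r) (n : ℕ) :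
    ‖co n g‖ ≤ (2 / r) ^ n * M :=
  (h.iter hr n).le 0 (mem_ball_self hr)

lemma step (g : ℂ → Y) (a : ℂ) : g a = g 0 + a • D g a := by
  have := sub_smul_dslope g 0 a
  rw [sub_zero] at this
  rw [D, this]; abel

/-- Taylor's formula with the divided difference as remainder -/
theorem taylor (g : ℂ → Y) (N : ℕ) (a : ℂ) :
    g a = ∑ n ∈ Finset.range N, a ^ n • co n g + a ^ N • (D^[N] g) a := by
  induction N with
  | zero => simp
  | succ N ih =>
    rw [Finset.sum_range_succ, Function.iterate_succ_apply', pow_succ, mul_smul, add_assoc,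
      ← smul_add, co, ← step]
    exact ih

theorem Bd.taylor_le {r M : ℝ} {g : ℂ → Y} (h : Bd r M g) (N : ℕ) {a : ℂ}
    (ha : a ∈ ball (0 : ℂ) r) :
    ‖g a - ∑ n ∈ Finset.range N, a ^ n • co n g‖ ≤ ‖a‖ ^ N * ((2 / r) ^ N * M) := by
  have hr : 0 < r := nonempty_ball.1 ⟨a, ha⟩
  have e : g a - ∑ n ∈ Finset.range N, a ^ n • co n g = a ^ N • (Nest.D^[N] g) a := by
    rw [sub_eq_iff_eq_add']; exact taylor g N a
  rw [e, norm_smul, norm_pow]
  exact mul_le_mul_of_nonneg_left ((h.iter hr N).le a ha) (by positivity)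

lemma D_sub {f g : ℂ → Y} (hf : DifferentiableAt ℂ f 0) (hg : DifferentiableAt ℂ g 0) :
    D (fun a => f a - g a) = fun a => D f a - D g a := by
  funext a
  by_cases ha : a = 0
  · subst ha; simp only [D, dslope_same]; exact deriv_fun_sub hf hg
  · simp only [D, dslope_of_ne _ ha, slope_def_module, ← smul_sub]; congr 1; abel

lemma iter_sub {r : ℝ} (hr : 0 < r) (n : ℕ) : ∀ {f g : ℂ → Y}, DifferentiableOn ℂ f (ball 0 r) →
    DifferentiableOn ℂ g (ball 0 r) →
    D^[n] (fun a => f a - g a) = fun a => (D^[n] f) a - (D^[n] g) a := by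
  induction n with
  | zero => intro f g _ _; rfl
  | succ n ih =>
    intro f g hf hg
    have hb := isOpen_ball.mem_nhds (mem_ball_self (x := (0 : ℂ)) hr)
    rw [Function.iterate_succ_apply, D_sub (hf.differentiableAt hb) (hg.differentiableAt hb),
      ih (D_diff hr hf) (D_diff hr hg)]
    rfl

lemma co_sub {r : ℝ} (hr : 0 < r) (n : ℕ) {f g : ℂ → Y} (hf : DifferentiableOn ℂ f (ball 0 r))
    (hg : DifferentiableOn ℂ g (ball 0 r)) : co n (fun a => f a - g a) = co n f - co n g := by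
  simp only [co, iter_sub hr n hf hg]

/-- coefficients of two maps that are close on a disc -/
theorem co_sub_le {r ε : ℝ} (hr : 0 < r) (n : ℕ) {f g : ℂ → Y}
    (hf : DifferentiableOn ℂ f (ball 0 r)) (hg : DifferentiableOn ℂ g (ball 0 r))
    (h : ∀ a ∈ ball (0 : ℂ) r, ‖f a - g a‖ ≤ ε) : ‖co n f - co n g‖ ≤ (2 / r) ^ n * ε := by
  rw [← co_sub hr n hf hg]
  exact Bd.co_le ⟨hf.sub hg, h⟩ hr n

/-! ### parameters -/

/-- separately holomorphic and bounded on `U × ball 0 r` -/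
structure Sep (U : Set E) (r M : ℝ) (F : E → ℂ → Y) : Prop where
  bd : ∀ b ∈ U, Bd r M (F b)
  par : ∀ a ∈ ball (0 : ℂ) r, DifferentiableOn ℂ (fun b => F b a) U

lemma Sep.D {U : Set E} (hU : IsOpen U) {r M : ℝ} {F : E → ℂ → Y} (h : Sep U r M F) (hr : 0 < r) :
    Sep U r (2 / r * M) (fun b => D (F b)) := by
  have hne : ∀ a ∈ ball (0 : ℂ) r, a ≠ 0 → DifferentiableOn ℂ (fun b => Nest.D (F b) a) U := by
    intro a ha h0
    simp only [Nest.D, dslope_of_ne _ h0, slope_def_module]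
    exact ((h.par a ha).sub (h.par 0 (mem_ball_self hr))).const_smul _
  refine ⟨fun b hb => (h.bd b hb).D hr, fun a ha => ?_⟩
  by_cases h0 : a = 0
  swap
  · exact hne a ha h0
  subst h0
  have hb : ∀ᶠ a in 𝓝[≠] (0 : ℂ), a ∈ ball (0 : ℂ) r :=
    mem_nhdsWithin_of_mem_nhds (isOpen_ball.mem_nhds (mem_ball_self hr))
  refine H.diffOn_of_lim (l := 𝓝[≠] (0 : ℂ)) (F := fun a b => Nest.D (F b) a) hU
    (M := 2 / r * M) ?_ ?_
  · filter_upwards [hb, self_mem_nhdsWithin] with a ha h0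
    exact ⟨hne a ha h0, fun b hb => ((h.bd b hb).D hr).le a ha⟩
  · rw [Metric.tendstoUniformlyOn_iff]
    intro ε hε
    have ht : Tendsto (fun a : ℂ => ‖a‖ * (2 / r * (2 / r * M))) (𝓝[≠] 0) (𝓝 0) := by
      have : Tendsto (fun a : ℂ => ‖a‖ * (2 / r * (2 / r * M))) (𝓝 0)
          (𝓝 (‖(0 : ℂ)‖ * (2 / r * (2 / r * M)))) := (continuous_norm.tendsto 0).mul_const _
      simpa using this.mono_left nhdsWithin_le_nhds
    filter_upwards [hb, ht.eventually (gt_mem_nhds hε)] with a ha h1 b hb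
    rw [dist_comm, dist_eq_norm, step (Nest.D (F b)) a, add_sub_cancel_left, norm_smul]
    exact (mul_le_mul_of_nonneg_left ((((h.bd b hb).D hr).D hr).le a ha) (norm_nonneg _)).trans_lt h1

lemma Sep.iter {U : Set E} (hU : IsOpen U) {r : ℝ} (hr : 0 < r) (n : ℕ) :
    ∀ {M : ℝ} {F : E → ℂ → Y}, Sep U r M F →
      Sep U r ((2 / r) ^ n * M) (fun b => Nest.D^[n] (F b)) := by
  induction n with
  | zero => intro M F h; simpa using h
  | succ n ih =>
    intro M F h
    have := ih (h.D hU hr)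
    rwa [← mul_assoc, ← pow_succ] at this

/-- the coefficients depend holomorphically on the parameter -/
theorem Sep.co_diff {U : Set E} (hU : IsOpen U) {r M : ℝ} {F : E → ℂ → Y} (h : Sep U r M F)
    (hr : 0 < r) (n : ℕ) : DifferentiableOn ℂ (fun b => co n (F b)) U :=
  (h.iter hU hr n).par 0 (mem_ball_self hr)

/-! ### reality -/



/-! ### nested discs -/

/-- a family on nested discs with increments `ε k` -/
structure Fam (U : Set E) (r ε : ℕ → ℝ) (M : ℝ) (F : ℕ → E → ℂ → Y) : Prop where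
  pos : ∀ k, 0 < r k
  anti : ∀ k, r (k + 1) ≤ r k
  le0 : ∀ b ∈ U, ∀ a ∈ ball (0 : ℂ) (r 0), ‖F 0 b a‖ ≤ M
  hd : ∀ k, ∀ b ∈ U, DifferentiableOn ℂ (F k b) (ball 0 (r k))
  par : ∀ k, ∀ a ∈ ball (0 : ℂ) (r k), DifferentiableOn ℂ (fun b => F k b a) U
  inc : ∀ k, ∀ b ∈ U, ∀ a ∈ ball (0 : ℂ) (r (k + 1)), ‖F (k + 1) b a - F k b a‖ ≤ ε k

/-- the limit coefficient -/
def cl (F : ℕ → E → ℂ → Y) (n : ℕ) (b : E) : Y := limUnder atTop fun k => co n (F k b)

section
variable {U : Set E} {r ε : ℕ → ℝ} {M : ℝ} {F : ℕ → E → ℂ → Y}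

lemma Fam.bd (h : Fam U r ε M F) (k : ℕ) {b : E} (hb : b ∈ U) :
    Bd (r k) (M + ∑ j ∈ Finset.range k, ε j) (F k b) := by
  refine ⟨h.hd k b hb, ?_⟩
  induction k with
  | zero => simpa using h.le0 b hb
  | succ k ih =>
    intro a ha
    have h1 := ih a (ball_subset_ball (h.anti k) ha)
    have h2 := h.inc k b hb a ha
    have h3 := norm_add_le (F k b a) (F (k + 1) b a - F k b a)
    rw [add_sub_cancel] at h3
    rw [Finset.sum_range_succ]; linarith

lemma Fam.sep (h : Fam U r ε M F) (k : ℕ) :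
    Sep U (r k) (M + ∑ j ∈ Finset.range k, ε j) (F k) :=
  ⟨fun _ hb => h.bd k hb, h.par k⟩

lemma Fam.co_inc (h : Fam U r ε M F) (n k : ℕ) {b : E} (hb : b ∈ U) :
    dist (co n (F k b)) (co n (F (k + 1) b)) ≤ (2 / r (k + 1)) ^ n * ε k := by
  rw [dist_comm, dist_eq_norm]
  exact co_sub_le (h.pos _) n (h.hd _ b hb) ((h.hd k b hb).mono (ball_subset_ball (h.anti k)))
    (h.inc k b hb)

theorem Fam.tendsto (h : Fam U r ε M F) {n : ℕ}
    (hs : Summable fun k => (2 / r (k + 1)) ^ n * ε k) {b : E} (hb : b ∈ U) :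
    Tendsto (fun k => co n (F k b)) atTop (𝓝 (cl F n b)) :=
  (cauchySeq_of_dist_le_of_summable _ (fun k => h.co_inc n k hb) hs).tendsto_limUnder

theorem Fam.tail (h : Fam U r ε M F) {n : ℕ}
    (hs : Summable fun k => (2 / r (k + 1)) ^ n * ε k) {b : E} (hb : b ∈ U) (k : ℕ) :
    ‖co n (F k b) - cl F n b‖ ≤ ∑' j, (2 / r (k + j + 1)) ^ n * ε (k + j) := by
  rw [← dist_eq_norm]
  exact dist_le_tsum_of_dist_le_of_tendsto _ (fun k => h.co_inc n k hb) hs (h.tendsto hs hb) k

theorem Fam.cl_le (h : Fam U r ε M F) {n : ℕ}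
    (hs : Summable fun k => (2 / r (k + 1)) ^ n * ε k) {b : E} (hb : b ∈ U) :
    ‖cl F n b‖ ≤ (2 / r 0) ^ n * M + ∑' j, (2 / r (j + 1)) ^ n * ε j := by
  have h1 := h.tail hs hb 0
  have h2 := (h.bd 0 hb).co_le (h.pos 0) n
  have h3 := norm_sub_le (co n (F 0 b)) (co n (F 0 b) - cl F n b)
  simp only [zero_add, Finset.range_zero, Finset.sum_empty, add_zero, sub_sub_cancel] at h1 h2 h3
  linarith

/-- the limit coefficients are holomorphic in the parameter -/
theorem Fam.cl_diff (h : Fam U r ε M F) (hU : IsOpen U) {n : ℕ}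
    (hs : Summable fun k => (2 / r (k + 1)) ^ n * ε k) : DifferentiableOn ℂ (cl F n) U := by
  have ht : Tendsto (fun k => ∑' j, (2 / r (k + j + 1)) ^ n * ε (k + j)) atTop (𝓝 0) := by
    have := tendsto_sum_nat_add fun k => (2 / r (k + 1)) ^ n * ε k
    simpa only [add_comm] using this
  refine H.diffOn_of_lim (l := atTop) (F := fun k b => co n (F k b)) hU
    (M := (2 / r 0) ^ n * M + ∑' j, (2 / r (j + 1)) ^ n * ε j + 1) ?_ ?_
  · filter_upwards [ht.eventually (gt_mem_nhds one_pos)] with k hk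
    refine ⟨(h.sep k).co_diff hU (h.pos k) n, fun b hb => ?_⟩
    have h1 := h.tail hs hb k
    have h2 := h.cl_le hs hb
    have h3 := norm_add_le (cl F n b) (co n (F k b) - cl F n b)
    rw [add_sub_cancel] at h3
    linarith
  · rw [Metric.tendstoUniformlyOn_iff]
    intro δ hδ
    filter_upwards [ht.eventually (gt_mem_nhds hδ)] with k hk b hb
    rw [dist_comm, dist_eq_norm]
    exact (h.tail hs hb k).trans_lt hk

/-- remainder with the coefficients of `F k` itself -/
theorem Fam.rem0 (h : Fam U r ε M F) (N : ℕ) {b : E} (hb : b ∈ U) (k : ℕ) :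
    ∀ a ∈ ball (0 : ℂ) (r k), ‖F k b a - ∑ n ∈ Finset.range N, a ^ n • co n (F k b)‖ ≤
      ‖a‖ ^ N * ((2 / r 0) ^ N * M + ∑ j ∈ Finset.range k, (2 / r (j + 1)) ^ N * ε j) := by
  induction k with
  | zero =>
    intro a ha
    simpa using (h.bd 0 hb).taylor_le N ha
  | succ k ih =>
    intro a ha
    have hk := (h.hd k b hb).mono (ball_subset_ball (h.anti k))
    have h1 := ih a (ball_subset_ball (h.anti k) ha)
    have h2 := Bd.taylor_le (r := r (k + 1)) (M := ε k)
      (g := fun a => F (k + 1) b a - F k b a) ⟨(h.hd _ b hb).sub hk, h.inc k b hb⟩ N ha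
    simp only [co_sub (h.pos _) _ (h.hd _ b hb) hk, smul_sub, Finset.sum_sub_distrib] at h2
    have h3 := norm_add_le (F k b a - ∑ n ∈ Finset.range N, a ^ n • co n (F k b))
      (F (k + 1) b a - F k b a - (∑ n ∈ Finset.range N, a ^ n • co n (F (k + 1) b) -
        ∑ n ∈ Finset.range N, a ^ n • co n (F k b)))
    have e : F k b a - ∑ n ∈ Finset.range N, a ^ n • co n (F k b) +
      (F (k + 1) b a - F k b a - (∑ n ∈ Finset.range N, a ^ n • co n (F (k + 1) b) -
        ∑ n ∈ Finset.range N, a ^ n • co n (F k b))) =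
        F (k + 1) b a - ∑ n ∈ Finset.range N, a ^ n • co n (F (k + 1) b) := by abel
    rw [e] at h3
    rw [Finset.sum_range_succ, ← add_assoc, mul_add]
    linarith

/-- **nested discs**: finite order expansion with the limit coefficients -/
theorem Fam.rem (h : Fam U r ε M F) (N : ℕ)
    (hs : ∀ n < N, Summable fun k => (2 / r (k + 1)) ^ n * ε k) {b : E} (hb : b ∈ U) (k : ℕ)
    {a : ℂ} (ha : a ∈ ball (0 : ℂ) (r k)) :
    ‖F k b a - ∑ n ∈ Finset.range N, a ^ n • cl F n b‖ ≤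
      ‖a‖ ^ N * ((2 / r 0) ^ N * M + ∑ j ∈ Finset.range k, (2 / r (j + 1)) ^ N * ε j) +
        ∑ n ∈ Finset.range N, ‖a‖ ^ n * ∑' j, (2 / r (k + j + 1)) ^ n * ε (k + j) := by
  have e : F k b a - ∑ n ∈ Finset.range N, a ^ n • cl F n b =
      (F k b a - ∑ n ∈ Finset.range N, a ^ n • co n (F k b)) +
        ∑ n ∈ Finset.range N, a ^ n • (co n (F k b) - cl F n b) := by
    simp only [smul_sub, Finset.sum_sub_distrib]; abel
  rw [e]
  refine (norm_add_le _ _).trans (add_le_add (h.rem0 N hb k a ha) ?_)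
  refine (norm_sum_le _ _).trans (Finset.sum_le_sum fun n hn => ?_)
  rw [norm_smul, norm_pow]
  exact mul_le_mul_of_nonneg_left (h.tail (hs n (Finset.mem_range.1 hn)) hb k) (by positivity)


end

end Crest.Agent.N250.Nest

end
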