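import Mathlib
import Crest.Agent.N250.Wi.Alg
import Crest.Agent.N250.B1.Stm
import Crest.Agent.N250.B1.Gam

-- ▼ part N250/B1/Sm0
section

/-!
# Row 250, B1 S6 (helper95): classes of parameter dependent functions and their jets

`Cl U Ω` is a ring of functions `P → ℝ × ℝ → ℂ` (parameter in `U`, point in `Ω`), `C.ex R` the
functions of `C` whose `R`-derivatives are in `C`; `C.up n` = all jets up to order `n` are in `C`.
-/

set_option autoImplicit false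
open Set Filter Topology
open scoped ContDiff

noncomputable section

namespace Crest.Agent.N250.Sm

/-- the real linear map `(h, k) ↦ h a + k b` -/
def D2 (a b : ℂ) : ℝ × ℝ →L[ℝ] ℂ :=
  (ContinuousLinearMap.fst ℝ ℝ ℝ).smulRight a + (ContinuousLinearMap.snd ℝ ℝ ℝ).smulRight b

@[simp] theorem D2_apply (a b : ℂ) (v : ℝ × ℝ) : D2 a b v = v.1 * a + v.2 * b := by
  simp [D2]

theorem norm_D2_le (a b : ℂ) : ‖D2 a b‖ ≤ ‖a‖ + ‖b‖ := by
  refine ContinuousLinearMap.opNorm_le_bound _ (by positivity) fun v => ?_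
  rw [D2_apply]
  have h1 : ‖v.1‖ ≤ ‖v‖ := norm_fst_le v
  have h2 : ‖v.2‖ ≤ ‖v‖ := norm_snd_le v
  calc ‖(v.1 : ℂ) * a + v.2 * b‖ ≤ ‖v.1‖ * ‖a‖ + ‖v.2‖ * ‖b‖ := by
        refine (norm_add_le _ _).trans (le_of_eq ?_)
        simp [norm_mul]
    _ ≤ ‖v‖ * ‖a‖ + ‖v‖ * ‖b‖ := by gcongr
    _ = (‖a‖ + ‖b‖) * ‖v‖ := by ring

/-- `a ↦ D2 a 0` -/
def L1 : ℂ →L[ℝ] (ℝ × ℝ →L[ℝ] ℂ) :=
  ContinuousLinearMap.smulRightL ℝ (ℝ × ℝ) ℂ (ContinuousLinearMap.fst ℝ ℝ ℝ)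

/-- `b ↦ D2 0 b` -/
def L2 : ℂ →L[ℝ] (ℝ × ℝ →L[ℝ] ℂ) :=
  ContinuousLinearMap.smulRightL ℝ (ℝ × ℝ) ℂ (ContinuousLinearMap.snd ℝ ℝ ℝ)

theorem D2_eq (a b : ℂ) : D2 a b = L1 a + L2 b := rfl

theorem norm_L1 : ‖L1‖ ≤ 1 := by
  refine ContinuousLinearMap.opNorm_le_bound _ zero_le_one fun a => ?_
  have : L1 a = D2 a 0 := by ext <;> simp [L1]
  simpa [this] using norm_D2_le a 0

theorem norm_L2 : ‖L2‖ ≤ 1 := by
  refine ContinuousLinearMap.opNorm_le_bound _ zero_le_one fun a => ?_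
  have : L2 a = D2 0 a := by ext <;> simp [L2]
  simpa [this] using norm_D2_le 0 a

variable {P : Type*} {U : Set P} {Ω : Set (ℝ × ℝ)}

/-- parameter dependent functions -/
abbrev Fn (P : Type*) := P → ℝ × ℝ → ℂ

/-- a ring of functions on `U × Ω`, continuous in the point -/
structure Cl (U : Set P) (Ω : Set (ℝ × ℝ)) where
  S : Fn P → Prop
  add : ∀ {f g}, S f → S g → S fun p y => f p y + g p y
  mul : ∀ {f g}, S f → S g → S fun p y => f p y * g p y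
  const : ∀ c : ℂ, S fun _ _ => c
  congr : ∀ {f g}, S f → (∀ p ∈ U, ∀ y ∈ Ω, g p y = f p y) → S g
  cont : ∀ {f}, S f → ∀ p ∈ U, ContinuousOn (f p) Ω

/-- a notion of derivative with two components -/
structure Der (U : Set P) (Ω : Set (ℝ × ℝ)) where
  R : Fn P → Fn P → Fn P → Prop
  add : ∀ {f a b g c d}, R f a b → R g c d →
    R (fun p y => f p y + g p y) (fun p y => a p y + c p y) fun p y => b p y + d p y
  mul : ∀ {f a b g c d}, R f a b → R g c d → R (fun p y => f p y * g p y)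
    (fun p y => a p y * g p y + f p y * c p y) fun p y => b p y * g p y + f p y * d p y
  const : ∀ c : ℂ, R (fun _ _ => c) (fun _ _ => 0) fun _ _ => 0
  congr : ∀ {f g a b}, R f a b → (∀ p ∈ U, ∀ y ∈ Ω, g p y = f p y) → R g a b
  inv : ∀ {f a b}, R f a b → (∀ p ∈ U, ∀ y ∈ Ω, f p y ≠ 0) → R (fun p y => (f p y)⁻¹)
    (fun p y => -1 * (a p y * ((f p y)⁻¹ * (f p y)⁻¹)))
    fun p y => -1 * (b p y * ((f p y)⁻¹ * (f p y)⁻¹))
  fst : R (fun _ y => (y.1 : ℂ)) (fun _ _ => 1) fun _ _ => 0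
  par : ∀ c : P → ℂ, R (fun p _ => c p) (fun _ _ => 0) fun _ _ => 0

variable (U Ω) in
/-- the Fréchet derivative within `Ω` has components `a`, `b` -/
def Dr (f a b : Fn P) : Prop :=
  ∀ p ∈ U, ∀ y ∈ Ω, HasFDerivWithinAt (f p) (D2 (a p y) (b p y)) Ω y

variable (U Ω) in
/-- the derivative in the second variable -/
def Dt (f b : Fn P) : Prop :=
  ∀ p ∈ U, ∀ y ∈ Ω, HasDerivAt (fun θ => f p (y.1, θ)) (b p y) y.2

variable (U Ω) in
/-- Fréchet derivative -/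
def derF : Der U Ω where
  R := Dr U Ω
  add h k p hp y hy := ((h p hp y hy).add (k p hp y hy)).congr_fderiv
    (ContinuousLinearMap.ext fun v => by simp; ring)
  mul h k p hp y hy := ((h p hp y hy).mul (k p hp y hy)).congr_fderiv
    (ContinuousLinearMap.ext fun v => by simp; ring)
  const c p _ y _ := (hasFDerivWithinAt_const c y Ω).congr_fderiv
    (ContinuousLinearMap.ext fun v => by simp)
  congr h e p hp y hy := (h p hp y hy).congr (fun z hz => e p hp z hz) (e p hp y hy)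
  inv {f a b} h hne p hp y hy := by
    have h1 := ((hasDerivAt_inv (hne p hp y hy)).hasFDerivAt.restrictScalars ℝ).comp_hasFDerivWithinAt
      y (h p hp y hy)
    refine h1.congr_fderiv (ContinuousLinearMap.ext fun v => ?_)
    have := hne p hp y hy
    simp; field_simp; ring
  fst p _ y _ := ((Complex.ofRealCLM.comp (ContinuousLinearMap.fst ℝ ℝ ℝ)).hasFDerivWithinAt
    (s := Ω) (x := y)).congr_fderiv (ContinuousLinearMap.ext fun v => by simp)
  par c p _ y _ := (hasFDerivWithinAt_const (c p) y Ω).congr_fderiv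
    (ContinuousLinearMap.ext fun v => by simp)

variable (U) in
/-- derivative in the angle on `I × ℝ` -/
def derT (I : Set ℝ) : Der U (I ×ˢ (univ : Set ℝ)) where
  R f _ b := Dt U (I ×ˢ univ) f b
  add h k p hp y hy := (h p hp y hy).add (k p hp y hy)
  mul h k p hp y hy := (h p hp y hy).mul (k p hp y hy)
  const c p _ y _ := hasDerivAt_const _ c
  congr h e p hp y hy := by
    have : (fun θ => _) = _ := funext fun θ => e p hp (y.1, θ) ⟨hy.1, trivial⟩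
    rw [this]; exact h p hp y hy
  inv {f a b} h hne p hp y hy := by
    refine ((h p hp y hy).inv (hne p hp y hy)).congr_deriv ?_
    have := hne p hp y hy
    simp only [Prod.mk.eta]; field_simp
  fst p _ y _ := hasDerivAt_const y.2 (y.1 : ℂ)
  par c p _ y _ := hasDerivAt_const y.2 (c p)

theorem Dr.dt {I : Set ℝ} {f a b : Fn P} (h : Dr U (I ×ˢ univ) f a b) :
    Dt U (I ×ˢ univ) f b := fun p hp y hy => by
  have h1 : HasDerivAt (fun θ : ℝ => (y.1, θ)) ((0 : ℝ), (1 : ℝ)) y.2 :=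
    (hasDerivAt_const _ _).prodMk (hasDerivAt_id _)
  have h2 := (h p hp y hy).comp_hasDerivWithinAt (s := univ) y.2 h1.hasDerivWithinAt
    (fun θ _ => (⟨hy.1, trivial⟩ : (y.1, θ) ∈ I ×ˢ (univ : Set ℝ)))
  simpa [hasDerivWithinAt_univ, Function.comp_def] using h2

theorem Dt.unique {f a b : Fn P} (h : Dt U Ω f a) (k : Dt U Ω f b) :
    ∀ p ∈ U, ∀ y ∈ Ω, a p y = b p y := fun p hp y hy => (h p hp y hy).unique (k p hp y hy)

namespace Cl

variable (C : Cl U Ω)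

theorem cmul (c : ℂ) {f : Fn P} (h : C.S f) : C.S fun p y => c * f p y := C.mul (C.const c) h

theorem neg {f : Fn P} (h : C.S f) : C.S fun p y => -f p y :=
  C.congr (C.cmul (-1) h) fun _ _ _ _ => by ring

theorem sub {f g : Fn P} (h : C.S f) (k : C.S g) : C.S fun p y => f p y - g p y :=
  C.congr (C.add h (C.neg k)) fun _ _ _ _ => by ring

theorem pow {f : Fn P} (h : C.S f) : ∀ n : ℕ, C.S fun p y => f p y ^ n
  | 0 => C.congr (C.const 1) fun _ _ _ _ => by simp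
  | n + 1 => C.congr (C.mul (pow h n) h) fun _ _ _ _ => by ring

theorem div_const {f : Fn P} (h : C.S f) (c : ℂ) : C.S fun p y => f p y / c :=
  C.congr (C.cmul c⁻¹ h) fun _ _ _ _ => by ring

/-- members whose derivatives are members -/
def ex (R : Der U Ω) : Cl U Ω where
  S f := C.S f ∧ ∃ a b, C.S a ∧ C.S b ∧ R.R f a b
  add := fun ⟨h, _, _, ha, hb, hR⟩ ⟨k, _, _, hc, hd, kR⟩ =>
    ⟨C.add h k, _, _, C.add ha hc, C.add hb hd, R.add hR kR⟩
  mul := fun ⟨h, _, _, ha, hb, hR⟩ ⟨k, _, _, hc, hd, kR⟩ =>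
    ⟨C.mul h k, _, _, C.add (C.mul ha k) (C.mul h hc), C.add (C.mul hb k) (C.mul h hd), R.mul hR kR⟩
  const c := ⟨C.const c, _, _, C.const 0, C.const 0, R.const c⟩
  congr := fun ⟨h, _, _, ha, hb, hR⟩ e => ⟨C.congr h e, _, _, ha, hb, R.congr hR e⟩
  cont h := C.cont h.1

/-- `n`-fold iteration of `ex` -/
def it (R : Der U Ω) : ℕ → Cl U Ω
  | 0 => C
  | n + 1 => (it R n).ex R

variable {C}

theorem ex_inv {R : Der U Ω} {f : Fn P} (h : (C.ex R).S f) (hne : ∀ p ∈ U, ∀ y ∈ Ω, f p y ≠ 0)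
    (hi : C.S fun p y => (f p y)⁻¹) : (C.ex R).S fun p y => (f p y)⁻¹ := by
  obtain ⟨-, a, b, ha, hb, hR⟩ := h
  exact ⟨hi, _, _, C.cmul _ (C.mul ha (C.mul hi hi)), C.cmul _ (C.mul hb (C.mul hi hi)),
    R.inv hR hne⟩

theorem it_inv {R : Der U Ω} {f : Fn P} (hne : ∀ p ∈ U, ∀ y ∈ Ω, f p y ≠ 0)
    (hi : C.S fun p y => (f p y)⁻¹) : ∀ {n : ℕ}, (C.it R n).S f → (C.it R n).S fun p y => (f p y)⁻¹
  | 0, _ => hi
  | _ + 1, h => ex_inv h hne (it_inv hne hi h.1)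

theorem it_base {R : Der U Ω} {f : Fn P} : ∀ {n : ℕ}, (C.it R n).S f → C.S f
  | 0, h => h
  | _ + 1, h => it_base h.1

theorem it_mono {R : Der U Ω} {f : Fn P} {m n : ℕ} (hmn : m ≤ n) (h : (C.it R n).S f) :
    (C.it R m).S f := by
  induction hmn with
  | refl => exact h
  | step _ ih => exact ih h.1

variable (C) in
/-- all jets up to order `n` are in `C` -/
abbrev up (n : ℕ) : Cl U Ω := C.it (derF U Ω) n

theorem up_succ {f a b : Fn P} {n : ℕ} (h : (C.up n).S f) (ha : (C.up n).S a) (hb : (C.up n).S b)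
    (hR : Dr U Ω f a b) : (C.up (n + 1)).S f := ⟨h, a, b, ha, hb, hR⟩

theorem it_fst {R : Der U Ω} (h : C.S fun _ y => (y.1 : ℂ)) :
    ∀ n : ℕ, (C.it R n).S fun _ y => (y.1 : ℂ)
  | 0 => h
  | n + 1 => ⟨it_fst h n, _, _, (C.it R n).const 1, (C.it R n).const 0, R.fst⟩

theorem it_par {R : Der U Ω} {c : P → ℂ} (h : C.S fun p _ => c p) :
    ∀ n : ℕ, (C.it R n).S fun p _ => c p
  | 0 => h
  | n + 1 => ⟨it_par h n, _, _, (C.it R n).const 0, (C.it R n).const 0, R.par c⟩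

theorem up_contDiffOn (hΩ : UniqueDiffOn ℝ Ω) : ∀ {n : ℕ} {f : Fn P}, (C.up n).S f →
    ∀ p ∈ U, ContDiffOn ℝ n (f p) Ω
  | 0, _, h, p, hp => by simpa using C.cont h p hp
  | n + 1, f, ⟨_, a, b, ha, hb, hR⟩, p, hp => by
    have h1 := up_contDiffOn hΩ ha p hp
    have h2 := up_contDiffOn hΩ hb p hp
    rw [Nat.cast_succ]
    refine contDiffOn_succ_of_fderivWithin (fun y hy => (hR p hp y hy).differentiableWithinAt)
      (by simp) ?_
    refine ((L1.contDiff.comp_contDiffOn h1).add (L2.contDiff.comp_contDiffOn h2)).congr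
      fun y hy => ?_
    rw [(hR p hp y hy).fderivWithin (hΩ y hy), D2_eq]; rfl

/-- the jets, evaluated on fixed vectors, are members -/
theorem up_jet (hΩ : UniqueDiffOn ℝ Ω) : ∀ {j n : ℕ} {f : Fn P}, (C.up (n + j)).S f →
    ∀ m : Fin j → ℝ × ℝ, (C.up n).S fun p y => iteratedFDerivWithin ℝ j (f p) Ω y m
  | 0, _, _, h, m => by simpa using h
  | j + 1, n, f, h, m => by
    have hc := up_contDiffOn hΩ h
    obtain ⟨_, a, b, ha, hb, hR⟩ := h
    have hg : (C.up (n + j)).S fun p y =>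
        ((m (Fin.last j)).1 : ℂ) * a p y + ((m (Fin.last j)).2 : ℂ) * b p y :=
      (C.up _).add ((C.up _).cmul _ ha) ((C.up _).cmul _ hb)
    refine (C.up n).congr (up_jet hΩ hg (Fin.init m)) fun p hp y hy => ?_
    have hc' : ContDiffOn ℝ ((n + j : ℕ) : ℕ∞ω) (fderivWithin ℝ (f p) Ω) Ω :=
      (hc p hp).fderivWithin hΩ (by norm_cast)
    rw [iteratedFDerivWithin_succ_apply_right hΩ hy,
      ← iteratedFDerivWithin_clm_apply_const_apply hΩ hc' (by norm_cast; omega) hy]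
    congr 1
    refine iteratedFDerivWithin_congr (fun z hz => ?_) hy j
    simp only [(hR p hp z hz).fderivWithin (hΩ z hz), D2_apply]

/-- a bound for the jets from a bound for every member -/
theorem up_norm (hΩ : UniqueDiffOn ℝ Ω) {δ : P → ℝ × ℝ → ℝ}
    (hB : ∀ f, C.S f → ∃ M, ∀ p ∈ U, ∀ y ∈ Ω, ‖f p y‖ ≤ M * δ p y) :
    ∀ {j : ℕ} {f : Fn P}, (C.up j).S f →
      ∃ M, ∀ p ∈ U, ∀ y ∈ Ω, ‖iteratedFDerivWithin ℝ j (f p) Ω y‖ ≤ M * δ p y
  | 0, f, h => by simpa using hB f h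
  | j + 1, f, ⟨_, a, b, ha, hb, hR⟩ => by
    obtain ⟨M1, h1⟩ := up_norm hΩ hB ha
    obtain ⟨M2, h2⟩ := up_norm hΩ hB hb
    refine ⟨M1 + M2, fun p hp y hy => ?_⟩
    have c1 := up_contDiffOn hΩ ha p hp
    have c2 := up_contDiffOn hΩ hb p hp
    have e : EqOn (fderivWithin ℝ (f p) Ω) (L1 ∘ a p + L2 ∘ b p) Ω := fun z hz => by
      rw [(hR p hp z hz).fderivWithin (hΩ z hz), D2_eq]; rfl
    rw [← norm_iteratedFDerivWithin_fderivWithin hΩ hy, iteratedFDerivWithin_congr e hy,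
      iteratedFDerivWithin_add_apply (L1.contDiff.comp_contDiffOn c1 y hy)
        (L2.contDiff.comp_contDiffOn c2 y hy) hΩ hy]
    have b1 := L1.norm_iteratedFDerivWithin_comp_left (c1 y hy) hΩ hy le_rfl
    have b2 := L2.norm_iteratedFDerivWithin_comp_left (c2 y hy) hΩ hy le_rfl
    have n1 := mul_le_of_le_one_left (norm_nonneg (iteratedFDerivWithin ℝ j (a p) Ω y)) norm_L1
    have n2 := mul_le_of_le_one_left (norm_nonneg (iteratedFDerivWithin ℝ j (b p) Ω y)) norm_L2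
    have := h1 p hp y hy
    have := h2 p hp y hy
    refine (norm_add_le _ _).trans ?_
    linarith

end Cl

/-- `C'` inherits the coordinate, the parameters and the inverses of `C` -/
structure Ext (C C' : Cl U Ω) : Prop where
  base : ∀ {f}, C'.S f → C.S f
  fst : (C.S fun _ y => (y.1 : ℂ)) → C'.S fun _ y => (y.1 : ℂ)
  par : ∀ {c : P → ℂ}, (C.S fun p _ => c p) → C'.S fun p _ => c p
  inv : ∀ {f}, C'.S f → (∀ p ∈ U, ∀ y ∈ Ω, f p y ≠ 0) → (C.S fun p y => (f p y)⁻¹) →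
    C'.S fun p y => (f p y)⁻¹

theorem Ext.refl (C : Cl U Ω) : Ext C C := ⟨id, id, id, fun _ _ h => h⟩

theorem Ext.it {C C' : Cl U Ω} (h : Ext C C') (R : Der U Ω) (n : ℕ) : Ext C (C'.it R n) :=
  ⟨fun k => h.base (Cl.it_base k), fun k => Cl.it_fst (h.fst k) n, fun k => Cl.it_par (h.par k) n,
    fun k hne hi => Cl.it_inv hne (h.inv (Cl.it_base k) hne hi) k⟩

section boot

variable {I : Set ℝ}

theorem th_mem {C : Cl U (I ×ˢ (univ : Set ℝ))} {W : ℕ → Fn P} {N : ℕ} (h : ∀ i ≤ N, C.S (W i))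
    (d : ∀ i < N, Dt U (I ×ˢ univ) (W i) (W (i + 1))) :
    ∀ j i, i + j ≤ N → (C.it (derT U I) j).S (W i)
  | 0, i, hi => h i hi
  | j + 1, i, hi => ⟨th_mem h d j i (by omega), W (i + 1), W (i + 1), th_mem h d j (i + 1) (by omega),
      th_mem h d j (i + 1) (by omega), d i (by omega)⟩

theorem th_out {C : Cl U (I ×ˢ (univ : Set ℝ))} {Q : ℕ → Fn P} {N : ℕ}
    (d : ∀ i < N, Dt U (I ×ˢ univ) (Q i) (Q (i + 1))) :
    ∀ j i, i + j ≤ N → (C.it (derT U I) j).S (Q i) → C.S (Q (i + j))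
  | 0, _, _, h => h
  | j + 1, i, hi, ⟨_, _, b, _, hb, hR⟩ => by
    have := th_out d j (i + 1) (by omega)
      ((C.it _ j).congr hb (Dt.unique (d i (by omega)) hR))
    rwa [show i + (j + 1) = i + 1 + j by omega]

/-- **bootstrap**: `W i = ∂_θ^i w`, `Pp i = ∂_θ^i w_x`, `Q i = ∂_θ^i w_xx`, and `w_xx` is a rational
function of `x`, the parameters, `w, w_θ, w_θθ, w_x, w_xθ`. -/
theorem boot (C : Cl U (I ×ˢ (univ : Set ℝ))) (K : ℕ) {W Pp Q : ℕ → Fn P}
    (hW : ∀ i ≤ K + 2, C.S (W i)) (hP : ∀ i ≤ K + 1, C.S (Pp i))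
    (dW : ∀ i ≤ K + 1, Dr U (I ×ˢ univ) (W i) (Pp i) (W (i + 1)))
    (dP : ∀ i ≤ K, Dr U (I ×ˢ univ) (Pp i) (Q i) (Pp (i + 1)))
    (dQ : ∀ i < K, Dt U (I ×ˢ univ) (Q i) (Q (i + 1)))
    (eq : ∀ C', Ext C C' → C'.S (W 0) → C'.S (W 1) → C'.S (W 2) → C'.S (Pp 0) → C'.S (Pp 1) →
      C'.S (Q 0)) (n : ℕ) :
    (∀ i, i + n ≤ K + 2 → (C.up n).S (W i)) ∧ (∀ i, i + n ≤ K + 1 → (C.up n).S (Pp i)) ∧
      ∀ i, i + n ≤ K → (C.up n).S (Q i) := by
  have key : ∀ n, (∀ i, i + n ≤ K + 2 → (C.up n).S (W i)) →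
      (∀ i, i + n ≤ K + 1 → (C.up n).S (Pp i)) → ∀ i, i + n ≤ K → (C.up n).S (Q i) := by
    intro n h1 h2 i hi
    have a := th_mem (C := C.up n) (W := W) (N := i + 2) (fun l hl => h1 l (by omega))
      (fun l hl => (dW l (by omega)).dt) i
    have b := th_mem (C := C.up n) (W := Pp) (N := i + 1) (fun l hl => h2 l (by omega))
      (fun l hl => (dP l (by omega)).dt) i
    have := th_out (C := C.up n) (N := i) (fun l hl => dQ l (by omega)) i 0 (by omega)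
      (eq _ (((Ext.refl C).it _ n).it _ i) (a 0 (by omega)) (a 1 (by omega)) (a 2 (by omega))
        (b 0 (by omega)) (b 1 (by omega)))
    simpa using this
  induction n with
  | zero =>
    exact ⟨fun i hi => hW i hi, fun i hi => hP i hi,
      key 0 (fun i hi => hW i hi) fun i hi => hP i hi⟩
  | succ n ih =>
    obtain ⟨h1, h2, h3⟩ := ih
    have a : ∀ i, i + (n + 1) ≤ K + 2 → (C.up (n + 1)).S (W i) := fun i hi =>
      Cl.up_succ (h1 i (by omega)) (h2 i (by omega)) (h1 (i + 1) (by omega)) (dW i (by omega))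
    have b : ∀ i, i + (n + 1) ≤ K + 1 → (C.up (n + 1)).S (Pp i) := fun i hi =>
      Cl.up_succ (h2 i (by omega)) (h3 i (by omega)) (h2 (i + 1) (by omega)) (dP i (by omega))
    exact ⟨a, b, key _ a b⟩

end boot

/-- the norm of a multilinear map on the plane from its values on the basis -/
theorem norm_le_basis {j : ℕ} (T : ContinuousMultilinearMap ℝ (fun _ : Fin j => ℝ × ℝ) ℂ) :
    ‖T‖ ≤ ∑ σ : Fin j → Bool, ‖T fun i => if σ i then (1, 0) else (0, 1)‖ := by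
  refine ContinuousMultilinearMap.opNorm_le_bound (by positivity) fun m => ?_
  have e : m = fun i => ∑ b : Bool,
      (if b then (m i).1 else (m i).2) • (if b then ((1 : ℝ), (0 : ℝ)) else (0, 1)) := by
    funext i; ext <;> simp
  have e2 : T m = ∑ σ : Fin j → Bool, (∏ i, if σ i then (m i).1 else (m i).2) •
      T fun i => if σ i then (1, 0) else (0, 1) := by
    conv_lhs => rw [e]
    rw [T.map_sum]
    exact Finset.sum_congr rfl fun σ _ => T.map_smul_univ _ _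
  rw [e2, Finset.sum_mul]
  refine (norm_sum_le _ _).trans (Finset.sum_le_sum fun σ _ => ?_)
  rw [norm_smul, mul_comm, norm_prod]
  gcongr with i
  split_ifs
  exacts [norm_fst_le _, norm_snd_le _]

/-- differences of jets -/
theorem Cl.up_lip {C : Cl U Ω} (hΩ : UniqueDiffOn ℝ Ω) {δ : P → P → ℝ}
    (hB : ∀ f, C.S f → ∃ M, ∀ p ∈ U, ∀ q ∈ U, ∀ y ∈ Ω, ‖f p y - f q y‖ ≤ M * δ p q)
    {j : ℕ} {f : Fn P} (h : (C.up j).S f) : ∃ M, ∀ p ∈ U, ∀ q ∈ U, ∀ y ∈ Ω,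
      ‖iteratedFDerivWithin ℝ j (f p) Ω y - iteratedFDerivWithin ℝ j (f q) Ω y‖ ≤ M * δ p q := by
  have h0 : (C.up (0 + j)).S f := by rwa [zero_add]
  choose M hM using fun σ : Fin j → Bool =>
    hB _ (Cl.up_jet hΩ h0 fun i => if σ i then (1, 0) else (0, 1))
  refine ⟨∑ σ, M σ, fun p hp q hq y hy => (norm_le_basis _).trans ?_⟩
  rw [Finset.sum_mul]
  exact Finset.sum_le_sum fun σ _ => hM σ p hp q hq y hy

/-! ### the standard classes -/

variable (U Ω) in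
/-- continuous in the point -/
def cc : Cl U Ω where
  S f := ∀ p ∈ U, ContinuousOn (f p) Ω
  add h k p hp := (h p hp).add (k p hp)
  mul h k p hp := (h p hp).mul (k p hp)
  const _ _ _ := continuousOn_const
  congr h e p hp := (h p hp).congr (e p hp)
  cont h := h

theorem cc_inv {f : Fn P} (h : (cc U Ω).S f) (hne : ∀ p ∈ U, ∀ y ∈ Ω, f p y ≠ 0) :
    (cc U Ω).S fun p y => (f p y)⁻¹ := fun p hp => (h p hp).inv₀ (hne p hp)

theorem cc_fst : (cc U Ω).S fun _ y => (y.1 : ℂ) := fun _ _ => by fun_prop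

theorem cc_par (c : P → ℂ) : (cc U Ω).S fun p _ => c p := fun _ _ => continuousOn_const

variable (U Ω) in
/-- continuous in the point, bounded, and Lipschitz in the parameter for the gauge `δ` -/
def lip (δ : P → P → ℝ) (hδ : ∀ p q, 0 ≤ δ p q) : Cl U Ω where
  S f := (∀ p ∈ U, ContinuousOn (f p) Ω) ∧ ∃ M, 0 ≤ M ∧ (∀ p ∈ U, ∀ y ∈ Ω, ‖f p y‖ ≤ M) ∧
    ∀ p ∈ U, ∀ q ∈ U, ∀ y ∈ Ω, ‖f p y - f q y‖ ≤ M * δ p q
  add := fun {f g} ⟨h, M, m, b, l⟩ ⟨k, M', m', b', l'⟩ => by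
    refine ⟨fun p hp => (h p hp).add (k p hp), M + M', by positivity,
      fun p hp y hy => norm_add_le_of_le (b p hp y hy) (b' p hp y hy), fun p hp q hq y hy => ?_⟩
    rw [add_sub_add_comm, add_mul]
    exact norm_add_le_of_le (l p hp q hq y hy) (l' p hp q hq y hy)
  mul := fun {f g} ⟨h, M, m, b, l⟩ ⟨k, M', m', b', l'⟩ => by
    refine ⟨fun p hp => (h p hp).mul (k p hp), 2 * (M * M'), by positivity, fun p hp y hy => ?_,
      fun p hp q hq y hy => ?_⟩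
    · have := norm_mul_le_of_le (b p hp y hy) (b' p hp y hy)
      have := mul_nonneg m m'
      linarith
    · have e : f p y * g p y - f q y * g q y = (f p y - f q y) * g p y + f q y * (g p y - g q y) := by
        ring
      have h1 := norm_mul_le_of_le (l p hp q hq y hy) (b' p hp y hy)
      have h2 := norm_mul_le_of_le (b q hq y hy) (l' p hp q hq y hy)
      rw [e]
      exact (norm_add_le_of_le h1 h2).trans (le_of_eq (by ring))
  const c := ⟨fun _ _ => continuousOn_const, ‖c‖, norm_nonneg _, fun _ _ _ _ => le_rfl,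
    fun p _ q _ _ _ => by simpa using mul_nonneg (norm_nonneg c) (hδ p q)⟩
  congr := fun ⟨h, M, m, b, l⟩ e => ⟨fun p hp => (h p hp).congr (e p hp), M, m,
    fun p hp y hy => by rw [e p hp y hy]; exact b p hp y hy,
    fun p hp q hq y hy => by rw [e p hp y hy, e q hq y hy]; exact l p hp q hq y hy⟩
  cont h := h.1

theorem lip_inv {δ : P → P → ℝ} {hδ : ∀ p q, 0 ≤ δ p q} {f : Fn P} (h : (lip U Ω δ hδ).S f) {c : ℝ}
    (hc : 0 < c) (hl : ∀ p ∈ U, ∀ y ∈ Ω, c ≤ ‖f p y‖) :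
    (lip U Ω δ hδ).S fun p y => (f p y)⁻¹ := by
  obtain ⟨h, M, m, -, l⟩ := h
  have hne : ∀ p ∈ U, ∀ y ∈ Ω, f p y ≠ 0 := fun p hp y hy =>
    norm_pos_iff.1 (hc.trans_le (hl p hp y hy))
  have hi : ∀ p ∈ U, ∀ y ∈ Ω, ‖(f p y)⁻¹‖ ≤ c⁻¹ := fun p hp y hy => by
    rw [norm_inv]; exact inv_anti₀ hc (hl p hp y hy)
  refine ⟨fun p hp => (h p hp).inv₀ (hne p hp), c⁻¹ + M * c⁻¹ * c⁻¹, by positivity,
    fun p hp y hy => (hi p hp y hy).trans (le_add_of_nonneg_right (by positivity)),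
    fun p hp q hq y hy => ?_⟩
  have e : (f p y)⁻¹ - (f q y)⁻¹ = -(f p y - f q y) * (f p y)⁻¹ * (f q y)⁻¹ := by
    have := hne p hp y hy; have := hne q hq y hy; field_simp; ring
  have h1 : ‖-(f p y - f q y)‖ ≤ M * δ p q := by rw [norm_neg]; exact l p hp q hq y hy
  have h2 := norm_mul_le_of_le (norm_mul_le_of_le h1 (hi p hp y hy)) (hi q hq y hy)
  have := mul_nonneg (inv_nonneg.2 hc.le) (hδ p q)
  rw [e]; nlinarith

section hol

variable {E : Type*} [NormedAddCommGroup E] [NormedSpace ℂ E] {V : Set E}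

variable (V Ω) in
/-- continuous in the point, holomorphic in the parameter, bounded -/
def hb : Cl V Ω where
  S f := (∀ p ∈ V, ContinuousOn (f p) Ω) ∧ (∀ y ∈ Ω, DifferentiableOn ℂ (fun p => f p y) V) ∧
    ∃ M, ∀ p ∈ V, ∀ y ∈ Ω, ‖f p y‖ ≤ M
  add := fun ⟨h, d, M, b⟩ ⟨k, d', M', b'⟩ => ⟨fun p hp => (h p hp).add (k p hp),
    fun y hy => (d y hy).add (d' y hy), M + M',
    fun p hp y hy => norm_add_le_of_le (b p hp y hy) (b' p hp y hy)⟩
  mul := fun ⟨h, d, M, b⟩ ⟨k, d', M', b'⟩ => ⟨fun p hp => (h p hp).mul (k p hp),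
    fun y hy => (d y hy).mul (d' y hy), M * M',
    fun p hp y hy => norm_mul_le_of_le (b p hp y hy) (b' p hp y hy)⟩
  const c := ⟨fun _ _ => continuousOn_const, fun _ _ => differentiableOn_const c, ‖c‖,
    fun _ _ _ _ => le_rfl⟩
  congr := fun ⟨h, d, M, b⟩ e => ⟨fun p hp => (h p hp).congr (e p hp),
    fun y hy => (d y hy).congr fun p hp => e p hp y hy, M,
    fun p hp y hy => by rw [e p hp y hy]; exact b p hp y hy⟩
  cont h := h.1

theorem hb_inv {f : Fn E} (h : (hb Ω V).S f) {c : ℝ} (hc : 0 < c)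
    (hl : ∀ p ∈ V, ∀ y ∈ Ω, c ≤ ‖f p y‖) : (hb Ω V).S fun p y => (f p y)⁻¹ := by
  have hne : ∀ p ∈ V, ∀ y ∈ Ω, f p y ≠ 0 := fun p hp y hy =>
    norm_pos_iff.1 (hc.trans_le (hl p hp y hy))
  exact ⟨fun p hp => (h.1 p hp).inv₀ (hne p hp),
    fun y hy => (h.2.1 y hy).inv fun p hp => hne p hp y hy, c⁻¹,
    fun p hp y hy => by rw [norm_inv]; exact inv_anti₀ hc (hl p hp y hy)⟩

theorem hb_fst {M : ℝ} (h : ∀ y ∈ Ω, |y.1| ≤ M) : (hb Ω V).S fun _ y => (y.1 : ℂ) :=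
  ⟨fun _ _ => by fun_prop, fun _ _ => differentiableOn_const _, M,
    fun _ _ y hy => by simpa using h y hy⟩

theorem hb_par {c : E → ℂ} (hd : DifferentiableOn ℂ c V) {M : ℝ} (h : ∀ p ∈ V, ‖c p‖ ≤ M) :
    (hb Ω V).S fun p _ => c p :=
  ⟨fun _ _ => continuousOn_const, fun _ _ => hd, M, fun p hp _ _ => h p hp⟩

/-- what membership in `(hb Ω V).up n` gives -/
theorem hb_out (hΩ : UniqueDiffOn ℝ Ω) {n : ℕ} {f : Fn E} (h : ((hb Ω V).up n).S f) :
    (∀ p ∈ V, ContDiffOn ℝ n (f p) Ω) ∧ ∀ j ≤ n,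
      (∃ M, ∀ p ∈ V, ∀ y ∈ Ω, ‖iteratedFDerivWithin ℝ j (f p) Ω y‖ ≤ M) ∧
      ∀ y ∈ Ω, ∀ m, DifferentiableOn ℂ (fun p => iteratedFDerivWithin ℝ j (f p) Ω y m) V := by
  refine ⟨Cl.up_contDiffOn hΩ h, fun j hj => ⟨?_, fun y hy m => ?_⟩⟩
  · simpa using Cl.up_norm (C := hb Ω V) hΩ (δ := fun _ _ => 1) (fun f hf => by simpa using hf.2.2)
      (Cl.it_mono hj h)
  · have h0 : ((hb Ω V).up (0 + j)).S f := by rw [zero_add]; exact Cl.it_mono hj h
    exact (Cl.up_jet hΩ h0 m).2.1 y hy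

end hol

end Crest.Agent.N250.Sm

end
end

-- ▼ part N250/B1/Sm1
section

/-!
# Row 250, B1 S6 (helper95): synthesis of Fourier modes

`Sy i c (x, θ) = ∑ (i m)^i c m x e^{i m θ}`; `Md I n c`: the modes are continuous on `I` and
`(1 + |m|)^n c m` has a summable majorant.
-/

set_option autoImplicit false
open Set Filter Topology Complex

noncomputable section

namespace Crest.Agent.N250.Sm

open Wi (ex norm_ex continuous_ex hasDerivAt_ex ex_periodic)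

/-- termwise differentiation of a series within a convex set -/
theorem hasFD_tsum {ι E G : Type*} [NormedAddCommGroup E] [NormedSpace ℝ E] [NormedAddCommGroup G]
    [NormedSpace ℝ G] [CompleteSpace G] {s : Set E} (hs : Convex ℝ s) {f : ι → E → G}
    {f' : ι → E → (E →L[ℝ] G)} {u : ι → ℝ} (hu : Summable u)
    (hf : ∀ j, ∀ x ∈ s, HasFDerivWithinAt (f j) (f' j x) s x)
    (hb : ∀ j, ∀ x ∈ s, ‖f' j x‖ ≤ u j) (hsum : ∀ x ∈ s, Summable fun j => f j x) :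
    ∀ x ∈ s, HasFDerivWithinAt (fun y => ∑' j, f j y) (∑' j, f' j x) s x := by
  intro x hx
  rw [hasFDerivWithinAt_iff_tendsto]
  have hf's : Summable fun j => f' j x := Summable.of_norm_bounded hu (fun j => hb j x hx)
  have key : Tendsto (fun x' => ∑' j, (‖x' - x‖⁻¹ • (f j x' - f j x - f' j x (x' - x)))) (𝓝[s] x)
      (𝓝 (∑' _j : ι, (0 : G))) := by
    refine tendsto_tsum_of_dominated_convergence (bound := fun j => 2 * u j) (hu.mul_left 2) ?_ ?_
    · intro j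
      have h := (hasFDerivWithinAt_iff_tendsto.mp (hf j x hx))
      rw [tendsto_zero_iff_norm_tendsto_zero]
      refine h.congr fun x' => ?_
      rw [norm_smul, norm_inv, norm_norm]
    · filter_upwards [self_mem_nhdsWithin] with x' hx' j
      have h1 : ‖f j x' - f j x‖ ≤ u j * ‖x' - x‖ :=
        hs.norm_image_sub_le_of_norm_hasFDerivWithin_le (hf j) (hb j) hx hx'
      have h2 : ‖f' j x (x' - x)‖ ≤ u j * ‖x' - x‖ :=
        ((f' j x).le_opNorm _).trans (mul_le_mul_of_nonneg_right (hb j x hx) (norm_nonneg _))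
      have h3 : ‖f j x' - f j x - f' j x (x' - x)‖ ≤ 2 * u j * ‖x' - x‖ :=
        (norm_sub_le _ _).trans (by linarith)
      rw [norm_smul, norm_inv, norm_norm]
      by_cases h0 : ‖x' - x‖ = 0
      · rw [h0, inv_zero, zero_mul]
        have := (norm_nonneg (f' j x)).trans (hb j x hx)
        positivity
      · have h0' : 0 < ‖x' - x‖ := lt_of_le_of_ne (norm_nonneg _) (Ne.symm h0)
        rw [inv_mul_le_iff₀ h0']
        linarith
  rw [tsum_zero, tendsto_zero_iff_norm_tendsto_zero] at key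
  refine key.congr' ?_
  filter_upwards [self_mem_nhdsWithin] with x' hx'
  have e1 : (∑' j, f' j x) (x' - x) = ∑' j, f' j x (x' - x) :=
    ContinuousLinearMap.map_tsum (ContinuousLinearMap.apply ℝ G (x' - x)) hf's
  have hs1 : Summable fun j => f' j x (x' - x) :=
    hf's.mapL (ContinuousLinearMap.apply ℝ G (x' - x))
  rw [tsum_const_smul'', norm_smul, norm_inv, norm_norm, e1,
    ← (hsum x' hx').tsum_sub (hsum x hx), ← ((hsum x' hx').sub (hsum x hx)).tsum_sub hs1]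

/-- the `i`-th angular derivative of the synthesis of the modes `c` -/
def Sy (i : ℕ) (c : ℤ → ℝ → ℂ) (y : ℝ × ℝ) : ℂ := ∑' m : ℤ, (m * I) ^ i * c m y.1 * ex m y.2

/-- modes with `n` summable angular derivatives on `J` -/
structure Md (J : Set ℝ) (n : ℕ) (c : ℤ → ℝ → ℂ) : Prop where
  cont : ∀ m, ContinuousOn (c m) J
  bd : ∃ u : ℤ → ℝ, Summable u ∧ ∀ m : ℤ, ∀ x ∈ J, (1 + |(m : ℝ)|) ^ n * ‖c m x‖ ≤ u m

variable {J : Set ℝ} {n i : ℕ} {c d : ℤ → ℝ → ℂ}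

theorem norm_term (i : ℕ) (c : ℤ → ℝ → ℂ) (m : ℤ) (y : ℝ × ℝ) :
    ‖((m : ℂ) * I) ^ i * c m y.1 * ex m y.2‖ = |(m : ℝ)| ^ i * ‖c m y.1‖ := by
  simp [norm_mul, norm_pow]

theorem pow_le_w (hi : i ≤ n) (m : ℤ) : |(m : ℝ)| ^ i ≤ (1 + |(m : ℝ)|) ^ n :=
  (pow_le_pow_left₀ (abs_nonneg _) (by linarith) i).trans
    (pow_le_pow_right₀ (by linarith [abs_nonneg (m : ℝ)]) hi)

theorem term_le (hi : i ≤ n) (c : ℤ → ℝ → ℂ) (m : ℤ) (y : ℝ × ℝ) :
    ‖((m : ℂ) * I) ^ i * c m y.1 * ex m y.2‖ ≤ (1 + |(m : ℝ)|) ^ n * ‖c m y.1‖ := by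
  rw [norm_term]; exact mul_le_mul_of_nonneg_right (pow_le_w hi m) (norm_nonneg _)

theorem Sy_succ (i : ℕ) (c : ℤ → ℝ → ℂ) : Sy (i + 1) c = Sy i fun m x => m * I * c m x := by
  funext y; exact tsum_congr fun m => by ring

theorem Sy_mul (i : ℕ) (k : ℝ → ℂ) (c : ℤ → ℝ → ℂ) (y : ℝ × ℝ) :
    Sy i (fun m x => k x * c m x) y = k y.1 * Sy i c y := by
  rw [Sy, Sy, ← tsum_mul_left]; exact tsum_congr fun m => by ring

theorem Sy_congr (i : ℕ) {y : ℝ × ℝ} (h : ∀ m, c m y.1 = d m y.1) : Sy i c y = Sy i d y := by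
  simp only [Sy, h]


theorem norm_Sy_le (hi : i ≤ n) {u : ℤ → ℝ} {B : ℝ} (hu : HasSum u B) {y : ℝ × ℝ}
    (h : ∀ m : ℤ, (1 + |(m : ℝ)|) ^ n * ‖c m y.1‖ ≤ u m) : ‖Sy i c y‖ ≤ B :=
  tsum_of_norm_bounded hu fun m => (term_le hi c m y).trans (h m)

namespace Md

theorem mono (h : Md J n c) {J' : Set ℝ} {n' : ℕ} (hJ : J' ⊆ J) (hn : n' ≤ n) : Md J' n' c := by
  obtain ⟨u, hu, hb⟩ := h.bd
  refine ⟨fun m => (h.cont m).mono hJ, u, hu, fun m x hx => le_trans ?_ (hb m x (hJ hx))⟩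
  exact mul_le_mul_of_nonneg_right
    (pow_le_pow_right₀ (by linarith [abs_nonneg (m : ℝ)]) hn) (norm_nonneg _)

theorem congr (h : Md J n c) (e : ∀ m, ∀ x ∈ J, d m x = c m x) : Md J n d := by
  obtain ⟨u, hu, hb⟩ := h.bd
  exact ⟨fun m => (h.cont m).congr (e m), u, hu, fun m x hx => by rw [e m x hx]; exact hb m x hx⟩

theorem add (h : Md J n c) (k : Md J n d) : Md J n fun m x => c m x + d m x := by
  obtain ⟨u, hu, hb⟩ := h.bd
  obtain ⟨v, hv, hb'⟩ := k.bd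
  refine ⟨fun m => (h.cont m).add (k.cont m), _, hu.add hv, fun m x hx => ?_⟩
  have := mul_le_mul_of_nonneg_left (norm_add_le (c m x) (d m x))
    (by positivity : 0 ≤ (1 + |(m : ℝ)|) ^ n)
  linarith [hb m x hx, hb' m x hx]

theorem mul (h : Md J n c) {k : ℝ → ℂ} (hk : ContinuousOn k J) {B : ℝ} (hB : ∀ x ∈ J, ‖k x‖ ≤ B) :
    Md J n fun m x => k x * c m x := by
  obtain ⟨u, hu, hb⟩ := h.bd
  refine ⟨fun m => hk.mul (h.cont m), _, hu.mul_left B, fun m x hx => ?_⟩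
  rw [norm_mul, mul_left_comm]
  exact mul_le_mul (hB x hx) (hb m x hx) (by positivity) ((norm_nonneg _).trans (hB x hx))

/-- one more derivative from a bound on `m c m` -/
theorem succ (h : Md J n c) (k : Md J n fun m x => m * I * c m x) : Md J (n + 1) c := by
  obtain ⟨u, hu, hb⟩ := h.bd
  obtain ⟨v, hv, hb'⟩ := k.bd
  refine ⟨h.cont, _, hu.add hv, fun m x hx => ?_⟩
  have h1 := hb m x hx
  have h2 := hb' m x hx
  simp only [norm_mul, Complex.norm_intCast, norm_I, mul_one] at h2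
  calc _ = (1 + |(m : ℝ)|) ^ n * ‖c m x‖ + (1 + |(m : ℝ)|) ^ n * (|(m : ℝ)| * ‖c m x‖) := by ring
    _ ≤ _ := add_le_add h1 h2


theorem comp (h : Md J n c) {J' : Set ℝ} {g : ℝ → ℝ} (hg : ContinuousOn g J') (hm : MapsTo g J' J) :
    Md J' n fun m x => c m (g x) := by
  obtain ⟨u, hu, hb⟩ := h.bd
  exact ⟨fun m => (h.cont m).comp hg hm, u, hu, fun m x hx => hb m _ (hm hx)⟩

/-- a single mode -/
theorem single (k : ℤ) {f : ℝ → ℂ} (hf : ContinuousOn f J) {B : ℝ} (hB : ∀ x ∈ J, ‖f x‖ ≤ B) :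
    Md J n fun m x => if m = k then f x else 0 := by
  refine ⟨fun m => by split_ifs; exacts [hf, continuousOn_const],
    fun m => if m = k then (1 + |(k : ℝ)|) ^ n * B else 0,
    summable_of_ne_finset_zero (s := {k}) fun m hm => if_neg (by simpa using hm), fun m x hx => ?_⟩
  by_cases e : m = k
  · subst e
    simp only [if_true]
    exact mul_le_mul_of_nonneg_left (hB x hx) (by positivity)
  · simp [e]

theorem summable (h : Md J n c) (hi : i ≤ n) {y : ℝ × ℝ} (hy : y.1 ∈ J) :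
    Summable fun m : ℤ => ((m : ℂ) * I) ^ i * c m y.1 * ex m y.2 := by
  obtain ⟨u, hu, hb⟩ := h.bd
  exact .of_norm_bounded hu fun m => (term_le hi c m y).trans (hb m _ hy)

theorem bdd (h : Md J n c) (hi : i ≤ n) : ∃ B, ∀ y : ℝ × ℝ, y.1 ∈ J → ‖Sy i c y‖ ≤ B := by
  obtain ⟨u, hu, hb⟩ := h.bd
  exact ⟨_, fun y hy => norm_Sy_le hi hu.hasSum fun m => hb m _ hy⟩

theorem cSy (h : Md J n c) (hi : i ≤ n) : ContinuousOn (Sy i c) (J ×ˢ univ) := by
  obtain ⟨u, hu, hb⟩ := h.bd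
  refine continuousOn_tsum (fun m => ?_) hu fun m y hy => (term_le hi c m y).trans (hb m _ hy.1)
  exact (continuousOn_const.mul ((h.cont m).comp continuousOn_fst fun y hy => hy.1)).mul
    ((continuous_ex m).comp continuous_snd).continuousOn

theorem dt (h : Md J n c) (hi : i + 1 ≤ n) {y : ℝ × ℝ} (hy : y.1 ∈ J) :
    HasDerivAt (fun θ => Sy i c (y.1, θ)) (Sy (i + 1) c y) y.2 := by
  obtain ⟨u, hu, hb⟩ := h.bd
  refine hasDerivAt_tsum (g' := fun (m : ℤ) θ => ((m : ℂ) * I) ^ (i + 1) * c m y.1 * ex m θ)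
    (y₀ := y.2) hu (fun m θ => ?_) (fun m θ => (term_le hi c m (y.1, θ)).trans (hb m _ hy))
    (h.summable (by omega) hy) y.2
  exact ((hasDerivAt_ex m θ).const_mul (((m : ℂ) * I) ^ i * c m y.1)).congr_deriv (by ring)

theorem dF (hJ : Convex ℝ J) (h : Md J (i + 1) c) (k : Md J i d)
    (hd : ∀ m, ∀ x ∈ J, HasDerivWithinAt (c m) (d m x) J x) {y : ℝ × ℝ} (hy : y ∈ J ×ˢ univ) :
    HasFDerivWithinAt (Sy i c) (D2 (Sy i d y) (Sy (i + 1) c y)) (J ×ˢ univ) y := by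
  obtain ⟨u, hu, hb⟩ := h.bd
  obtain ⟨v, hv, hb'⟩ := k.bd
  have key := hasFD_tsum (s := J ×ˢ (univ : Set ℝ)) (hJ.prod convex_univ)
    (f := fun (m : ℤ) y => ((m : ℂ) * I) ^ i * c m y.1 * ex m y.2)
    (f' := fun (m : ℤ) y => D2 (((m : ℂ) * I) ^ i * d m y.1 * ex m y.2)
      (((m : ℂ) * I) ^ (i + 1) * c m y.1 * ex m y.2)) (hv.add hu) (fun m z hz => ?_)
    (fun m z hz => (norm_D2_le _ _).trans (add_le_add ((term_le le_rfl d m z).trans (hb' m _ hz.1))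
      ((term_le le_rfl c m z).trans (hb m _ hz.1))))
    (fun z hz => h.summable (by omega) hz.1) y hy
  · refine key.congr_fderiv ?_
    have s1 := k.summable le_rfl hy.1
    have s2 := h.summable le_rfl hy.1
    simp only [D2_eq]
    rw [(s1.mapL L1).tsum_add (s2.mapL L2), ← L1.map_tsum s1, ← L2.map_tsum s2]
    rfl
  · have h1 := (hd m z.1 hz.1).hasFDerivWithinAt.comp z
      (hasFDerivWithinAt_fst (𝕜 := ℝ) (s := J ×ˢ (univ : Set ℝ)) (p := z)) fun w hw => hw.1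
    have h2 := (hasDerivAt_ex m z.2).hasFDerivAt.comp_hasFDerivWithinAt z
      (hasFDerivWithinAt_snd (𝕜 := ℝ) (s := J ×ˢ (univ : Set ℝ)) (p := z))
    refine ((h1.const_mul (((m : ℂ) * I) ^ i)).mul h2).congr_fderiv
      (ContinuousLinearMap.ext fun w => ?_)
    simp; ring

/-- derivative in the first variable -/
theorem ds (hJ : Convex ℝ J) (h : Md J i c) (k : Md J i d)
    (hd : ∀ m, ∀ x ∈ J, HasDerivWithinAt (c m) (d m x) J x) {x : ℝ} (hx : x ∈ J) (θ : ℝ) :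
    HasDerivWithinAt (fun x => Sy i c (x, θ)) (Sy i d (x, θ)) J x := by
  obtain ⟨v, hv, hb'⟩ := k.bd
  have key := hasFD_tsum (s := J) hJ (f := fun (m : ℤ) x => ((m : ℂ) * I) ^ i * c m x * ex m θ)
    (f' := fun (m : ℤ) x => ContinuousLinearMap.toSpanSingleton ℝ
      (((m : ℂ) * I) ^ i * d m x * ex m θ)) hv
    (fun m z hz => (((hd m z hz).const_mul _).mul_const _).hasFDerivWithinAt)
    (fun m z hz => by
      rw [ContinuousLinearMap.norm_toSpanSingleton]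
      exact (term_le le_rfl d m (z, θ)).trans (hb' m _ hz))
    (fun z hz => h.summable (y := (z, θ)) le_rfl hz) x hx
  have s1 := k.summable (y := (x, θ)) le_rfl hx
  refine key.hasDerivWithinAt.congr_deriv ?_
  have s2 : Summable fun m : ℤ => ContinuousLinearMap.toSpanSingleton ℝ
      (((m : ℂ) * I) ^ i * d m x * ex m θ) := .of_norm_bounded hv fun m => by
    rw [ContinuousLinearMap.norm_toSpanSingleton]
    exact (term_le le_rfl d m (x, θ)).trans (hb' m _ hx)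
  have := (ContinuousLinearMap.apply ℝ ℂ (1 : ℝ)).map_tsum s2
  simpa [Sy] using this

end Md

theorem Sy_add (h : Md J n c) (k : Md J n d) (hi : i ≤ n) {y : ℝ × ℝ} (hy : y.1 ∈ J) :
    Sy i (fun m x => c m x + d m x) y = Sy i c y + Sy i d y := by
  rw [Sy, Sy, Sy, ← (h.summable hi hy).tsum_add (k.summable hi hy)]
  exact tsum_congr fun m => by ring


/-- the modes are the Fourier coefficients -/
theorem integral_Sy (h : Md J n c) (hi : i ≤ n) {x : ℝ} (hx : x ∈ J) (k : ℤ) :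
    ∫ θ in (0 : ℝ)..2 * Real.pi, ex (-k) θ * Sy i c (x, θ) =
      ((2 * Real.pi : ℝ) : ℂ) * ((k * I) ^ i * c k x) := by
  obtain ⟨u, hu, hb⟩ := h.bd
  have h1 := intervalIntegral.hasSum_integral_of_dominated_convergence (μ := MeasureTheory.volume)
    (a := (0 : ℝ)) (b := 2 * Real.pi)
    (F := fun (m : ℤ) θ => ex (m - k) θ * (((m : ℂ) * I) ^ i * c m x))
    (f := fun θ => ex (-k) θ * Sy i c (x, θ)) (fun m _ => u m)
    (fun m => ((continuous_ex _).mul continuous_const).aestronglyMeasurable)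
    (fun m => Eventually.of_forall fun θ _ => by
      have := (term_le hi c m (x, θ)).trans (hb m _ hx)
      simpa [norm_mul] using this)
    (Eventually.of_forall fun _ _ => hu) intervalIntegrable_const
    (Eventually.of_forall fun θ _ => by
      have := (h.summable (y := (x, θ)) hi hx).hasSum.mul_left (ex (-k) θ)
      have e : ∀ m : ℤ, ex (m - k) θ * (((m : ℂ) * I) ^ i * c m x) =
          ex (-k) θ * (((m : ℂ) * I) ^ i * c m x * ex m θ) := fun m => by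
        rw [sub_eq_neg_add, Wi.ex_add]; ring
      simp only [e]; exact this)
  refine h1.unique ?_
  simp only [intervalIntegral.integral_mul_const, Wi.integral_ex]
  have := hasSum_single (f := fun m : ℤ =>
    (if m - k = 0 then ((2 * Real.pi : ℝ) : ℂ) else 0) * (((m : ℂ) * I) ^ i * c m x)) k
    fun m hm => by rw [if_neg (sub_ne_zero.2 hm), zero_mul]
  rwa [if_pos (sub_self k)] at this

/-! ### modes of an element of the Wiener algebra -/

section wiener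

variable {K : Type*} [TopologicalSpace K] [CompactSpace K] {ω : WiW C(K, ℂ)}

/-- the modes of `u` read along `τ` -/
def md (τ : ℝ → K) (u : Wi ω) (m : ℤ) (x : ℝ) : ℂ := Wi.co u m (τ x)

variable (ω) in
/-- the weight gives `n` derivatives at `s` -/
def Gain (n : ℕ) (B : ℝ) (s : K) : Prop := ∀ m : ℤ, (1 + |(m : ℝ)|) ^ n * ‖ω.wi m s‖ ≤ B

theorem gain_zero (s : K) : Gain ω 0 1 s := fun m => by
  simpa using ((ω.wi m).norm_coe_le_norm s).trans (ω.inv_le m)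

theorem Gain.le {B : ℝ} {s : K} (h : Gain ω n B s) (u : Wi ω) (m : ℤ) :
    (1 + |(m : ℝ)|) ^ n * ‖Wi.co u m s‖ ≤ B * ‖Wi.raw u m‖ := by
  rw [Wi.co, ContinuousMap.mul_apply, norm_mul, ← mul_assoc]
  exact mul_le_mul (h m) ((Wi.raw u m).norm_coe_le_norm s) (norm_nonneg _)
    (le_trans (by positivity) (h m))

theorem md_Md {τ : ℝ → K} (hτ : ContinuousOn τ J) {B : ℝ} (h : ∀ x ∈ J, Gain ω n B (τ x))
    (u : Wi ω) : Md J n (md τ u) :=
  ⟨fun m => (Wi.co u m).continuous.comp_continuousOn hτ, _, (Wi.summable_raw u).mul_left B,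
    fun m x hx => (h x hx).le u m⟩

theorem norm_Sy_md {τ : ℝ → K} {B : ℝ} {y : ℝ × ℝ} (h : Gain ω n B (τ y.1)) (hi : i ≤ n)
    (u : Wi ω) : ‖Sy i (md τ u) y‖ ≤ B * ‖u‖ := by
  rw [Wi.norm_eq_raw]
  exact norm_Sy_le hi ((Wi.summable_raw u).hasSum.mul_left B) fun m => h.le u m

theorem Sy_zero_md (τ : ℝ → K) (u : Wi ω) (y : ℝ × ℝ) :
    Sy 0 (md τ u) y = Wi.syn u y.2 (τ y.1) := by
  have := (Wi.hasSum_syn u y.2).mapL (ContinuousMap.evalCLM ℂ (τ y.1))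
  refine (HasSum.tsum_eq ?_)
  simpa [md, mul_comm] using this

/-- the synthesis is a continuous linear functional -/
theorem exists_Sy_clm {τ : ℝ → K} {B : ℝ} {y : ℝ × ℝ} (h : Gain ω n B (τ y.1)) (hi : i ≤ n) :
    ∃ L : Wi ω →L[ℂ] ℂ, ‖L‖ ≤ B ∧ ∀ u, L u = Sy i (md τ u) y := by
  have hB : 0 ≤ B := le_trans (by positivity) (h 0)
  have hM : ∀ u : Wi ω, Md {y.1} n (md τ u) := fun u =>
    md_Md (continuousOn_singleton _ _) (fun x hx => by rw [hx]; exact h) u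
  refine ⟨LinearMap.mkContinuous ⟨⟨fun u => Sy i (md τ u) y, fun u v => ?_⟩, fun a u => ?_⟩ B
    fun u => norm_Sy_md h hi u, LinearMap.mkContinuous_norm_le _ hB _, fun _ => rfl⟩
  · rw [← Sy_add (hM u) (hM v) hi rfl]
    exact Sy_congr i fun m => by simp [md]
  · have := Sy_mul i (fun _ => a) (md τ u) y
    simp only [RingHom.id_apply, smul_eq_mul, ← this]
    exact Sy_congr i fun m => by simp [md]

variable {τ : ℝ → K}



end wiener

end Crest.Agent.N250.Sm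

end
end

-- ▼ part N250/B1/Sm2

/-!
# Row 250, B1 S6 (helper95): jets of the end solver are jets of a function of `(x, θ)`
-/

set_option autoImplicit false
open Set Filter Topology Complex
open scoped ContDiff

noncomputable section

namespace Crest.Agent.N250.B1

open Sm

variable {ℓ : Ell} {R : ℝ} {X a : ℂ} {τ : ℝ → II} {S : Set ℝ} {J : Jt ℓ} {n : ℕ}

/-- `τ` reads the path `γ_X` in the real coordinate `x ∈ S` -/
structure Rd (R : ℝ) (X : ℂ) (τ : ℝ → II) (S : Set ℝ) : Prop where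
  cv : Convex ℝ S
  cont : ContinuousOn τ S
  gam : ∀ x ∈ S, gam R X (τ x) = x
  der : ∀ y y' : CI, Der y (dgam R X * y') → ∀ x ∈ S,
    HasDerivWithinAt (fun x => y (τ x)) (y' (τ x)) S x

theorem Rd.mono (h : Rd R X τ S) {S' : Set ℝ} (hc : Convex ℝ S') (hs : S' ⊆ S) : Rd R X τ S' :=
  ⟨hc, h.cont.mono hs, fun x hx => h.gam x (hs hx),
    fun y y' d x hx => (h.der y y' d x (hs hx)).mono hs⟩

/-- the parameter of the point `x` of the strip -/
def tS (R x : ℝ) : II := projIcc 0 1 zero_le_one ((x - R) / 2)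

theorem continuous_tS (R : ℝ) : Continuous (tS R) := by
  unfold tS; exact continuous_projIcc.comp (by fun_prop)

theorem tS_coe {x : ℝ} (hx : x ∈ Icc R (R + 1)) : (tS R x : ℝ) = (x - R) / 2 := by
  rw [tS, projIcc_of_mem _ ⟨by linarith [hx.1], by linarith [hx.2]⟩]

theorem cub_tS {x : ℝ} (hx : x ∈ Icc R (R + 1)) : cub (tS R x) = 0 := by
  rw [tS_coe hx, cub]; exact max_eq_right (by linarith [hx.2])

theorem xr_tS (Y : ℝ) {x : ℝ} (hx : x ∈ Icc R (R + 1)) : xr R Y (tS R x) = x := by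
  rw [xr, cub_tS hx, tS_coe hx]; ring

theorem rd_strip (R : ℝ) (X : ℂ) : Rd R X (tS R) (Icc R (R + 1)) := by
  refine ⟨convex_Icc _ _, (continuous_tS R).continuousOn, fun x hx => ?_, fun y y' d x hx => ?_⟩
  · rw [gam_apply, cub_tS hx, tS_coe hx]; push_cast; ring
  · have h1 : HasDerivWithinAt (fun x : ℝ => (x - R) / 2) (1 / 2) (Icc R (R + 1)) x :=
      (((hasDerivAt_id x).sub_const R).div_const 2).hasDerivWithinAt
    have hm : MapsTo (fun x : ℝ => (x - R) / 2) (Icc R (R + 1)) (Icc 0 1) := fun x hx =>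
      ⟨by have := hx.1; simp only; linarith, by have := hx.2; simp only; linarith⟩
    refine ((d.hasD (hm hx)).scomp x h1 hm).congr_deriv ?_
    change (1 / 2 : ℝ) • (dgam R X (tS R x) * y' (tS R x)) = _
    simp only [dgam, ContinuousMap.coe_mk, cub_tS hx, real_smul]; push_cast; ring

/-- the `k`-th jet of `v` as a function of `(x, θ)` -/
def vk (R : ℝ) (X a : ℂ) (J : Jt ℓ) (τ : ℝ → II) (k : Fin 6) (y : ℝ × ℝ) : ℂ :=
  vj R X a J (τ y.1) y.2 k

theorem val_eq (u : Wi (om ℓ)) (τ : ℝ → II) (y : ℝ × ℝ) :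
    val u (τ y.1) y.2 = Sy 0 (md τ u) y := (Sy_zero_md τ u y).symm

theorem vk0 (h : Rd R X τ S) {y : ℝ × ℝ} (hy : y.1 ∈ S) :
    vk R X a J τ 0 y = et a y.1 + Sy 0 (md τ (J 0)) y := by
  simp [vk, vj, h.gam _ hy, val_eq]

theorem vk1 (h : Rd R X τ S) {y : ℝ × ℝ} (hy : y.1 ∈ S) :
    vk R X a J τ 1 y = a * y.1 + Sy 0 (md τ (J 1)) y := by
  simp [vk, vj, h.gam _ hy, val_eq]

theorem vk2 (y : ℝ × ℝ) : vk R X a J τ 2 y = a + Sy 0 (md τ (J 2)) y := by simp [vk, vj, val_eq]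

theorem vk_per (k : Fin 6) (x θ : ℝ) :
    vk R X a J τ k (x, θ + 2 * Real.pi) = vk R X a J τ k (x, θ) := by
  fin_cases k <;> simp [vk, vj, val, Wi.syn_periodic]

namespace IsJet

variable {c : CI}

theorem md3 (h : IsJet c J) : md τ (J 3) = fun (m : ℤ) x => m * I * md τ (J 0) m x := by
  funext m x; simp [md, h.t0]

theorem md4 (h : IsJet c J) : md τ (J 4) = fun (m : ℤ) x => m * I * md τ (J 1) m x := by
  funext m x; simp [md, h.t1]

theorem md5 (h : IsJet c J) : md τ (J 5) = fun (m : ℤ) x => m * I * md τ (J 3) m x := by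
  funext m x
  simp only [md, h.t2, h.t0, ContinuousMap.smul_apply, smul_eq_mul]
  linear_combination (-(m : ℂ) ^ 2 * Wi.co (J 0) m (τ x)) * I_mul_I

theorem sy3 (h : IsJet c J) (i : ℕ) : Sy i (md τ (J 3)) = Sy (i + 1) (md τ (J 0)) := by
  rw [h.md3, Sy_succ]

theorem sy4 (h : IsJet c J) (i : ℕ) : Sy i (md τ (J 4)) = Sy (i + 1) (md τ (J 1)) := by
  rw [h.md4, Sy_succ]

theorem sy5 (h : IsJet c J) (i : ℕ) : Sy i (md τ (J 5)) = Sy (i + 2) (md τ (J 0)) := by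
  rw [h.md5, ← Sy_succ, h.sy3]

theorem vk3 (h : IsJet c J) : vk R X a J τ 3 = Sy 1 (md τ (J 0)) := by
  funext y; simp [vk, vj, val_eq, h.sy3]

theorem vk4 (h : IsJet c J) : vk R X a J τ 4 = Sy 1 (md τ (J 1)) := by
  funext y; simp [vk, vj, val_eq, h.sy4]

theorem vk5 (h : IsJet c J) : vk R X a J τ 5 = Sy 2 (md τ (J 0)) := by
  funext y; simp [vk, vj, val_eq, h.sy5]

theorem md0 (h : IsJet c J) (m : ∀ k, Sm.Md S n (md τ (J k))) : Sm.Md S (n + 2) (md τ (J 0)) := by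
  have h3 : Sm.Md S (n + 1) (md τ (J 3)) := (m 3).succ (by rw [← h.md5]; exact m 5)
  have h0 : Sm.Md S (n + 1) (md τ (J 0)) := (m 0).succ (by rw [← h.md3]; exact m 3)
  exact h0.succ (by rw [← h.md3]; exact h3)

theorem md1 (h : IsJet c J) (m : ∀ k, Sm.Md S n (md τ (J k))) : Sm.Md S (n + 1) (md τ (J 1)) :=
  (m 1).succ (by rw [← h.md4]; exact m 4)

theorem dW (h : IsJet (dgam R X) J) (hr : Rd R X τ S) (m : ∀ k, Sm.Md S n (md τ (J k))) {i : ℕ}
    (hi : i ≤ n + 1) {y : ℝ × ℝ} (hy : y ∈ S ×ˢ (univ : Set ℝ)) :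
    HasFDerivWithinAt (Sy i (md τ (J 0))) (D2 (Sy i (md τ (J 1)) y) (Sy (i + 1) (md τ (J 0)) y))
      (S ×ˢ univ) y :=
  Sm.Md.dF hr.cv ((h.md0 m).mono le_rfl (by omega)) ((h.md1 m).mono le_rfl hi)
    (fun k x hx => hr.der _ _ (h.d0 k) x hx) hy

theorem dP (h : IsJet (dgam R X) J) (hr : Rd R X τ S) (m : ∀ k, Sm.Md S n (md τ (J k))) {i : ℕ}
    (hi : i ≤ n) {y : ℝ × ℝ} (hy : y ∈ S ×ˢ (univ : Set ℝ)) :
    HasFDerivWithinAt (Sy i (md τ (J 1))) (D2 (Sy i (md τ (J 2)) y) (Sy (i + 1) (md τ (J 1)) y))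
      (S ×ˢ univ) y :=
  Sm.Md.dF hr.cv ((h.md1 m).mono le_rfl (by omega)) ((m 2).mono le_rfl hi)
    (fun k x hx => hr.der _ _ (h.d1 k) x hx) hy

end IsJet

theorem Rd.md (hr : Rd R X τ S) (u : Wi (om ℓ)) : Sm.Md S 0 (md τ u) :=
  md_Md hr.cont (fun _ _ => gain_zero _) u

theorem fd_fst (s : Set (ℝ × ℝ)) (y : ℝ × ℝ) :
    HasFDerivWithinAt (fun y : ℝ × ℝ => (y.1 : ℂ)) (D2 1 0) s y :=
  (derF (univ : Set Unit) univ).fst () trivial y trivial |>.mono (subset_univ _)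

section c2

variable (h : IsJet (dgam R X) J) (hr : Rd R X τ S) {y : ℝ × ℝ} (hy : y ∈ S ×ˢ (univ : Set ℝ))
include h hr hy

/-- `d v = v_x dx + v_θ dθ` -/
theorem IsJet.fd0 : HasFDerivWithinAt (vk R X a J τ 0)
    (D2 (vk R X a J τ 1 y) (vk R X a J τ 3 y)) (S ×ˢ univ) y := by
  have h1 := ((((fd_fst (S ×ˢ univ) y).pow 2).sub_const 2).const_mul (a / 2)).const_add 1
  have h2 := h1.add (h.dW hr (fun k => hr.md (J k)) (i := 0) (by omega) hy)
  refine (h2.congr_fderiv (ContinuousLinearMap.ext fun v => ?_)).congr (fun z hz => ?_) ?_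
  · rw [vk1 hr hy.1, h.vk3]; simp; ring
  · rw [vk0 hr hz.1, et]; simp; ring
  · rw [vk0 hr hy.1, et]; simp; ring

/-- `d v_x = v_xx dx + v_xθ dθ` -/
theorem IsJet.fd1 : HasFDerivWithinAt (vk R X a J τ 1)
    (D2 (vk R X a J τ 2 y) (vk R X a J τ 4 y)) (S ×ˢ univ) y := by
  have h2 := ((fd_fst (S ×ˢ univ) y).const_mul a).add
    (h.dP hr (fun k => hr.md (J k)) (i := 0) le_rfl hy)
  refine (h2.congr_fderiv (ContinuousLinearMap.ext fun v => ?_)).congr (fun z hz => ?_) ?_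
  · rw [vk2, h.vk4]; simp; ring
  · rw [vk1 hr hz.1]; simp
  · rw [vk1 hr hy.1]; simp

/-- `d v_θ = v_xθ dx + v_θθ dθ` -/
theorem IsJet.fd3 : HasFDerivWithinAt (vk R X a J τ 3)
    (D2 (vk R X a J τ 4 y) (vk R X a J τ 5 y)) (S ×ˢ univ) y := by
  rw [h.vk3, h.vk4, h.vk5]
  exact h.dW hr (fun k => hr.md (J k)) (i := 1) le_rfl hy

end c2

theorem Rd.cont_vk (hr : Rd R X τ S) (k : Fin 6) : ContinuousOn (vk R X a J τ k) (S ×ˢ univ) := by
  have h1 : ∀ j, ContinuousOn (fun y : ℝ × ℝ => val (J j) (τ y.1) y.2) (S ×ˢ univ) := fun j => by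
    simp only [val_eq]; exact (hr.md (J j)).cSy le_rfl
  have h2 : ContinuousOn (fun y : ℝ × ℝ => B1.gam R X (τ y.1)) (S ×ˢ univ) :=
    (B1.gam R X).continuous.comp_continuousOn (hr.cont.comp continuousOn_fst fun y hy => hy.1)
  fin_cases k
  · exact (continuousOn_const.add ((continuousOn_const.mul
      ((h2.pow 2).sub continuousOn_const)).div_const 2)).add (h1 0)
  · exact (continuousOn_const.mul h2).add (h1 1)
  · exact continuousOn_const.add (h1 2)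
  exacts [h1 3, h1 4, h1 5]

/-- a jet is the 2-jet of a `C²` function -/
theorem IsJet.c2 (h : IsJet (dgam R X) J) (hr : Rd R X τ S) (hS : UniqueDiffOn ℝ S) :
    ContDiffOn ℝ 2 (vk R X a J τ 0) (S ×ˢ univ) := by
  have c0 : ∀ k, ((cc (univ : Set Unit) (S ×ˢ univ)).up 0).S fun _ => vk R X a J τ k :=
    fun k _ _ => hr.cont_vk k
  have c1 := Sm.Cl.up_succ (c0 1) (c0 2) (c0 4) fun _ _ y hy => h.fd1 hr hy
  have c3 := Sm.Cl.up_succ (c0 3) (c0 4) (c0 5) fun _ _ y hy => h.fd3 hr hy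
  have d0 := Sm.Cl.up_succ (c0 0) (c0 1) (c0 3) fun _ _ y hy => h.fd0 hr hy
  exact Sm.Cl.up_contDiffOn (hS.prod uniqueDiffOn_univ)
    (Sm.Cl.up_succ d0 c1 c3 fun _ _ y hy => h.fd0 hr hy) () trivial

/-! ### the equation solved for `v_xx` -/

/-- `v_xx` as a polynomial in the other jets, `iv = 1/v` and `iN = 1/(4 v² + v_θ²)` -/
def Fxx (x v vx vt vxt vtt iv iN : ℂ) : ℂ :=
  -(2 * v * iN * ((-(x / 2 * vx) + v - 1 + vtt * iv / 2 - vt ^ 2 * iv ^ 2 / 4) *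
      (2 * v + vx ^ 2 + vt ^ 2 * iv / 2) -
    (vx * (2 * vx + vt * vxt * iv - vt ^ 2 * vx * iv ^ 2 / 2) +
      vt * (2 * vt + 2 * vx * vxt + vt * vtt * iv - vt ^ 3 * iv ^ 2 / 2) * iv / 2) / 2))

theorem solve_EL {x v vx vt vxx vxt vtt : ℂ} (hv : v ≠ 0) (hQ : Po.QQ v vx vt ≠ 0)
    (hN : 4 * v ^ 2 + vt ^ 2 ≠ 0) (h : Po.EL x v vx vt vxx vxt vtt = 0) :
    vxx = Fxx x v vx vt vxt vtt v⁻¹ (4 * v ^ 2 + vt ^ 2)⁻¹ := by
  have hq : Po.QQ v vx vt = 2 * v + vx ^ 2 + vt ^ 2 * v⁻¹ / 2 := by rw [Po.QQ]; field_simp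
  have e : Po.EL x v vx vt vxx vxt vtt = vxx + (-(x / 2 * vx) + v - 1 + vtt * v⁻¹ / 2 -
      vt ^ 2 * v⁻¹ ^ 2 / 4) - ((vx * (2 * vx + vt * vxt * v⁻¹ - vt ^ 2 * vx * v⁻¹ ^ 2 / 2) +
      vt * (2 * vt + 2 * vx * vxt + vt * vtt * v⁻¹ - vt ^ 3 * v⁻¹ ^ 2 / 2) * v⁻¹ / 2) / 2 +
      vx ^ 2 * vxx) * (Po.QQ v vx vt)⁻¹ := by
    unfold Po.EL
    generalize Po.QQ v vx vt = Q at hQ
    field_simp
    ring
  rw [h] at e
  have h1 := mul_inv_cancel₀ hv
  have h2 := mul_inv_cancel₀ hN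
  have h3 := mul_inv_cancel₀ hQ
  unfold Fxx
  rw [← hq]
  generalize v⁻¹ = iv at *
  generalize (4 * v ^ 2 + vt ^ 2)⁻¹ = iN at *
  generalize (Po.QQ v vx vt)⁻¹ = iQ at *
  generalize Po.QQ v vx vt = Q at *
  generalize -(x / 2 * vx) + v - 1 + vtt * iv / 2 - vt ^ 2 * iv ^ 2 / 4 = A at *
  generalize (vx * (2 * vx + vt * vxt * iv - vt ^ 2 * vx * iv ^ 2 / 2) +
      vt * (2 * vt + 2 * vx * vxt + vt * vtt * iv - vt ^ 3 * iv ^ 2 / 2) * iv / 2) / 2 = B at *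
  have k : A * Q - B = -((Q - vx ^ 2) * vxx) := by
    linear_combination (-Q) * e + (B + vx ^ 2 * vxx) * h3
  rw [k, hq]
  linear_combination (-vxx) * h2 - vxx * iN * vt ^ 2 * h1

theorem Fxx_mem {P : Type*} {U : Set P} {Ω : Set (ℝ × ℝ)} (C : Sm.Cl U Ω)
    {x v vx vt vxt vtt iv iN : Fn P} (h1 : C.S x) (h2 : C.S v) (h3 : C.S vx) (h4 : C.S vt)
    (h5 : C.S vxt) (h6 : C.S vtt) (h7 : C.S iv) (h8 : C.S iN) : C.S fun p y =>
      Fxx (x p y) (v p y) (vx p y) (vt p y) (vxt p y) (vtt p y) (iv p y) (iN p y) := by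
  unfold Fxx
  repeat' first
    | assumption
    | exact C.const _
    | apply C.neg
    | apply C.sub
    | apply C.add
    | apply C.div_const
    | apply C.mul
    | apply C.pow

theorem et_mem {P : Type*} {U : Set P} {Ω : Set (ℝ × ℝ)} (C : Sm.Cl U Ω) {x a : Fn P} (h1 : C.S x)
    (h2 : C.S a) : C.S fun p y => et (a p y) (x p y) :=
  C.add (C.const 1) (C.div_const (C.mul h2 (C.sub (C.pow h1 2) (C.const 2))) 2)

/-- `4 v² + v_θ²` -/
def vN (R : ℝ) (X a : ℂ) (J : Jt ℓ) (τ : ℝ → II) (y : ℝ × ℝ) : ℂ :=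
  4 * vk R X a J τ 0 y ^ 2 + vk R X a J τ 3 y ^ 2

/-- **all jets of `v` up to order `n + 2` lie in the class `C`** -/
theorem up_vk {P : Type*} {U : Set P} (C : Sm.Cl U (S ×ˢ (univ : Set ℝ))) {z : P → Par ℓ}
    {J : P → Jt ℓ} (hr : ∀ p ∈ U, Rd R (z p).1 τ S) (hs : ∀ p ∈ U, Sol R (z p) (J p))
    (hm : ∀ p ∈ U, ∀ k, Sm.Md S n (md τ (J p k)))
    (hJ : ∀ k, ∀ i ≤ n, C.S fun p => Sy i (md τ (J p k))) (hx : C.S fun _ y => (y.1 : ℂ))
    (ha : C.S fun p _ => (z p).2.1)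
    (h0 : ∀ p ∈ U, ∀ y ∈ S ×ˢ (univ : Set ℝ), vk R (z p).1 (z p).2.1 (J p) τ 0 y ≠ 0 ∧
      vN R (z p).1 (z p).2.1 (J p) τ y ≠ 0 ∧ Po.QQ (vk R (z p).1 (z p).2.1 (J p) τ 0 y)
        (vk R (z p).1 (z p).2.1 (J p) τ 1 y) (vk R (z p).1 (z p).2.1 (J p) τ 3 y) ≠ 0)
    (hv : C.S fun p y => (vk R (z p).1 (z p).2.1 (J p) τ 0 y)⁻¹)
    (hN : C.S fun p y => (vN R (z p).1 (z p).2.1 (J p) τ y)⁻¹) :
    (C.up (n + 2)).S fun p => vk R (z p).1 (z p).2.1 (J p) τ 0 := by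
  have key := boot C n (W := fun i p => Sy i (md τ (J p 0))) (Pp := fun i p => Sy i (md τ (J p 1)))
    (Q := fun i p => Sy i (md τ (J p 2))) (fun i hi => ?_) (fun i hi => ?_)
    (fun i hi p hp y hy => (hs p hp).jet.dW (hr p hp) (hm p hp) hi hy)
    (fun i hi p hp y hy => (hs p hp).jet.dP (hr p hp) (hm p hp) hi hy)
    (fun i hi p hp y hy => (hm p hp 2).dt hi hy.1) (fun C' hE w0 w1 w2 p0 p1 => ?_) (n + 2)
  · have hE := (Ext.refl C).it (derF U _) (n + 2)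
    exact (C.up _).congr ((C.up _).add (et_mem _ (hE.fst hx) (hE.par ha)) (key.1 0 (by omega)))
      fun p hp y hy => vk0 (hr p hp) hy.1
  · obtain _ | _ | i := i
    · exact hJ 0 0 (by omega)
    · exact C.congr (hJ 3 0 (by omega)) fun p hp y _ => by rw [(hs p hp).jet.sy3]
    · exact C.congr (hJ 5 i (by omega)) fun p hp y _ => by rw [(hs p hp).jet.sy5]
  · obtain _ | i := i
    · exact hJ 1 0 (by omega)
    · exact C.congr (hJ 4 i (by omega)) fun p hp y _ => by rw [(hs p hp).jet.sy4]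
  · have x' := hE.fst hx
    have a' := hE.par ha
    have v0 : C'.S fun p => vk R (z p).1 (z p).2.1 (J p) τ 0 :=
      C'.congr (C'.add (et_mem _ x' a') w0) fun p hp y hy => vk0 (hr p hp) hy.1
    have v1 : C'.S fun p => vk R (z p).1 (z p).2.1 (J p) τ 1 :=
      C'.congr (C'.add (C'.mul a' x') p0) fun p hp y hy => vk1 (hr p hp) hy.1
    have v3 : C'.S fun p => vk R (z p).1 (z p).2.1 (J p) τ 3 :=
      C'.congr w1 fun p hp y _ => by rw [(hs p hp).jet.vk3]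
    have v4 : C'.S fun p => vk R (z p).1 (z p).2.1 (J p) τ 4 :=
      C'.congr p1 fun p hp y _ => by rw [(hs p hp).jet.vk4]
    have v5 : C'.S fun p => vk R (z p).1 (z p).2.1 (J p) τ 5 :=
      C'.congr w2 fun p hp y _ => by rw [(hs p hp).jet.vk5]
    have vn : C'.S fun p => vN R (z p).1 (z p).2.1 (J p) τ :=
      C'.add (C'.cmul 4 (C'.pow v0 2)) (C'.pow v3 2)
    have i1 := hE.inv v0 (fun p hp y hy => (h0 p hp y hy).1) hv
    have i2 := hE.inv vn (fun p hp y hy => (h0 p hp y hy).2.1) hN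
    refine C'.congr (C'.sub (Fxx_mem C' x' v0 v1 v3 v4 v5 i1 i2) a') fun p hp y hy => ?_
    have e := (hs p hp).eq (τ y.1) y.2
    rw [(hr p hp).gam _ hy.1] at e
    have := solve_EL (h0 p hp y hy).1 (h0 p hp y hy).2.2 (h0 p hp y hy).2.1 e
    rw [eq_sub_iff_add_eq, add_comm, ← vk2]
    exact this

end Crest.Agent.N250.B1

end
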